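import Vale.Agent.P166.Functional
import Vale.Agent.P166.Pattern.Gauss

/-!
Two-sided invariance of the Haar measure and the laws of images of orthonormal frames.
-/

open MeasureTheory ProbabilityTheory Matrix
open scoped ENNReal

noncomputable section

namespace Vale.Agent.P166.Phase

open Pattern (gauss)

variable {N : ℕ}

/-- image of a vector -/
def app (U : Mat N) (u : Fin N → ℝ) : Fin N → ℝ := fun k => ∑ i, U k i * u i

/-- inner product -/
def ip (x y : Fin N → ℝ) : ℝ := ∑ i, x i * y i

/-- product of arrays -/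
def mul (A B : Mat N) : Mat N := fun i j => ∑ k, A i k * B k j

/-- transposed array -/
def tp (A : Mat N) : Mat N := fun i j => A j i

/-- orthogonality -/
abbrev Orth (U : Mat N) : Prop := Matrix.of U ∈ Matrix.orthogonalGroup (Fin N) ℝ

/-- unit vector in the direction of `x` -/
def nz (x : Fin N → ℝ) : Fin N → ℝ := fun i => x i / √(ip x x)

/-- component of `y` orthogonal to the direction of `x` -/
def perp (x y : Fin N → ℝ) : Fin N → ℝ := fun i => y i - ip (nz x) y * nz x i

@[fun_prop]
lemma measurable_nz : Measurable (nz (N := N)) := by unfold nz ip; fun_prop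

@[fun_prop]
lemma measurable_app : Measurable fun q : Mat N × (Fin N → ℝ) => app q.1 q.2 := by unfold app; fun_prop

lemma Orth.col {U : Mat N} (h : Orth U) (i j : Fin N) : ∑ k, U k i * U k j = if i = j then 1 else 0 := by
  have := congrFun (congrFun ((Matrix.mem_orthogonalGroup_iff' (Fin N) ℝ).1 h) i) j
  simpa [Matrix.mul_apply, Matrix.transpose_apply, Matrix.one_apply] using this

lemma Orth.tp {U : Mat N} (h : Orth U) : Orth (tp U) := by
  show Matrix.of (fun i j => U j i) ∈ _
  rw [Matrix.mem_orthogonalGroup_iff]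
  ext i j
  simpa [Matrix.mul_apply, Matrix.transpose_apply, Matrix.one_apply] using h.col i j

lemma ip_comm (x y : Fin N → ℝ) : ip x y = ip y x := Finset.sum_congr rfl fun i _ => mul_comm _ _

lemma ip_app {U : Mat N} (h : Orth U) (x y : Fin N → ℝ) : ip (app U x) (app U y) = ip x y := by
  simp only [ip, app, Finset.sum_mul_sum]
  rw [Finset.sum_comm]
  refine Finset.sum_congr rfl fun i _ => ?_
  rw [Finset.sum_comm]
  calc ∑ j, ∑ k, U k i * x i * (U k j * y j) = ∑ j, x i * y j * ∑ k, U k i * U k j :=
        Finset.sum_congr rfl fun j _ => by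
          rw [Finset.mul_sum]; exact Finset.sum_congr rfl fun k _ => by ring
    _ = _ := by simp [h.col]

lemma app_mul (A B : Mat N) (x : Fin N → ℝ) : app (mul A B) x = app A (app B x) := by
  funext k
  simp only [app, mul, Finset.sum_mul, Finset.mul_sum]
  rw [Finset.sum_comm]
  exact Finset.sum_congr rfl fun i _ => Finset.sum_congr rfl fun j _ => by ring

lemma nz_app {U : Mat N} (h : Orth U) (x : Fin N → ℝ) : nz (app U x) = app U (nz x) := by
  funext k
  simp only [nz, ip_app h]
  simp only [app, Finset.sum_div]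
  exact Finset.sum_congr rfl fun i _ => by simp only [nz]; ring

lemma perp_app {U : Mat N} (h : Orth U) (x y : Fin N → ℝ) : perp (app U x) (app U y) = app U (perp x y) := by
  funext k
  simp only [perp, nz_app h, ip_app h]
  simp only [app]
  rw [Finset.mul_sum, ← Finset.sum_sub_distrib]
  exact Finset.sum_congr rfl fun i _ => by simp only [perp]; ring

lemma ip_nz_self {x : Fin N → ℝ} (h : ip x x ≠ 0) : ip (nz x) (nz x) = 1 := by
  have h0 : 0 ≤ ip x x := Finset.sum_nonneg fun i _ => mul_self_nonneg _
  have e : ip (nz x) (nz x) = ip x x / (√(ip x x) * √(ip x x)) := by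
    simp only [ip, nz, Finset.sum_div]
    exact Finset.sum_congr rfl fun i _ => div_mul_div_comm _ _ _ _
  rw [e, Real.mul_self_sqrt h0, div_self h]

lemma ip_nz_perp {x : Fin N → ℝ} (h : ip x x ≠ 0) (y : Fin N → ℝ) : ip (nz x) (perp x y) = 0 := by
  have := ip_nz_self h
  simp only [ip, perp, mul_sub, Finset.sum_sub_distrib] at this ⊢
  rw [sub_eq_zero]
  calc ∑ i, nz x i * y i = (∑ i, nz x i * y i) * ∑ i, nz x i * nz x i := by rw [this, mul_one]
    _ = ∑ i, nz x i * ((∑ i, nz x i * y i) * nz x i) := by
      rw [Finset.mul_sum]; exact Finset.sum_congr rfl fun i _ => by ring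

/-! ### reflections -/

/-- reflection orthogonal to `w` (the identity for `w = 0`) -/
def refl (w : Fin N → ℝ) : Mat N := fun i j => (if i = j then 1 else 0) - 2 * w i * w j / ip w w

lemma app_refl (w x : Fin N → ℝ) : app (refl w) x = fun k => x k - 2 * ip w x / ip w w * w k := by
  funext k
  simp only [app, refl, sub_mul, Finset.sum_sub_distrib, ite_mul, one_mul, zero_mul, Finset.sum_ite_eq,
    Finset.mem_univ, if_true]
  congr 1
  simp only [ip, Finset.mul_sum, Finset.sum_div, Finset.sum_mul]
  exact Finset.sum_congr rfl fun i _ => by ring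

lemma orth_refl (w : Fin N → ℝ) : Orth (refl w) := by
  rw [Orth, Matrix.mem_orthogonalGroup_iff]
  ext i j
  simp only [Matrix.mul_apply, Matrix.transpose_apply, Matrix.of_apply, refl, Matrix.one_apply]
  set q := ip w w with hq
  have e : ∀ k, ((if i = k then (1:ℝ) else 0) - 2 * w i * w k / q) * ((if j = k then 1 else 0) - 2 * w j * w k / q) =
      (if i = k then (if j = k then (1:ℝ) else 0) else 0) - (if i = k then 2 * w j * w k / q else 0) -
        (if j = k then 2 * w i * w k / q else 0) + 4 * w i * w j / q / q * (w k * w k) := fun k => by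
    split_ifs <;> ring
  simp only [e, Finset.sum_add_distrib, Finset.sum_sub_distrib, Finset.sum_ite_eq, Finset.mem_univ, if_true,
    ← Finset.mul_sum]
  rw [show ∑ k, w k * w k = q from rfl, if_congr (eq_comm (a := j) (b := i)) rfl rfl]
  rcases eq_or_ne q 0 with h | h
  · simp [h]
  · field_simp
    ring

lemma app_refl_map {u u' : Fin N → ℝ} (h : ip u u = ip u' u') : app (refl fun i => u i - u' i) u = u' := by
  rw [app_refl]
  funext k
  set w := fun i => u i - u' i
  have e2 : ip w w = 2 * ip w u := by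
    simp only [ip, w, sub_mul, mul_sub, Finset.sum_sub_distrib] at h ⊢
    rw [show ∑ i, u' i * u i = ∑ i, u i * u' i from Finset.sum_congr rfl fun i _ => mul_comm _ _]
    linarith
  rcases eq_or_ne (ip w w) 0 with h0 | h0
  · have : w k * w k = 0 :=
      le_antisymm (h0 ▸ Finset.single_le_sum (f := fun i => w i * w i) (fun i _ => mul_self_nonneg _) (Finset.mem_univ k))
        (mul_self_nonneg _)
    have hk : u k = u' k := sub_eq_zero.1 (mul_self_eq_zero.1 this)
    simp [h0, hk]
  · rw [← e2, div_self h0, one_mul]; simp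

/-- an orthogonal map between two orthonormal pairs -/
lemma exists_frame {u v u' v' : Fin N → ℝ} (hu : ip u u = ip u' u') (hv : ip v v = ip v' v')
    (huv : ip u v = ip u' v') : ∃ O, Orth O ∧ app O u = u' ∧ app O v = v' := by
  set R := refl fun i => u i - u' i
  have h1 : app R u = u' := app_refl_map hu
  set v1 := app R v
  have hv1 : ip v1 v1 = ip v' v' := by rw [ip_app (orth_refl _), hv]
  set w := fun i => v1 i - v' i
  have hwu : ip w u' = 0 := by
    have e : ip v1 u' = ip v' u' := by rw [← h1, ip_app (orth_refl _), ip_comm, huv, ip_comm, h1]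
    simp only [ip, w, sub_mul, Finset.sum_sub_distrib] at e ⊢
    linarith
  refine ⟨mul (refl w) R, ?_, ?_, ?_⟩
  · show Matrix.of (refl w) * Matrix.of R ∈ Matrix.orthogonalGroup (Fin N) ℝ
    exact Submonoid.mul_mem _ (orth_refl w) (orth_refl _)
  · rw [app_mul, h1, app_refl]; simp [hwu]
  · rw [app_mul]; exact app_refl_map hv1

/-! ### invariance -/

variable {ν : Measure (Mat N)}

lemma measurable_mul : Measurable fun q : Mat N × Mat N => mul q.1 q.2 := by unfold mul; fun_prop

lemma measurable_tp : Measurable (tp (N := N)) := by unfold tp; fun_prop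

/-- Haar measure is invariant under transposition -/
lemma map_tp (hν : IsHaarOrthogonal ν) : ν.map tp = ν := by
  have := hν.1
  set T : Mat N × Mat N → Mat N := fun q => mul (tp q.1) q.2
  have hT : Measurable T := measurable_mul.comp ((measurable_tp.comp measurable_fst).prodMk measurable_snd)
  refine Measure.ext fun S hS => ?_
  have h1 : (ν.prod ν) (T ⁻¹' S) = ν S := by
    rw [Measure.prod_apply (hT hS)]
    calc ∫⁻ U, ν (Prod.mk U ⁻¹' (T ⁻¹' S)) ∂ν = ∫⁻ _U, ν S ∂ν := by
          refine lintegral_congr_ae (hν.2.1.mono fun U hU => ?_)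
          have hm : Measurable fun W : Mat N => mul (tp U) W :=
            measurable_mul.comp (measurable_const.prodMk measurable_id)
          show ν ((fun W => mul (tp U) W) ⁻¹' S) = ν S
          rw [← Measure.map_apply hm hS]
          exact congrArg (fun m => m S) (hν.2.2 _ (Orth.tp hU))
      _ = ν S := by simp
  have h2 : (ν.prod ν) (T ⁻¹' S) = ν.map tp S := by
    rw [Measure.prod_apply_symm (hT hS), Measure.map_apply measurable_tp hS]
    calc ∫⁻ W, ν ((fun U => (U, W)) ⁻¹' (T ⁻¹' S)) ∂ν = ∫⁻ _W, ν (tp ⁻¹' S) ∂ν := by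
          refine lintegral_congr_ae (hν.2.1.mono fun W hW => ?_)
          have hm : Measurable fun U : Mat N => mul (tp W) U :=
            measurable_mul.comp (measurable_const.prodMk measurable_id)
          have e : (fun U => (U, W)) ⁻¹' (T ⁻¹' S) = (fun U => mul (tp W) U) ⁻¹' (tp ⁻¹' S) := by
            ext U
            have : T (U, W) = tp (mul (tp W) U) := by
              funext i j; simp only [T, mul, tp]; exact Finset.sum_congr rfl fun k _ => mul_comm _ _
            simp [this]
          show ν ((fun U => (U, W)) ⁻¹' (T ⁻¹' S)) = ν (tp ⁻¹' S)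
          rw [e, ← Measure.map_apply hm (measurable_tp hS)]
          exact congrArg (fun m => m (tp ⁻¹' S)) (hν.2.2 _ (Orth.tp hW))
      _ = _ := by simp
  rw [← h2, h1]

/-- Haar measure is invariant under right multiplication -/
lemma map_mul_right (hν : IsHaarOrthogonal ν) {O : Mat N} (hO : Orth O) : ν.map (fun U => mul U O) = ν := by
  have e : (fun U => mul U O) = tp ∘ (fun U => mul (tp O) U) ∘ tp := by
    funext U i j; simp only [Function.comp, mul, tp]; exact Finset.sum_congr rfl fun k _ => mul_comm _ _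
  have hm : Measurable fun U : Mat N => mul (tp O) U := measurable_mul.comp (measurable_const.prodMk measurable_id)
  rw [e, ← Measure.map_map measurable_tp (hm.comp measurable_tp), ← Measure.map_map hm measurable_tp,
    map_tp hν, show ν.map (fun U => mul (tp O) U) = ν from hν.2.2 _ hO.tp, map_tp hν]

/-! ### Gaussian vectors -/

lemma map_app_gauss {U : Mat N} (hU : Orth U) : (gauss (Fin N)).map (app U) = gauss (Fin N) := by
  have hm : Measurable (app U) := by unfold app; fun_prop
  refine Measure.ext_of_charFunDual (funext fun L => ?_)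
  set c := fun p : Fin N => L (Pi.single p 1)
  have hL : ∀ x : Fin N → ℝ, L x = ∑ p, c p * x p := fun x => by
    conv_lhs => rw [pi_eq_sum_univ' x, map_sum]
    exact Finset.sum_congr rfl fun p _ => by rw [map_smul, smul_eq_mul, mul_comm]
  set d := app (tp U) c with hd'
  have hd : ∀ x : Fin N → ℝ, L (app U x) = ∑ p, d p * x p := fun x => by
    rw [hL]
    simp only [app, d, tp, Finset.sum_mul, Finset.mul_sum]
    rw [Finset.sum_comm]
    exact Finset.sum_congr rfl fun k _ => Finset.sum_congr rfl fun i _ => by ring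
  have hsq : ∑ p, d p ^ 2 = ∑ p, c p ^ 2 := by
    simpa [ip, sq, d] using ip_app hU.tp c c
  rw [charFunDual_apply, charFunDual_apply, integral_map hm.aemeasurable (by fun_prop)]
  simp only [hd, hL]
  have h : ∀ e : Fin N → ℝ, ∫ x, Complex.exp (((∑ p, e p * x p : ℝ) : ℂ) * Complex.I) ∂gauss (Fin N) =
      Complex.exp (-((∑ p, e p ^ 2 : ℝ) : ℂ) / 2) := fun e => by
    have h := Pattern.charFun_linear e 1
    rw [charFun_apply_real, integral_map (Pattern.measurable_linear e).aemeasurable (by fun_prop)] at h
    simpa using h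
  rw [h, h, hsq]

lemma linear_ne_zero_ae {c : Fin N → ℝ} (hc : ip c c = 1) : ∀ᵐ x ∂gauss (Fin N), ip c x ≠ 0 := by
  have hm := Pattern.measurable_linear c
  have h := Pattern.map_linear c (by simpa [ip, sq] using hc)
  have h0 : ∀ᵐ t ∂gaussianReal 0 1, t ≠ 0 := by
    rw [ae_iff]; simp only [ne_eq, not_not, Set.ofPred_eq_eq_singleton]
    exact (nullSingletonClass_gaussianReal one_ne_zero).measure_singleton 0
  rw [← h] at h0
  exact ae_of_ae_map hm.aemeasurable h0

/-- the almost sure event on which Gram-Schmidt works for a pair -/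
lemma frame_ae (hN : 2 ≤ N) : ∀ᵐ g ∂((gauss (Fin N)).prod (gauss (Fin N))),
    ip g.1 g.1 ≠ 0 ∧ ip (perp g.1 g.2) (perp g.1 g.2) ≠ 0 := by
  classical
  set i0 : Fin N := ⟨0, by omega⟩
  set i1 : Fin N := ⟨1, by omega⟩
  have h01 : i1 ≠ i0 := by simp [i0, i1, Fin.ext_iff]
  have hsingle : ip (Pi.single i0 1) (Pi.single i0 1) = (1:ℝ) := by simp [ip, Pi.single_apply]
  have hms : MeasurableSet {g : (Fin N → ℝ) × (Fin N → ℝ) |
      ip g.1 g.1 ≠ 0 ∧ ip (perp g.1 g.2) (perp g.1 g.2) ≠ 0} := by
    have a : Measurable fun g : (Fin N → ℝ) × (Fin N → ℝ) => ip g.1 g.1 := by unfold ip; fun_prop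
    have b : Measurable fun g : (Fin N → ℝ) × (Fin N → ℝ) => ip (perp g.1 g.2) (perp g.1 g.2) := by
      unfold perp nz ip; fun_prop
    exact (a (measurableSet_singleton 0).compl).inter (b (measurableSet_singleton 0).compl)
  refine (Measure.ae_prod_iff_ae_ae hms).2 ((linear_ne_zero_ae hsingle).mono fun x hx => ?_)
  have hx0 : x i0 ≠ 0 := by simpa [ip, Pi.single_apply] using hx
  have hxx : ip x x ≠ 0 := ne_of_gt (lt_of_lt_of_le (mul_self_pos.2 hx0)
    (Finset.single_le_sum (f := fun i => x i * x i) (fun i _ => mul_self_nonneg _) (Finset.mem_univ i0)))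
  have he : nz x i0 ≠ 0 := div_ne_zero hx0 (Real.sqrt_ne_zero'.2 (lt_of_le_of_ne
    (Finset.sum_nonneg fun i _ => mul_self_nonneg _) hxx.symm))
  set c : Fin N → ℝ := nz fun i => (if i = i1 then 1 else 0) * nz x i0 - (if i = i0 then 1 else 0) * nz x i1
  set d : Fin N → ℝ := fun i => (if i = i1 then 1 else 0) * nz x i0 - (if i = i0 then 1 else 0) * nz x i1
  have hd : ip d d ≠ 0 := ne_of_gt (lt_of_lt_of_le (mul_self_pos.2 (show d i1 ≠ 0 by simp [d, h01, he]))
    (Finset.single_le_sum (f := fun i => d i * d i) (fun i _ => mul_self_nonneg _) (Finset.mem_univ i1)))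
  filter_upwards [linear_ne_zero_ae (ip_nz_self hd)] with y hy
  refine ⟨hxx, fun h0 => hy ?_⟩
  have hz : ∀ i, perp x y i = 0 := fun i => mul_self_eq_zero.1 (le_antisymm
    (h0 ▸ Finset.single_le_sum (f := fun i => perp x y i * perp x y i) (fun i _ => mul_self_nonneg _) (Finset.mem_univ i))
    (mul_self_nonneg _))
  have hyi : ∀ i, y i = ip (nz x) y * nz x i := fun i => sub_eq_zero.1 (hz i)
  have : ip d y = 0 := by
    simp only [ip, d, sub_mul, ite_mul, one_mul, zero_mul, Finset.sum_sub_distrib, Finset.sum_ite_eq',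
      Finset.mem_univ, if_true]
    rw [hyi i1, hyi i0]; ring
  simp only [ip, nz, div_mul_eq_mul_div, ← Finset.sum_div]
  simp only [ip] at this
  rw [this, zero_div]

/-- law of the image of a unit vector -/
theorem law_app (hν : IsHaarOrthogonal ν) (hN : 0 < N) {u : Fin N → ℝ} (hu : ip u u = 1) :
    ν.map (fun U => app U u) = (gauss (Fin N)).map nz := by
  have := hν.1
  have hm : Measurable fun q : Mat N × (Fin N → ℝ) => app q.1 (nz q.2) := by fun_prop
  have hmu : Measurable fun U : Mat N => app U u := by unfold app; fun_prop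
  set T := fun q : Mat N × (Fin N → ℝ) => app q.1 (nz q.2)
  have hg : ∀ᵐ g ∂gauss (Fin N), ip g g ≠ 0 := by
    set i0 : Fin N := ⟨0, hN⟩
    refine (linear_ne_zero_ae (c := Pi.single i0 1) (by simp [ip, Pi.single_apply])).mono fun x hx => ?_
    have hx0 : x i0 ≠ 0 := by simpa [ip, Pi.single_apply] using hx
    exact ne_of_gt (lt_of_lt_of_le (mul_self_pos.2 hx0)
      (Finset.single_le_sum (f := fun i => x i * x i) (fun i _ => mul_self_nonneg _) (Finset.mem_univ i0)))
  refine Measure.ext fun S hS => ?_
  have h1 : (ν.prod (gauss (Fin N))) (T ⁻¹' S) = ν.map (fun U => app U u) S := by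
    rw [Measure.prod_apply_symm (hm hS)]
    calc ∫⁻ g, ν ((fun U => (U, g)) ⁻¹' (T ⁻¹' S)) ∂gauss (Fin N) = ∫⁻ _g, ν.map (fun U => app U u) S ∂gauss (Fin N) := by
          refine lintegral_congr_ae (hg.mono fun g hgg => ?_)
          obtain ⟨O, hO, hOu, -⟩ := exists_frame (u := u) (v := u) (u' := nz g) (v' := nz g)
            (by rw [hu, ip_nz_self hgg]) (by rw [hu, ip_nz_self hgg]) (by rw [hu, ip_nz_self hgg])
          have hmr : Measurable fun U : Mat N => mul U O := measurable_mul.comp (measurable_id.prodMk measurable_const)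
          have e : (fun U => (U, g)) ⁻¹' (T ⁻¹' S) = (fun U => mul U O) ⁻¹' ((fun U => app U u) ⁻¹' S) := by
            ext U; simp [T, app_mul, hOu]
          show ν ((fun U => (U, g)) ⁻¹' (T ⁻¹' S)) = _
          rw [e, ← Measure.map_apply hmr (hmu hS), map_mul_right hν hO, Measure.map_apply hmu hS]
      _ = _ := by simp
  have h2 : (ν.prod (gauss (Fin N))) (T ⁻¹' S) = (gauss (Fin N)).map nz S := by
    rw [Measure.prod_apply (hm hS)]
    calc ∫⁻ U, gauss (Fin N) (Prod.mk U ⁻¹' (T ⁻¹' S)) ∂ν = ∫⁻ _U, (gauss (Fin N)).map nz S ∂ν := by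
          refine lintegral_congr_ae (hν.2.1.mono fun U hU => ?_)
          have hmU : Measurable (app U) := by unfold app; fun_prop
          have e : Prod.mk U ⁻¹' (T ⁻¹' S) = app U ⁻¹' (nz ⁻¹' S) := by
            ext g; simp [T, nz_app hU]
          show gauss (Fin N) (Prod.mk U ⁻¹' (T ⁻¹' S)) = _
          rw [e, ← Measure.map_apply hmU (measurable_nz hS), map_app_gauss hU,
            Measure.map_apply measurable_nz hS]
      _ = _ := by simp
  rw [← h1, h2]

/-- Gram-Schmidt frame of a pair -/
def gs (g : (Fin N → ℝ) × (Fin N → ℝ)) : (Fin N → ℝ) × (Fin N → ℝ) := (nz g.1, nz (perp g.1 g.2))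

@[fun_prop]
lemma measurable_gs : Measurable (gs (N := N)) := by unfold gs perp nz ip; fun_prop

/-- law of the image of an orthonormal pair -/
theorem law_pair (hν : IsHaarOrthogonal ν) (hN : 2 ≤ N) {u v : Fin N → ℝ} (hu : ip u u = 1) (hv : ip v v = 1)
    (huv : ip u v = 0) :
    ν.map (fun U => (app U u, app U v)) = ((gauss (Fin N)).prod (gauss (Fin N))).map gs := by
  have := hν.1
  set T := fun q : Mat N × ((Fin N → ℝ) × (Fin N → ℝ)) => (app q.1 (gs q.2).1, app q.1 (gs q.2).2)
  have hm : Measurable T := by unfold T app gs perp nz ip; fun_prop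
  have hmu : Measurable fun U : Mat N => (app U u, app U v) := by unfold app; fun_prop
  set γ := (gauss (Fin N)).prod (gauss (Fin N))
  refine Measure.ext fun S hS => ?_
  have h1 : (ν.prod γ) (T ⁻¹' S) = ν.map (fun U => (app U u, app U v)) S := by
    rw [Measure.prod_apply_symm (hm hS)]
    calc ∫⁻ g, ν ((fun U => (U, g)) ⁻¹' (T ⁻¹' S)) ∂γ = ∫⁻ _g, ν.map (fun U => (app U u, app U v)) S ∂γ := by
          refine lintegral_congr_ae ((frame_ae hN).mono fun g hgg => ?_)
          have a1 : ip (gs g).1 (gs g).1 = 1 := ip_nz_self hgg.1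
          have a2 : ip (gs g).2 (gs g).2 = 1 := ip_nz_self hgg.2
          have a3 : ip (gs g).1 (gs g).2 = 0 := by
            have := ip_nz_perp hgg.1 g.2
            simp only [ip, gs] at this ⊢
            simp only [nz] at this ⊢
            simp only [mul_div_assoc', ← Finset.sum_div]
            rw [this, zero_div]
          obtain ⟨O, hO, hOu, hOv⟩ := exists_frame (u := u) (v := v) (u' := (gs g).1) (v' := (gs g).2)
            (by rw [hu, a1]) (by rw [hv, a2]) (by rw [huv, a3])
          have hmr : Measurable fun U : Mat N => mul U O := measurable_mul.comp (measurable_id.prodMk measurable_const)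
          have e : (fun U => (U, g)) ⁻¹' (T ⁻¹' S) = (fun U => mul U O) ⁻¹' ((fun U => (app U u, app U v)) ⁻¹' S) := by
            ext U; simp [T, app_mul, hOu, hOv]
          show ν ((fun U => (U, g)) ⁻¹' (T ⁻¹' S)) = _
          rw [e, ← Measure.map_apply hmr (hmu hS), map_mul_right hν hO, Measure.map_apply hmu hS]
      _ = _ := by simp
  have h2 : (ν.prod γ) (T ⁻¹' S) = γ.map gs S := by
    rw [Measure.prod_apply (hm hS)]
    calc ∫⁻ U, γ (Prod.mk U ⁻¹' (T ⁻¹' S)) ∂ν = ∫⁻ _U, γ.map gs S ∂ν := by
          refine lintegral_congr_ae (hν.2.1.mono fun U hU => ?_)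
          have hmU : Measurable (app U) := by unfold app; fun_prop
          have hmP : Measurable (Prod.map (app U) (app U)) := hmU.prodMap hmU
          have e : Prod.mk U ⁻¹' (T ⁻¹' S) = Prod.map (app U) (app U) ⁻¹' (gs ⁻¹' S) := by
            ext g; simp [T, gs, Prod.map, nz_app hU, perp_app hU]
          show γ (Prod.mk U ⁻¹' (T ⁻¹' S)) = _
          rw [e, ← Measure.map_apply hmP (measurable_gs hS), ← Measure.map_prod_map _ _ hmU hmU,
            map_app_gauss hU, Measure.map_apply measurable_gs hS]
      _ = _ := by simp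
  rw [← h1, h2]

end Vale.Agent.P166.Phase
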