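import Vale.Agent.P166.Phase.Sphere

/-!
Haar measure as a product of random reflections, and the resulting variance decomposition.
-/

open MeasureTheory ProbabilityTheory Real
open scoped ENNReal

noncomputable section

namespace Vale.Agent.P166.Phase

open Pattern (gauss)

variable {N : ℕ}

/-- coordinate vector -/
def bas (k : ℕ) : Fin N → ℝ := fun i => if (i : ℕ) = k then 1 else 0

/-- identity array -/
def one : Mat N := fun i j => if i = j then 1 else 0

/-- fixes the first `k` coordinate vectors -/
def Fix (k : ℕ) (O : Mat N) : Prop := ∀ j, j < k → app O (bas j) = bas j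

/-- projection on the coordinates from `k` on -/
def proj (k : ℕ) (x : Fin N → ℝ) : Fin N → ℝ := fun i => if k ≤ (i : ℕ) then x i else 0

/-- uniform law on unit vectors supported on the coordinates from `k` on -/
def unif (N k : ℕ) : Measure (Fin N → ℝ) := (gauss (Fin N)).map fun g => nz (proj k g)

/-- direction of the reflection -/
def rdir (k : ℕ) (w : Fin N → ℝ) : Fin N → ℝ :=
  if ip (bas k) w ≤ 0 then fun i => bas k i - w i else fun i => bas k i + w i

/-- orthogonal array sending `bas k` to `w` -/
def rot (k : ℕ) (w : Fin N → ℝ) : Mat N :=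
  if ip (bas k) w ≤ 0 then refl (rdir k w) else mul (refl (rdir k w)) (refl (bas k))

lemma mul_assoc' (A B C : Mat N) : mul (mul A B) C = mul A (mul B C) := by
  have h := Matrix.mul_assoc (Matrix.of A) (Matrix.of B) (Matrix.of C)
  exact h

lemma Orth.mul' {A B : Mat N} (hA : Orth A) (hB : Orth B) : Orth (mul A B) :=
  show Matrix.of A * Matrix.of B ∈ Matrix.orthogonalGroup (Fin N) ℝ from Submonoid.mul_mem _ hA hB

lemma app_one (x : Fin N → ℝ) : app one x = x := by funext i; simp [app, one]

lemma orth_one : Orth (one : Mat N) := by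
  show Matrix.of (one : Mat N) ∈ Matrix.orthogonalGroup (Fin N) ℝ
  rw [show Matrix.of (one : Mat N) = 1 from by ext i j; simp [one, Matrix.one_apply]]
  exact Submonoid.one_mem _

lemma mat_ext {A B : Mat N} (h : ∀ x, app A x = app B x) : A = B := by
  funext i j
  simpa [app] using congrFun (h fun l => if l = j then 1 else 0) i

lemma mul_one' (A : Mat N) : mul A one = A := mat_ext fun x => by rw [app_mul, app_one]

lemma app_tp_app {T : Mat N} (hT : Orth T) (x : Fin N → ℝ) : app (tp T) (app T x) = x := by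
  funext i
  simp only [app, tp, Finset.mul_sum]
  rw [Finset.sum_comm]
  simp [← mul_assoc, ← Finset.sum_mul, hT.col]

lemma app_app_tp {T : Mat N} (hT : Orth T) (x : Fin N → ℝ) : app T (app (tp T) x) = x := by
  have := app_tp_app hT.tp x
  exact this

lemma mul_tp_cancel {T : Mat N} (hT : Orth T) : mul T (tp T) = one :=
  mat_ext fun x => by rw [app_mul, app_app_tp hT, app_one]

lemma ip_tp {T : Mat N} (hT : Orth T) (x y : Fin N → ℝ) : ip x (app T y) = ip (app (tp T) x) y := by
  rw [← ip_app hT (app (tp T) x) y, app_app_tp hT]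

lemma Fix.tp' {k : ℕ} {T : Mat N} (hT : Orth T) (h : Fix k T) : Fix k (tp T) := fun j hj => by
  conv_lhs => rw [← h j hj]
  exact app_tp_app hT _

lemma ip_bas {k : ℕ} (hk : k < N) (x : Fin N → ℝ) : ip (bas k) x = x ⟨k, hk⟩ := by
  rw [ip, Finset.sum_eq_single ⟨k, hk⟩]
  · simp [bas]
  · intro b _ hb
    have : (b : ℕ) ≠ k := fun h => hb (Fin.ext h)
    simp [bas, this]
  · simp

lemma bas_unit {k : ℕ} (hk : k < N) : ip (bas k : Fin N → ℝ) (bas k) = 1 := by rw [ip_bas hk]; simp [bas]

lemma proj_app {k : ℕ} {T : Mat N} (hT : Orth T) (h : Fix k T) (x : Fin N → ℝ) :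
    proj k (app T x) = app T (proj k x) := by
  have hc : ∀ i l : Fin N, (l : ℕ) < k → T i l = if i = l then 1 else 0 := fun i l hl => by
    have := congrFun (h l hl) i
    simpa [app, bas, Fin.val_inj] using this
  have hr : ∀ i l : Fin N, (i : ℕ) < k → T i l = if l = i then 1 else 0 := fun i l hi => by
    have := congrFun (h.tp' hT i hi) l
    simpa [app, tp, bas, Fin.val_inj] using this
  funext i
  simp only [proj, app]
  split_ifs with hi
  · refine Finset.sum_congr rfl fun l _ => ?_
    by_cases hl : k ≤ (l : ℕ)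
    · simp [hl]
    · have : i ≠ l := fun e => hl (e ▸ hi)
      simp [hc i l (not_le.1 hl), this]
  · refine (Finset.sum_eq_zero fun l _ => ?_).symm
    rw [hr i l (not_le.1 hi)]
    split_ifs with h1 h2
    · subst h1; exact absurd h2 hi
    all_goals simp

@[fun_prop]
lemma measurable_proj (k : ℕ) : Measurable (proj (N := N) k) :=
  measurable_pi_lambda _ fun i => by unfold proj; split_ifs <;> fun_prop

lemma measurable_proj_nz (k : ℕ) : Measurable fun g : Fin N → ℝ => nz (proj k g) :=
  measurable_nz.comp (measurable_proj k)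

instance (k : ℕ) : IsProbabilityMeasure (unif N k) :=
  Measure.isProbabilityMeasure_map (measurable_proj_nz k).aemeasurable

lemma proj_ne_zero_ae {k : ℕ} (hk : k < N) : ∀ᵐ g ∂gauss (Fin N), ip (proj k g) (proj k g) ≠ 0 := by
  refine (linear_ne_zero_ae (bas_unit hk)).mono fun g hg h0 => ?_
  have hz : proj k g ⟨k, hk⟩ = 0 := mul_self_eq_zero.1 (le_antisymm (h0 ▸ Finset.single_le_sum
    (f := fun i => proj k g i * proj k g i) (fun i _ => mul_self_nonneg _) (Finset.mem_univ _)) (mul_self_nonneg _))
  exact hg (by rw [ip_bas hk]; simpa [proj] using hz)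

/-- a unit vector supported on the coordinates from `k` on -/
def UnitFrom (k : ℕ) (w : Fin N → ℝ) : Prop := ip w w = 1 ∧ proj k w = w

lemma unif_unitFrom {k : ℕ} (hk : k < N) : ∀ᵐ w ∂unif N k, UnitFrom k w := by
  have hm : MeasurableSet {w : Fin N → ℝ | UnitFrom k w} :=
    (measurableSet_eq_fun (by unfold ip; fun_prop) measurable_const).inter
      (measurableSet_eq_fun (measurable_proj k) measurable_id)
  rw [unif, ae_map_iff (measurable_proj_nz k).aemeasurable hm]
  refine (proj_ne_zero_ae hk).mono fun g hg => ⟨ip_nz_self hg, ?_⟩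
  funext i
  simp only [proj, nz]
  split_ifs <;> simp

lemma map_unif {k : ℕ} {O : Mat N} (hO : Orth O) (h : Fix k O) : (unif N k).map (app O) = unif N k := by
  have hm : Measurable (app O) := by unfold app; fun_prop
  rw [unif, Measure.map_map hm (measurable_proj_nz k)]
  have e : (app O) ∘ (fun g => nz (proj k g)) = (fun g => nz (proj k g)) ∘ app O := by
    funext g; simp only [Function.comp, proj_app hO h, nz_app hO]
  rw [e, ← Measure.map_map (measurable_proj_nz k) hm, map_app_gauss hO]

lemma refl_neg (v : Fin N → ℝ) : refl (fun i => -v i) = refl v := by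
  funext i j; simp only [refl, ip]; simp

lemma measurable_refl : Measurable (refl (N := N)) := by unfold refl ip; fun_prop

lemma measurable_rdir (k : ℕ) : Measurable (rdir (N := N) k) := by
  have h : Measurable fun w : Fin N → ℝ => ip (bas k) w := by unfold ip; fun_prop
  unfold rdir
  exact Measurable.ite (measurableSet_le h measurable_const) (by fun_prop) (by fun_prop)

lemma measurable_rot (k : ℕ) : Measurable (rot (N := N) k) := by
  have h : Measurable fun w : Fin N → ℝ => ip (bas k) w := by unfold ip; fun_prop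
  have h1 : Measurable fun w : Fin N → ℝ => refl (rdir k w) := measurable_refl.comp (measurable_rdir k)
  unfold rot
  exact Measurable.ite (measurableSet_le h measurable_const) h1
    (measurable_mul.comp (h1.prodMk measurable_const))

lemma rot_orth (k : ℕ) (w : Fin N → ℝ) : Orth (rot k w) := by
  unfold rot; split_ifs
  · exact orth_refl _
  · exact (orth_refl _).mul' (orth_refl _)

lemma rot_fix {k : ℕ} (hk : k < N) {w : Fin N → ℝ} (hw : UnitFrom k w) : Fix k (rot k w) := by
  intro j hj
  have hjN : j < N := hj.trans hk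
  have h0 : ip (bas k) (bas j : Fin N → ℝ) = 0 := by rw [ip_bas hk]; simp [bas, hj.ne']
  have h1 : ip w (bas j : Fin N → ℝ) = 0 := by
    rw [ip_comm, ip_bas hjN, ← hw.2]; simp [proj, not_le.2 hj]
  have h2 : ∀ v : Fin N → ℝ, ip v (bas j) = 0 → app (refl v) (bas j) = bas j := fun v hv => by
    rw [app_refl]; funext i; simp [hv]
  have h3 : ip (rdir k w) (bas j : Fin N → ℝ) = 0 := by
    simp only [ip] at h0 h1
    unfold rdir; split_ifs <;> simp [ip, sub_mul, add_mul, Finset.sum_add_distrib, Finset.sum_sub_distrib, h0, h1]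
  unfold rot; split_ifs
  · exact h2 _ h3
  · rw [app_mul, h2 _ h0, h2 _ h3]

lemma rot_bas {k : ℕ} (hk : k < N) {w : Fin N → ℝ} (hw : UnitFrom k w) : app (rot k w) (bas k) = w := by
  unfold rot rdir; split_ifs with h
  · exact app_refl_map (by rw [bas_unit hk, hw.1])
  · have e : app (refl (bas k)) (bas k) = fun i : Fin N => -bas k i := by
      rw [app_refl]; funext i; rw [bas_unit hk]; ring
    rw [app_mul, e, ← refl_neg]
    simp only [neg_add', sub_eq_add_neg]
    rw [show (fun i : Fin N => -bas k i + -w i) = fun i => (fun i => -bas k i) i - w i from rfl]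
    refine app_refl_map ?_
    rw [hw.1, ← bas_unit (N := N) hk]; simp [ip]

lemma refl_conj {T : Mat N} (hT : Orth T) (v : Fin N → ℝ) :
    mul (tp T) (mul (refl v) T) = refl (app (tp T) v) := mat_ext fun x => by
  rw [app_mul, app_mul, app_refl, app_refl]
  have e : ∀ (a : ℝ) (u y : Fin N → ℝ), app (tp T) (fun k => u k - a * y k) =
      fun k => app (tp T) u k - a * app (tp T) y k := fun a u y => by
    funext k; simp only [app, mul_sub, Finset.sum_sub_distrib, Finset.mul_sum]
    congr 1; exact Finset.sum_congr rfl fun l _ => by ring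
  rw [e, app_tp_app hT, ip_app hT.tp, ip_tp hT v x]

lemma rot_conj {k : ℕ} {T : Mat N} (hT : Orth T) (h : app T (bas k) = bas k) (w : Fin N → ℝ) :
    mul (tp T) (mul (rot k w) T) = rot k (app (tp T) w) := by
  have h' : app (tp T) (bas k) = bas k := by conv_lhs => rw [← h]; exact app_tp_app hT _
  have hb : ip (bas k) (app (tp T) w) = ip (bas k) w := by
    rw [ip_tp hT.tp]; exact congrArg (ip · w) h
  have hd : app (tp T) (rdir k w) = rdir k (app (tp T) w) := by
    unfold rdir; rw [hb]
    split_ifs <;> funext i <;> conv_rhs => rw [← h']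
    all_goals simp only [app, mul_sub, mul_add, Finset.sum_sub_distrib, Finset.sum_add_distrib]
  unfold rot; rw [hb]
  split_ifs
  · rw [refl_conj hT, hd]
  · have e : mul (mul (refl (rdir k w)) (refl (bas k))) T = mul (mul (refl (rdir k w)) T) (mul (tp T) (mul (refl (bas k)) T)) := by
      rw [mul_assoc', mul_assoc', ← mul_assoc' T, mul_tp_cancel hT]
      congr 1
      exact mat_ext fun x => by simp only [app_mul, app_one]
    rw [e, ← mul_assoc', refl_conj hT, refl_conj hT, hd, h']

lemma measurable_mul_left (A : Mat N) : Measurable (mul A) :=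
  measurable_mul.comp (measurable_const.prodMk measurable_id)

lemma measurable_mul_right (B : Mat N) : Measurable fun A => mul A B :=
  measurable_mul.comp (measurable_id.prodMk measurable_const)

lemma measurableSet_fix (k : ℕ) : MeasurableSet {T : Mat N | Orth T ∧ Fix k T} := by
  have h1 : MeasurableSet {T : Mat N | Orth T} := by
    have : {T : Mat N | Orth T} = {T | ∀ i j, ∑ l, T i l * T j l = if i = j then 1 else 0} := by
      ext T
      simp [Orth, Matrix.mem_orthogonalGroup_iff, ← Matrix.ext_iff, Matrix.mul_apply, Matrix.one_apply]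
    rw [this]
    simp only [Set.ofPred_forall]
    exact MeasurableSet.iInter fun i => MeasurableSet.iInter fun j =>
      measurableSet_eq_fun (by fun_prop) measurable_const
  refine h1.inter ?_
  show MeasurableSet {T : Mat N | ∀ j, j < k → app T (bas j) = bas j}
  simp only [Set.ofPred_forall]
  exact MeasurableSet.iInter fun j => MeasurableSet.iInter fun _ =>
    measurableSet_eq_fun (by unfold app; fun_prop) measurable_const

/-- law of the product of the last `d` reflections -/
def chain (N : ℕ) : ℕ → Measure (Mat N)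
  | 0 => Measure.dirac one
  | d + 1 => ((unif N (N - (d + 1))).prod (chain N d)).map fun q => mul (rot (N - (d + 1)) q.1) q.2

lemma measurable_step (k : ℕ) : Measurable fun q : (Fin N → ℝ) × Mat N => mul (rot k q.1) q.2 :=
  measurable_mul.comp (((measurable_rot k).comp measurable_fst).prodMk measurable_snd)

instance chain_prob (d : ℕ) : IsProbabilityMeasure (chain N d) := by
  induction d with
  | zero => unfold chain; infer_instance
  | succ d ih => unfold chain; exact Measure.isProbabilityMeasure_map (measurable_step _).aemeasurable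

lemma step_support {k : ℕ} (hk : k < N) (m : Measure (Mat N)) [SFinite m]
    (hs : ∀ᵐ T ∂m, Orth T ∧ Fix (k + 1) T) :
    ∀ᵐ T ∂((unif N k).prod m).map (fun q => mul (rot k q.1) q.2), Orth T ∧ Fix k T := by
  rw [ae_map_iff (measurable_step k).aemeasurable (measurableSet_fix k)]
  have h1 : ∀ᵐ q ∂(unif N k).prod m, UnitFrom k q.1 := Measure.quasiMeasurePreserving_fst.ae (unif_unitFrom hk)
  have h2 : ∀ᵐ q ∂(unif N k).prod m, Orth q.2 ∧ Fix (k + 1) q.2 := Measure.quasiMeasurePreserving_snd.ae hs
  filter_upwards [h1, h2] with q hq hT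
  exact ⟨(rot_orth k q.1).mul' hT.1, fun j hj => by rw [app_mul, hT.2 j (by omega), rot_fix hk hq j hj]⟩

lemma step_inv {k : ℕ} (hk : k < N) (m : Measure (Mat N)) [IsProbabilityMeasure m]
    (hinv : ∀ O, Orth O → Fix (k + 1) O → m.map (mul O) = m) {O : Mat N} (hO : Orth O) (hf : Fix k O) :
    (((unif N k).prod m).map fun q => mul (rot k q.1) q.2).map (mul O) =
      ((unif N k).prod m).map fun q => mul (rot k q.1) q.2 := by
  set F : (Fin N → ℝ) × Mat N → Mat N := fun q => mul (rot k q.1) q.2
  have hms : Measurable F := measurable_step k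
  have hmO : Measurable (mul O) := measurable_mul_left O
  rw [Measure.map_map hmO hms]
  refine Measure.ext fun S hS => ?_
  have h1 : MeasurableSet ((mul O ∘ F) ⁻¹' S) := (hmO.comp hms) hS
  have h2 : MeasurableSet (F ⁻¹' S) := hms hS
  rw [Measure.map_apply (hmO.comp hms) hS, Measure.map_apply hms hS, Measure.prod_apply h1, Measure.prod_apply h2]
  have hF : Measurable fun w => m (Prod.mk w ⁻¹' (F ⁻¹' S)) := measurable_measure_prodMk_left h2
  have happ : Measurable (app O) := by unfold app; fun_prop
  conv_rhs => rw [← map_unif hO hf, lintegral_map hF happ]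
  refine lintegral_congr_ae ((unif_unitFrom hk).mono fun w hw => ?_)
  have hw' : UnitFrom k (app O w) := ⟨by rw [ip_app hO, hw.1], by rw [proj_app hO hf, hw.2]⟩
  set R' := rot k (app O w) with hR'
  set O' := mul (tp R') (mul O (rot k w))
  have ho : Orth O' := (rot_orth k (app O w)).tp.mul' (hO.mul' (rot_orth k w))
  have hfO : Fix (k + 1) O' := by
    intro j hj
    rw [app_mul, app_mul]
    rcases Nat.lt_succ_iff_lt_or_eq.1 hj with hj' | rfl
    · rw [rot_fix hk hw j hj', hf j hj', (rot_fix hk hw').tp' (rot_orth _ _) j hj']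
    · rw [rot_bas hk hw]
      conv_lhs => rw [← rot_bas hk hw']
      exact app_tp_app (rot_orth _ _) _
  have hmsl : MeasurableSet (Prod.mk (app O w) ⁻¹' (F ⁻¹' S)) := measurable_prodMk_left h2
  show m (Prod.mk w ⁻¹' ((mul O ∘ F) ⁻¹' S)) = m (Prod.mk (app O w) ⁻¹' (F ⁻¹' S))
  conv_rhs => rw [← hinv O' ho hfO, Measure.map_apply (measurable_mul_left O') hmsl]
  refine congrArg m (Set.ext fun T => ?_)
  have e : mul R' (mul O' T) = mul O (mul (rot k w) T) := by
    simp only [O']
    rw [← mul_assoc' R', ← mul_assoc' R' (tp R'), mul_tp_cancel (rot_orth k (app O w))]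
    refine mat_ext fun x => ?_
    simp only [app_mul, app_one]
  show mul O (mul (rot k w) T) ∈ S ↔ mul R' (mul O' T) ∈ S
  rw [e]

/-- left invariance and support of the chain -/
theorem chain_spec : ∀ d, d ≤ N → (∀ᵐ T ∂chain N d, Orth T ∧ Fix (N - d) T) ∧
    ∀ O, Orth O → Fix (N - d) O → (chain N d).map (mul O) = chain N d
  | 0, _ => by
    refine ⟨?_, fun O hO hf => ?_⟩
    · simp only [chain]
      rw [ae_dirac_eq]
      exact ⟨orth_one, fun j _ => app_one _⟩
    · have hO1 : O = one := by
        funext i j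
        have := congrFun (hf j (by simp)) i
        simpa [app, bas, one, Fin.val_inj] using this
      rw [chain, hO1, Measure.map_dirac' (measurable_mul_left one), mul_one']
  | d + 1, hd => by
    obtain ⟨hs, hinv⟩ := chain_spec d (Nat.le_of_succ_le hd)
    have hk1 : N - d = N - (d + 1) + 1 := by omega
    rw [hk1] at hs hinv
    exact ⟨step_support (by omega) _ hs, fun O hO hf => step_inv (by omega) _ hinv hO hf⟩

variable {ν : Measure (Mat N)}

/-- the full chain is Haar -/
theorem chain_full (hν : IsHaarOrthogonal ν) : chain N N = ν := by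
  have := hν.1
  obtain ⟨hs, hinv⟩ := chain_spec (N := N) N le_rfl
  simp only [Nat.sub_self] at hs hinv
  refine Measure.ext fun S hS => ?_
  have hmS : MeasurableSet ((fun q : Mat N × Mat N => mul q.1 q.2) ⁻¹' S) := measurable_mul hS
  have e1 : (ν.prod (chain N N)) ((fun q : Mat N × Mat N => mul q.1 q.2) ⁻¹' S) = chain N N S := by
    rw [Measure.prod_apply hmS]
    calc _ = ∫⁻ _U, chain N N S ∂ν := lintegral_congr_ae (hν.2.1.mono fun U hU => by
          show chain N N (mul U ⁻¹' S) = _
          rw [← Measure.map_apply (measurable_mul_left U) hS,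
            hinv U hU fun j hj => absurd hj (Nat.not_lt_zero j)])
      _ = _ := by simp
  rw [← e1, Measure.prod_apply_symm hmS]
  calc ∫⁻ T, ν ((fun U => (U, T)) ⁻¹' ((fun q : Mat N × Mat N => mul q.1 q.2) ⁻¹' S)) ∂chain N N
      = ∫⁻ _T, ν S ∂chain N N := lintegral_congr_ae (hs.mono fun T hT => by
          show ν ((fun U => mul U T) ⁻¹' S) = _
          rw [← Measure.map_apply (measurable_mul_right T) hS,
            map_mul_right hν hT.1])
    _ = _ := by simp

/-! ### variance -/

lemma bound_sq {B a b : ℝ} (ha : |a| ≤ B) (hb : |b| ≤ B) : ‖(a - b) ^ 2‖ ≤ (2 * B) ^ 2 := by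
  rw [norm_eq_abs, abs_pow]
  exact pow_le_pow_left₀ (abs_nonneg _) (by linarith [abs_sub a b]) 2

lemma abs_mean {α : Type*} [MeasurableSpace α] {m : Measure α} [IsProbabilityMeasure m] {φ : α → ℝ} {B : ℝ}
    (hB : ∀ x, |φ x| ≤ B) : |∫ x, φ x ∂m| ≤ B := by
  rw [← norm_eq_abs]
  exact (norm_integral_le_of_norm_le_const (.of_forall fun x => (norm_eq_abs _).le.trans (hB x))).trans_eq (by simp)

lemma sq_shift {α : Type*} [MeasurableSpace α] {m : Measure α} [IsProbabilityMeasure m] {φ : α → ℝ}
    (hφ : Measurable φ) {B : ℝ} (hB : ∀ x, |φ x| ≤ B) (b : ℝ) :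
    ∫ x, (φ x - b) ^ 2 ∂m = ∫ x, (φ x - ∫ y, φ y ∂m) ^ 2 ∂m + (∫ y, φ y ∂m - b) ^ 2 := by
  have hi : Integrable φ m := .of_bound hφ.aestronglyMeasurable B (.of_forall fun x => (norm_eq_abs _).le.trans (hB x))
  set a := ∫ y, φ y ∂m
  have i1 : Integrable (fun x => (φ x - a) ^ 2) m :=
    .of_bound ((hφ.sub measurable_const).pow_const 2).aestronglyMeasurable _
      (.of_forall fun x => bound_sq (hB x) (abs_mean hB))
  have e : ∀ x, (φ x - b) ^ 2 = (φ x - a) ^ 2 + (2 * (a - b) * φ x + (b ^ 2 - a ^ 2)) := fun x => by ring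
  simp only [e]
  rw [integral_add (g := fun x => 2 * (a - b) * φ x + (b ^ 2 - a ^ 2)) i1
      ((hi.const_mul _).add (integrable_const _)),
    integral_add (hi.const_mul _) (integrable_const _), integral_const_mul]
  simp only [integral_const, probReal_univ, one_smul]
  ring

lemma split_var {α γ : Type*} [MeasurableSpace α] [MeasurableSpace γ] {p : Measure α} {m : Measure γ}
    [IsProbabilityMeasure p] [IsProbabilityMeasure m] {G : α × γ → ℝ} (hG : Measurable G) {h : γ → ℝ}
    (hh : Measurable h) {B : ℝ} (hGB : ∀ q, |G q| ≤ B) (hhB : ∀ t, |h t| ≤ B) :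
    ∫ q, (G q - ∫ q', G q' ∂p.prod m) ^ 2 ∂p.prod m ≤
      ∫ w, ∫ t, (G (w, t) - ∫ t', G (w, t') ∂m) ^ 2 ∂m ∂p + ∫ w, ∫ t, (G (w, t) - h t) ^ 2 ∂m ∂p := by
  set c := ∫ t, h t ∂m
  have hc : |c| ≤ B := abs_mean hhB
  have hGw : ∀ w, Measurable fun t => G (w, t) := fun w => hG.comp (measurable_const.prodMk measurable_id)
  have hmean : Measurable fun w => ∫ t, G (w, t) ∂m := hG.stronglyMeasurable.integral_prod_right'.measurable
  have ic : Integrable (fun q => (G q - c) ^ 2) (p.prod m) :=
    .of_bound ((hG.sub measurable_const).pow_const 2).aestronglyMeasurable _ (.of_forall fun q => bound_sq (hGB q) hc)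
  have h1 : ∫ q, (G q - ∫ q', G q' ∂p.prod m) ^ 2 ∂p.prod m ≤ ∫ q, (G q - c) ^ 2 ∂p.prod m := by
    rw [sq_shift hG hGB c]; exact le_add_of_nonneg_right (sq_nonneg _)
  refine h1.trans ?_
  rw [integral_prod _ ic]
  have i2 : Integrable (fun w => ∫ t, (G (w, t) - ∫ t', G (w, t') ∂m) ^ 2 ∂m) p :=
    .of_bound ((hG.sub (hmean.comp measurable_fst)).pow_const 2).stronglyMeasurable.integral_prod_right'.aestronglyMeasurable
      ((2 * B) ^ 2) (.of_forall fun w => (norm_integral_le_of_norm_le_const
        (.of_forall fun t => bound_sq (hGB _) (abs_mean fun t => hGB (w, t)))).trans_eq (by simp))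
  have i3 : Integrable (fun w => ∫ t, (G (w, t) - h t) ^ 2 ∂m) p :=
    .of_bound ((hG.sub (hh.comp measurable_snd)).pow_const 2).stronglyMeasurable.integral_prod_right'.aestronglyMeasurable
      ((2 * B) ^ 2) (.of_forall fun w => (norm_integral_le_of_norm_le_const
        (.of_forall fun t => bound_sq (hGB _) (hhB t))).trans_eq (by simp))
  rw [← integral_add i2 i3]
  refine integral_mono ic.integral_prod_left (i2.add i3) fun w => ?_
  show ∫ t, (G (w, t) - c) ^ 2 ∂m ≤ ∫ t, (G (w, t) - ∫ t', G (w, t') ∂m) ^ 2 ∂m + ∫ t, (G (w, t) - h t) ^ 2 ∂m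
  rw [sq_shift (hGw w) (fun t => hGB (w, t)) c]
  refine add_le_add le_rfl ?_
  have hD := sq_shift ((hGw w).sub hh) (m := m) (B := 2 * B)
    (fun t => (abs_sub (G (w, t)) (h t)).trans (by linarith [hGB (w, t), hhB t])) 0
  simp only [Pi.sub_apply, sub_zero] at hD
  rw [hD, integral_sub (.of_bound (hGw w).aestronglyMeasurable B (.of_forall fun t => (norm_eq_abs _).le.trans (hGB _)))
    (.of_bound hh.aestronglyMeasurable B (.of_forall fun t => (norm_eq_abs _).le.trans (hhB _)))]
  exact le_add_of_nonneg_left (integral_nonneg fun t => sq_nonneg _)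

/-- mean conditional variance after `N - d` reflections -/
def cvar (ν : Measure (Mat N)) (f : Mat N → ℝ) (d : ℕ) : ℝ :=
  ∫ X, ∫ T, (f (mul X T) - ∫ T', f (mul X T') ∂chain N d) ^ 2 ∂chain N d ∂ν

/-- squared increment of one reflection -/
def incr (ν : Measure (Mat N)) (f : Mat N → ℝ) (k : ℕ) : ℝ :=
  ∫ w, ∫ Y, (f (mul Y (rot k w)) - f Y) ^ 2 ∂ν ∂unif N k

/-- variance after one more reflection -/
lemma step_var {f : Mat N → ℝ} (hf : Measurable f) {B : ℝ} (hB : ∀ U, |f U| ≤ B) (X : Mat N) (k : ℕ)
    (m : Measure (Mat N)) [IsProbabilityMeasure m] :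
    ∫ T, (f (mul X T) - ∫ T', f (mul X T') ∂((unif N k).prod m).map fun q => mul (rot k q.1) q.2) ^ 2
        ∂((unif N k).prod m).map (fun q => mul (rot k q.1) q.2) ≤
      ∫ w, ∫ T, (f (mul (mul X (rot k w)) T) - ∫ T', f (mul (mul X (rot k w)) T') ∂m) ^ 2 ∂m ∂unif N k +
        ∫ w, ∫ T, (f (mul (mul X (rot k w)) T) - f (mul X T)) ^ 2 ∂m ∂unif N k := by
  have hX : Measurable fun T => f (mul X T) := hf.comp (measurable_mul_left X)
  have hG : Measurable fun q : (Fin N → ℝ) × Mat N => f (mul (mul X (rot k q.1)) q.2) :=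
    hf.comp (measurable_mul.comp ((((measurable_mul_left X).comp ((measurable_rot k).comp measurable_fst))).prodMk
      measurable_snd))
  have h := split_var (p := unif N k) (m := m) hG hX (fun q => hB _) fun t => hB _
  have hms := measurable_step (N := N) k
  rw [integral_map hms.aemeasurable hX.aestronglyMeasurable]
  have hsq : ∀ c : ℝ, Measurable fun T => (f (mul X T) - c) ^ 2 := fun c => (hX.sub measurable_const).pow_const 2
  rw [integral_map hms.aemeasurable (hsq _).aestronglyMeasurable]
  simp only [← mul_assoc']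
  exact h

/-- the reflection conjugated out -/
lemma incr_eq (hν : IsHaarOrthogonal ν) {f : Mat N → ℝ} (hf : Measurable f) {B : ℝ} (hB : ∀ U, |f U| ≤ B)
    {k : ℕ} (m : Measure (Mat N)) [IsProbabilityMeasure m] (hs : ∀ᵐ T ∂m, Orth T ∧ Fix (k + 1) T) :
    ∫ w, ∫ X, ∫ T, (f (mul (mul X (rot k w)) T) - f (mul X T)) ^ 2 ∂m ∂ν ∂unif N k = incr ν f k := by
  have := hν.1
  set Φ := fun w => ∫ Y, (f (mul Y (rot k w)) - f Y) ^ 2 ∂ν
  have hΦ : Measurable fun q : (Fin N → ℝ) × Mat N => (f (mul q.2 (rot k q.1)) - f q.2) ^ 2 :=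
    ((hf.comp (measurable_mul.comp (measurable_snd.prodMk ((measurable_rot k).comp measurable_fst)))).sub
      (hf.comp measurable_snd)).pow_const 2
  have hΦm : Measurable Φ := hΦ.stronglyMeasurable.integral_prod_right'.measurable
  have hsub : ∀ w, ∀ T, Orth T → app T (bas k) = bas k →
      ∫ X, (f (mul (mul X (rot k w)) T) - f (mul X T)) ^ 2 ∂ν = Φ (app (tp T) w) := by
    intro w T hT hTk
    show _ = ∫ Y, (f (mul Y (rot k (app (tp T) w))) - f Y) ^ 2 ∂ν
    have hm : Measurable fun Y => (f (mul Y (rot k (app (tp T) w))) - f Y) ^ 2 :=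
      ((hf.comp (measurable_mul_right _)).sub hf).pow_const 2
    conv_rhs => rw [← map_mul_right hν hT]
    rw [integral_map (measurable_mul_right T).aemeasurable hm.aestronglyMeasurable]
    refine integral_congr_ae (.of_forall fun X => ?_)
    show (f (mul (mul X (rot k w)) T) - f (mul X T)) ^ 2 =
      (f (mul (mul X T) (rot k (app (tp T) w))) - f (mul X T)) ^ 2
    rw [← rot_conj hT hTk w, ← mul_assoc' (mul X T), mul_assoc' X T, mul_tp_cancel hT, mul_one', mul_assoc']
  have hA : ∀ w, Measurable fun q : Mat N × Mat N => (f (mul (mul q.1 (rot k w)) q.2) - f (mul q.1 q.2)) ^ 2 := fun w =>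
    ((hf.comp (measurable_mul.comp (((measurable_mul_right _).comp measurable_fst).prodMk measurable_snd))).sub
      (hf.comp measurable_mul)).pow_const 2
  have iA : ∀ w, Integrable (Function.uncurry fun X T => (f (mul (mul X (rot k w)) T) - f (mul X T)) ^ 2) (ν.prod m) :=
    fun w => .of_bound (hA w).aestronglyMeasurable _ (.of_forall fun q => bound_sq (hB _) (hB _))
  have happ : Measurable fun q : (Fin N → ℝ) × Mat N => app (tp q.2) q.1 :=
    measurable_app.comp ((measurable_tp.comp measurable_snd).prodMk measurable_fst)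
  have iΦ : Integrable (Function.uncurry fun w T => Φ (app (tp T) w)) ((unif N k).prod m) :=
    .of_bound (hΦm.comp happ).aestronglyMeasurable ((2 * B) ^ 2) (.of_forall fun q =>
      (norm_integral_le_of_norm_le_const (.of_forall fun Y => bound_sq (hB _) (hB _))).trans_eq (by simp))
  calc _ = ∫ w, ∫ T, Φ (app (tp T) w) ∂m ∂unif N k := by
        refine integral_congr_ae (.of_forall fun w => ?_)
        show ∫ X, ∫ T, (f (mul (mul X (rot k w)) T) - f (mul X T)) ^ 2 ∂m ∂ν = _
        rw [integral_integral_swap (iA w)]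
        exact integral_congr_ae (hs.mono fun T hT => hsub w T hT.1 (hT.2 k (Nat.lt_succ_self k)))
    _ = ∫ T, ∫ w, Φ (app (tp T) w) ∂unif N k ∂m := integral_integral_swap iΦ
    _ = ∫ _T, ∫ w, Φ w ∂unif N k ∂m := by
        refine integral_congr_ae (hs.mono fun T hT => ?_)
        show ∫ w, Φ (app (tp T) w) ∂unif N k = _
        have hmT : Measurable (app (tp T)) := by unfold app; fun_prop
        conv_rhs => rw [← map_unif (k := k) hT.1.tp fun j hj => hT.2.tp' hT.1 j (Nat.lt_succ_of_lt hj)]
        exact (integral_map hmT.aemeasurable hΦm.aestronglyMeasurable).symm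
    _ = _ := by simp [incr, Φ]

theorem cvar_succ (hν : IsHaarOrthogonal ν) {f : Mat N → ℝ} (hf : Measurable f) {B : ℝ} (hB : ∀ U, |f U| ≤ B)
    {d : ℕ} (hd : d < N) : cvar ν f (d + 1) ≤ cvar ν f d + incr ν f (N - (d + 1)) := by
  have := hν.1
  obtain ⟨hs, -⟩ := chain_spec (N := N) d hd.le
  set k := N - (d + 1) with hk'
  rw [show N - d = k + 1 by omega] at hs
  have hstep : chain N (d + 1) = ((unif N k).prod (chain N d)).map fun q => mul (rot k q.1) q.2 := rfl
  set p := unif N k
  set m := chain N d
  have hfXT : Measurable fun q : Mat N × Mat N => f (mul q.1 q.2) := hf.comp measurable_mul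
  have hfX : ∀ X, Measurable fun T => f (mul X T) := fun X => hf.comp (measurable_mul_left X)
  have hgm : Measurable fun q : (Mat N × (Fin N → ℝ)) × Mat N => f (mul (mul q.1.1 (rot k q.1.2)) q.2) :=
    hf.comp (measurable_mul.comp ((measurable_mul.comp ((measurable_fst.comp measurable_fst).prodMk
      ((measurable_rot k).comp (measurable_snd.comp measurable_fst)))).prodMk measurable_snd))
  set V := fun X => ∫ T, (f (mul X T) - ∫ T', f (mul X T') ∂m) ^ 2 ∂m
  set W := fun q : Mat N × (Fin N → ℝ) => ∫ T, (f (mul (mul q.1 (rot k q.2)) T) - f (mul q.1 T)) ^ 2 ∂m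
  have key : ∀ X, ∫ T, (f (mul X T) - ∫ T', f (mul X T') ∂chain N (d + 1)) ^ 2 ∂chain N (d + 1) ≤
      ∫ w, V (mul X (rot k w)) ∂p + ∫ w, W (X, w) ∂p := fun X => by
    rw [hstep]
    exact step_var hf hB X k m
  have hVm : Measurable V :=
    ((hfXT.sub (hfXT.stronglyMeasurable.integral_prod_right'.measurable.comp measurable_fst)).pow_const
      2).stronglyMeasurable.integral_prod_right'.measurable
  have hWm : Measurable W :=
    ((hgm.sub (hfXT.comp ((measurable_fst.comp measurable_fst).prodMk measurable_snd))).pow_const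
      2).stronglyMeasurable.integral_prod_right'.measurable
  have iV : Integrable (fun q : Mat N × (Fin N → ℝ) => V (mul q.1 (rot k q.2))) (ν.prod p) :=
    .of_bound (hVm.comp (measurable_mul.comp (measurable_fst.prodMk ((measurable_rot k).comp measurable_snd)))).aestronglyMeasurable
      ((2 * B) ^ 2) (.of_forall fun q => (norm_integral_le_of_norm_le_const
        (.of_forall fun T => bound_sq (hB _) (abs_mean fun T' => hB _))).trans_eq (by simp))
  have iW : Integrable W (ν.prod p) := .of_bound hWm.aestronglyMeasurable ((2 * B) ^ 2)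
    (.of_forall fun q => (norm_integral_le_of_norm_le_const (.of_forall fun T => bound_sq (hB _) (hB _))).trans_eq (by simp))
  refine le_trans (integral_mono_of_nonneg (.of_forall fun X => integral_nonneg fun T => sq_nonneg _)
    (iV.integral_prod_left.add iW.integral_prod_left) (.of_forall fun X => key X)) ?_
  simp only [Pi.add_apply]
  rw [integral_add iV.integral_prod_left iW.integral_prod_left,
    integral_integral_swap (f := fun X w => V (mul X (rot k w))) iV,
    integral_integral_swap (f := fun X w => W (X, w)) iW]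
  refine add_le_add (le_of_eq ?_) (le_of_eq (incr_eq hν hf hB m hs))
  calc ∫ w, ∫ X, V (mul X (rot k w)) ∂ν ∂p = ∫ _w, ∫ X, V X ∂ν ∂p := by
        refine integral_congr_ae (.of_forall fun w => ?_)
        show ∫ X, V (mul X (rot k w)) ∂ν = _
        conv_rhs => rw [← map_mul_right hν (rot_orth k w)]
        exact (integral_map (measurable_mul_right _).aemeasurable hVm.aestronglyMeasurable).symm
    _ = _ := by simp [cvar, V, m]

/-- Efron–Stein along the chain -/
theorem variance_chain (hν : IsHaarOrthogonal ν) {f : Mat N → ℝ} (hf : Measurable f) {B : ℝ} (hB : ∀ U, |f U| ≤ B) :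
    ∫ U, (f U - ∫ V, f V ∂ν) ^ 2 ∂ν ≤ ∑ d ∈ Finset.range N, incr ν f (N - (d + 1)) := by
  have := hν.1
  have h0 : ∀ d, d ≤ N → cvar ν f d ≤ ∑ i ∈ Finset.range d, incr ν f (N - (i + 1)) := by
    intro d
    induction d with
    | zero =>
      intro _
      have : Measurable fun T : Mat N => T := measurable_id
      simp [cvar, chain, integral_dirac]
    | succ d ih =>
      intro hd
      rw [Finset.sum_range_succ]
      exact (cvar_succ hν hf hB hd).trans (add_le_add (ih (Nat.le_of_succ_le hd)) le_rfl)
  refine le_trans (le_of_eq ?_) (h0 N le_rfl)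
  simp only [cvar, chain_full hν]
  have hl : ∀ X, Orth X → ν.map (mul X) = ν := fun X hX => hν.2.2 X hX
  calc ∫ U, (f U - ∫ V, f V ∂ν) ^ 2 ∂ν = ∫ _X, ∫ U, (f U - ∫ V, f V ∂ν) ^ 2 ∂ν ∂ν := by simp
    _ = _ := by
      refine integral_congr_ae (hν.2.1.mono fun X hX => ?_)
      have hm : Measurable (mul X) := measurable_mul_left _
      have e : ∀ φ : Mat N → ℝ, Measurable φ → ∫ T, φ (mul X T) ∂ν = ∫ U, φ U ∂ν := fun φ hφ => by
        conv_rhs => rw [← hl X hX]
        exact (integral_map hm.aemeasurable hφ.aestronglyMeasurable).symm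
      show _ = ∫ T, (f (mul X T) - ∫ T', f (mul X T') ∂ν) ^ 2 ∂ν
      rw [e f hf, e (fun U => (f U - ∫ V, f V ∂ν) ^ 2) ((hf.sub measurable_const).pow_const 2)]

end Vale.Agent.P166.Phase
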