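import Vale.Agent.P166.Phase.Moments
import Vale.Agent.P166.Phase.Chain

/-!
Variance of the pressure under Haar measure.
-/

open MeasureTheory ProbabilityTheory Real

noncomputable section

namespace Vale.Agent.P166.Phase

open Pattern (gauss)

variable {N : ℕ}

/-- fourth Gaussian moment -/
def g4 : ℝ := ∫ t, t ^ 4 ∂gaussianReal 0 1

lemma g4_nonneg : 0 ≤ g4 := integral_nonneg fun t => by positivity

lemma integrable_pow_four : Integrable (fun t : ℝ => t ^ 4) (gaussianReal 0 1) := by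
  have h := (memLp_id_gaussianReal (μ := 0) (v := 1) 4).integrable_norm_pow (p := 4) (by norm_num)
  simpa [norm_eq_abs, Even.pow_abs (show Even 4 by decide)] using h

lemma linear_four (y : Fin N → ℝ) : Integrable (fun g => ip g y ^ 4) (gauss (Fin N)) ∧
    ∫ g, ip g y ^ 4 ∂gauss (Fin N) = g4 * ip y y ^ 2 := by
  by_cases hy : ip y y = 0
  · have hz : ∀ i, y i = 0 := fun i => mul_self_eq_zero.1 (le_antisymm
      (hy ▸ Finset.single_le_sum (f := fun i => y i * y i) (fun i _ => mul_self_nonneg _) (Finset.mem_univ i))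
      (mul_self_nonneg _))
    simp [ip, hz]
  · have hc : ∑ i, nz y i ^ 2 = 1 := by simpa [ip, sq] using ip_nz_self hy
    have hp : 0 < ip y y := lt_of_le_of_ne (Finset.sum_nonneg fun i _ => mul_self_nonneg _) (Ne.symm hy)
    have e : ∀ g, ip g y ^ 4 = ip y y ^ 2 * (∑ i, nz y i * g i) ^ 4 := fun g => by
      have h1 : ip g y = √(ip y y) * ∑ i, nz y i * g i := by
        rw [Finset.mul_sum]
        refine Finset.sum_congr rfl fun i _ => ?_
        have := Real.sqrt_pos.2 hp
        simp only [nz]; field_simp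
      rw [h1, mul_pow, show √(ip y y) ^ 4 = (√(ip y y) ^ 2) ^ 2 by ring, Real.sq_sqrt hp.le]
    simp only [e]
    refine ⟨(Pattern.integrable_linear _ hc (F := fun t => t ^ 4) integrable_pow_four).const_mul _, ?_⟩
    rw [integral_const_mul, Pattern.integral_linear _ hc (F := fun t => t ^ 4) (by fun_prop), mul_comm, g4]

lemma ip_proj (k : ℕ) (x y : Fin N → ℝ) : ip (proj k x) y = ip x (proj k y) :=
  Finset.sum_congr rfl fun i _ => by simp only [proj]; split_ifs <;> simp

lemma proj_idem (k : ℕ) (x : Fin N → ℝ) : proj k (proj k x) = proj k x := by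
  funext i; simp only [proj]; split_ifs <;> rfl

lemma ip_proj_le (k : ℕ) (x : Fin N → ℝ) : ip (proj k x) (proj k x) ≤ ip x x :=
  Finset.sum_le_sum fun i _ => by simp only [proj]; split_ifs <;> simp [mul_self_nonneg]

lemma card_from {k : ℕ} (hk : k < N) :
    ((Finset.univ.filter fun i : Fin N => k ≤ (i : ℕ)).card : ℝ) = N - k := by
  have e : (Finset.univ.filter fun i : Fin N => k ≤ (i : ℕ)) = Finset.Ici ⟨k, hk⟩ := by
    ext i; simp [Fin.le_def]
  rw [e, Fin.card_Ici, Nat.cast_sub hk.le]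

/-- radius and direction of a projected Gaussian vector -/
lemma polar_unif {k : ℕ} (hk : k < N) :
    (gauss (Fin N)).map (fun g => (ip (proj k g) (proj k g), nz (proj k g))) =
      ((gauss (Fin N)).map fun g => ip (proj k g) (proj k g)).prod (unif N k) := by
  obtain ⟨hs, hinv⟩ := chain_spec (N := N) (N - k) (Nat.sub_le _ _)
  rw [show N - (N - k) = k by omega] at hs hinv
  have hev : ∀ᵐ g ∂gauss (Fin N), UnitFrom k (nz (proj k g)) :=
    ae_of_ae_map (measurable_proj_nz k).aemeasurable (unif_unitFrom hk)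
  refine (polar_gen (ν := chain N (N - k)) (R := tp) (Pm := proj k) measurable_tp (measurable_proj k)
    (hs.mono fun T hT => hT.1.tp) (hs.mono fun T hT g => proj_app hT.1.tp (hT.2.tp' hT.1) g)
    (L := (chain N (N - k)).map fun T => app (tp T) (bas k)) (hev.mono fun g hg => ?_)).2
  set u := nz (proj k g)
  set O := refl fun i => u i - bas k i
  have hO : Orth O := orth_refl _
  have hOu : app O u = bas k := app_refl_map (by rw [hg.1, bas_unit hk])
  have hfix : Fix k O := fun j hj => by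
    have h1 : ip (fun i => u i - bas k i) (bas j) = 0 := by
      rw [ip_comm, ip_bas (hj.trans hk), ← hg.2]
      simp [proj, not_le.2 hj, bas, hj.ne]
    rw [app_refl]; funext i; simp [h1]
  have hm : ∀ x, Measurable fun T : Mat N => app (tp T) x := fun x =>
    measurable_app.comp (measurable_tp.prodMk measurable_const)
  conv_lhs => rw [← hinv (tp O) hO.tp (hfix.tp' hO), Measure.map_map (hm u) (measurable_mul_left _)]
  congr 1
  funext T
  show app (tp (mul (tp O) T)) u = app (tp T) (bas k)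
  rw [show tp (mul (tp O) T) = mul (tp T) O from by
    funext i j; simp only [mul, tp]; exact Finset.sum_congr rfl fun l _ => mul_comm _ _, app_mul, hOu]

/-- fourth moment of a coordinate of a uniform direction -/
lemma unif_four {k : ℕ} (hk : k < N) (x : Fin N → ℝ) :
    Integrable (fun w => ip w x ^ 4) (unif N k) ∧
      ∫ w, ip w x ^ 4 ∂unif N k ≤ g4 * ip (proj k x) (proj k x) ^ 2 / ((N:ℝ) - k) ^ 2 := by
  set m := (N:ℝ) - k
  have hm : 0 < m := sub_pos.2 (by exact_mod_cast hk)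
  set r := fun g : Fin N → ℝ => ip (proj k g) (proj k g)
  have hr : Measurable r := by simp only [r, ip]; fun_prop
  have : IsProbabilityMeasure ((gauss (Fin N)).map r) := Measure.isProbabilityMeasure_map hr.aemeasurable
  have h4 : ∀ i : Fin N, Integrable (fun g : Fin N → ℝ => g i ^ 4) (gauss (Fin N)) := fun i =>
    integrable_comp_eval (μ := fun _ : Fin N => gaussianReal 0 1) (i := i) (f := fun t : ℝ => t ^ 4) integrable_pow_four
  have hr2 : Integrable (fun g => r g ^ 2) (gauss (Fin N)) := by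
    refine ((integrable_finsetSum Finset.univ fun i _ => h4 i).const_mul (N:ℝ)).mono'
      (hr.pow_const 2).aestronglyMeasurable (.of_forall fun g => ?_)
    rw [norm_eq_abs, abs_of_nonneg (sq_nonneg _)]
    have h1 : r g ≤ ∑ i, g i ^ 2 := (ip_proj_le k g).trans (le_of_eq (by simp [ip, sq]))
    refine (pow_le_pow_left₀ (Finset.sum_nonneg fun i _ => mul_self_nonneg _) h1 2).trans ?_
    refine (sq_sum_le_card_mul_sum_sq (s := Finset.univ) (f := fun i => g i ^ 2)).trans (le_of_eq ?_)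
    simp [← pow_mul]
  have h2i : ∀ i : Fin N, Integrable (fun g : Fin N → ℝ => g i ^ 2) (gauss (Fin N)) := fun i =>
    ((h4 i).add (integrable_const 1)).mono' ((measurable_pi_apply i).pow_const 2).aestronglyMeasurable (.of_forall fun g => by
      rw [norm_eq_abs, abs_of_nonneg (sq_nonneg _)]
      show g i ^ 2 ≤ g i ^ 4 + 1
      nlinarith [sq_nonneg (g i ^ 2 - 1)])
  have hr1 : Integrable r (gauss (Fin N)) ∧ ∫ g, r g ∂gauss (Fin N) = m := by
    have e : ∀ g, r g = ∑ i ∈ Finset.univ.filter (fun i : Fin N => k ≤ (i:ℕ)), g i ^ 2 := fun g => by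
      rw [Finset.sum_filter]
      exact Finset.sum_congr rfl fun i _ => by simp only [proj]; split_ifs <;> ring
    have e1 : ∀ i : Fin N, ∫ g, g i ^ 2 ∂gauss (Fin N) = 1 := fun i => by
      have h := Pattern.integral_linear (κ := Fin N) (fun l => if l = i then 1 else 0) (by simp) (F := fun t => t ^ 2)
        (by fun_prop)
      have hv : ∫ t, t ^ 2 ∂gaussianReal 0 1 = 1 := by
        have := variance_id_gaussianReal (μ := 0) (v := 1)
        rw [variance_of_integral_eq_zero aemeasurable_id (by simp [integral_id_gaussianReal])] at this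
        simpa using this
      rw [hv] at h; simpa using h
    refine ⟨(integrable_finsetSum _ fun i _ => h2i i).congr (.of_forall fun g => (e g).symm), ?_⟩
    rw [integral_congr_ae (.of_forall e), integral_finsetSum _ fun i _ => h2i i]
    simp only [e1, Finset.sum_const, nsmul_eq_mul, mul_one]
    exact card_from hk
  have hEr2 : m ^ 2 ≤ ∫ g, r g ^ 2 ∂gauss (Fin N) := by
    have h := integral_nonneg (μ := gauss (Fin N)) (f := fun g => (r g - m) ^ 2) fun g => sq_nonneg _
    have e : ∀ g, (r g - m) ^ 2 = r g ^ 2 - 2 * m * r g + m ^ 2 := fun g => by ring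
    simp only [e] at h
    rw [integral_add (f := fun g => r g ^ 2 - 2 * m * r g) (hr2.sub (hr1.1.const_mul _)) (integrable_const _),
      integral_sub hr2 (hr1.1.const_mul _), integral_const_mul, hr1.2] at h
    simp only [integral_const, probReal_univ, one_smul] at h
    linarith
  have hF : Measurable fun w : Fin N → ℝ => ip w x ^ 4 := by unfold ip; fun_prop
  have hi : Integrable (fun w => ip w x ^ 4) (unif N k) := by
    refine .of_bound hF.aestronglyMeasurable (ip x x ^ 2) ((unif_unitFrom hk).mono fun w hw => ?_)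
    rw [norm_eq_abs, show ip w x ^ 4 = (ip w x ^ 2) ^ 2 by ring, abs_of_nonneg (sq_nonneg _)]
    refine pow_le_pow_left₀ (sq_nonneg _) ?_ 2
    have h := Finset.sum_mul_sq_le_sq_mul_sq Finset.univ w x
    have h1 : ∑ i, w i ^ 2 = 1 := by simpa [ip, sq] using hw.1
    rw [h1, one_mul] at h
    exact h.trans (le_of_eq (by simp [ip, sq]))
  refine ⟨hi, ?_⟩
  have hprod : ∫ q : ℝ × (Fin N → ℝ), q.1 ^ 2 * ip q.2 x ^ 4 ∂((gauss (Fin N)).map r).prod (unif N k) =
      (∫ g, r g ^ 2 ∂gauss (Fin N)) * ∫ w, ip w x ^ 4 ∂unif N k := by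
    rw [integral_prod_mul (fun t : ℝ => t ^ 2) (fun w => ip w x ^ 4), integral_map hr.aemeasurable (by fun_prop)]
  have hmeas : Measurable fun q : ℝ × (Fin N → ℝ) => q.1 ^ 2 * ip q.2 x ^ 4 :=
    (measurable_fst.pow_const 2).mul (hF.comp measurable_snd)
  have e1 : ∫ g, r g ^ 2 * ip (nz (proj k g)) x ^ 4 ∂gauss (Fin N) = g4 * ip (proj k x) (proj k x) ^ 2 := by
    rw [← (linear_four (proj k x)).2]
    refine integral_congr_ae ((proj_ne_zero_ae hk).mono fun g hg => ?_)
    show r g ^ 2 * ip (nz (proj k g)) x ^ 4 = ip g (proj k x) ^ 4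
    rw [← ip_proj]
    have hp : 0 < r g := lt_of_le_of_ne (Finset.sum_nonneg fun i _ => mul_self_nonneg _) (Ne.symm hg)
    have h1 : ip (proj k g) x = √(r g) * ip (nz (proj k g)) x := by
      simp only [ip, Finset.mul_sum]
      refine Finset.sum_congr rfl fun i _ => ?_
      have := Real.sqrt_pos.2 hp
      simp only [nz, r] at this ⊢; field_simp
    rw [h1, mul_pow, show √(r g) ^ 4 = (√(r g) ^ 2) ^ 2 by ring, Real.sq_sqrt hp.le]
  rw [← polar_unif hk, integral_map (hr.prodMk (measurable_proj_nz k)).aemeasurable hmeas.aestronglyMeasurable,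
    e1] at hprod
  rw [le_div_iff₀ (by positivity), mul_comm, hprod]
  exact mul_le_mul_of_nonneg_right hEr2 (integral_nonneg fun w => by positivity)

/-! ### one reflection -/

/-- spin vector -/
def spv (σ : Fin N → Bool) : Fin N → ℝ := fun i => spin (σ i)

lemma field_app (U : Mat N) (σ : Fin N → Bool) : field U σ = app U (spv σ) := rfl

/-- Gibbs weight -/
def gib (β : ℝ) (lam : Fin N → ℝ) (U : Mat N) (σ : Fin N → Bool) : ℝ :=
  exp (energy β lam U σ) / ∑ τ : Fin N → Bool, exp (energy β lam U τ)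

lemma gib_sum (β : ℝ) (lam : Fin N → ℝ) (U : Mat N) : ∑ σ, gib β lam U σ = 1 := by
  simp only [gib, ← Finset.sum_div]; exact div_self (sum_pos' _).ne'

lemma gib_nonneg (β : ℝ) (lam : Fin N → ℝ) (U : Mat N) (σ : Fin N → Bool) : 0 ≤ gib β lam U σ :=
  div_nonneg (exp_pos _).le (sum_pos' _).le

lemma pdiff (hN : 0 < N) (β : ℝ) (lam : Fin N → ℝ) (U U' : Mat N) :
    max (pressure β lam U - pressure β lam U') 0 ^ 2 ≤
      (∑ σ, gib β lam U σ * (energy β lam U' σ - energy β lam U σ) ^ 2) / (N:ℝ) ^ 2 := by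
  have hN' : (0:ℝ) < N := by exact_mod_cast hN
  set d := fun σ => energy β lam U' σ - energy β lam U σ
  set μ' := ∑ σ, gib β lam U σ * d σ
  set S := ∑ τ : Fin N → Bool, exp (energy β lam U τ)
  set S' := ∑ τ : Fin N → Bool, exp (energy β lam U' τ)
  have hS : 0 < S := sum_pos' _
  have h1 : exp μ' * S ≤ S' := by
    have e : ∑ τ : Fin N → Bool, exp (energy β lam U τ) * (exp μ' * (1 + (d τ - μ'))) = exp μ' * S := by
      have e2 : ∑ τ : Fin N → Bool, exp (energy β lam U τ) * d τ = S * μ' := by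
        simp only [μ', gib, Finset.mul_sum]
        exact Finset.sum_congr rfl fun τ _ => by field_simp; rfl
      have e3 : ∀ τ : Fin N → Bool, exp (energy β lam U τ) * (exp μ' * (1 + (d τ - μ'))) =
          exp μ' * (exp (energy β lam U τ) * (1 - μ') + exp (energy β lam U τ) * d τ) := fun τ => by ring
      simp only [e3, ← Finset.mul_sum, Finset.sum_add_distrib, ← Finset.sum_mul, e2]
      ring
    rw [← e]
    refine Finset.sum_le_sum fun τ _ => ?_
    have h := mul_le_mul_of_nonneg_left (add_one_le_exp (d τ - μ'))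
      (mul_pos (exp_pos (energy β lam U τ)) (exp_pos μ')).le
    have e4 : exp (energy β lam U τ) * exp μ' * exp (d τ - μ') = exp (energy β lam U' τ) := by
      rw [← exp_add, ← exp_add]; congr 1; simp [d]
    rw [e4] at h
    linarith
  have h2 := log_le_log (mul_pos (exp_pos μ') hS) h1
  rw [log_mul (exp_pos μ').ne' hS.ne', log_exp] at h2
  have h3 : pressure β lam U - pressure β lam U' = (log S - log S') / N := by
    simp only [pressure_eq]
    rw [log_mul (by positivity) (sum_pos' _).ne', log_mul (by positivity) (sum_pos' _).ne']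
    simp only [S, S']; ring
  have h4 : μ' ^ 2 ≤ ∑ σ, gib β lam U σ * d σ ^ 2 := by
    have h := Finset.sum_nonneg fun σ (_ : σ ∈ Finset.univ) =>
      mul_nonneg (gib_nonneg β lam U σ) (sq_nonneg (d σ - μ'))
    have e : ∀ σ, gib β lam U σ * (d σ - μ') ^ 2 =
        gib β lam U σ * d σ ^ 2 - 2 * μ' * (gib β lam U σ * d σ) + μ' ^ 2 * gib β lam U σ := fun σ => by ring
    simp only [e, Finset.sum_add_distrib, Finset.sum_sub_distrib, ← Finset.mul_sum, gib_sum] at h
    rw [show ∑ σ, gib β lam U σ * d σ = μ' from rfl] at h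
    linarith
  rw [h3, le_div_iff₀ (by positivity), ← mul_pow]
  refine le_trans ?_ h4
  rcases le_total ((log S - log S') / N) 0 with h | h
  · rw [max_eq_right h]; simpa using sq_nonneg μ'
  · rw [max_eq_left h, div_mul_cancel₀ _ hN'.ne', ← neg_sq μ']
    refine pow_le_pow_left₀ ((div_nonneg_iff.1 h).elim (fun h => h.1) fun h => absurd h.2 (not_le.2 hN')) ?_ 2
    linarith

lemma flip_refl {k : ℕ} (hk : k < N) (β : ℝ) (lam : Fin N → ℝ) (U : Mat N) :
    pressure β lam (mul U (refl (bas k))) = pressure β lam U := by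
  classical
  have hinv : Function.Involutive fun σ : Fin N → Bool => Function.update σ ⟨k, hk⟩ (!σ ⟨k, hk⟩) := fun σ => by
    funext i; by_cases h : i = ⟨k, hk⟩
    · subst h; simp
    · simp [h]
  have e : ∀ σ, energy β lam (mul U (refl (bas k))) σ =
      energy β lam U (Function.update σ ⟨k, hk⟩ (!σ ⟨k, hk⟩)) := fun σ => by
    have h1 : app (refl (bas k)) (spv σ) = spv (Function.update σ ⟨k, hk⟩ (!σ ⟨k, hk⟩)) := by
      rw [app_refl, ip_bas hk, bas_unit hk]
      funext i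
      by_cases h : i = ⟨k, hk⟩
      · subst h; cases hσ : σ ⟨k, hk⟩ <;> simp [spv, bas, spin, hσ] <;> norm_num
      · have : (i : ℕ) ≠ k := fun e => h (Fin.ext e)
        simp [spv, bas, this, h]
    simp only [energy, field_app, app_mul, h1]
  simp only [pressure_eq, e]
  congr 3
  exact Fintype.sum_equiv hinv.toPerm _ _ fun σ => rfl

lemma refl_refl' (v : Fin N → ℝ) : mul (refl v) (refl v) = one := by
  have e : tp (refl v) = refl v := by
    funext i j; simp only [tp, refl, if_congr (eq_comm (a := j) (b := i)) rfl rfl]; ring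
  conv_lhs => arg 2; rw [← e]
  exact mul_tp_cancel (orth_refl v)

lemma pressure_rot {k : ℕ} (hk : k < N) (β : ℝ) (lam : Fin N → ℝ) (Y : Mat N) (w : Fin N → ℝ) :
    pressure β lam (mul Y (rot k w)) = pressure β lam (mul Y (refl (rdir k w))) := by
  unfold rot; split_ifs
  · rfl
  · rw [← mul_assoc', flip_refl hk]

/-- `J σ` -/
def hvec (lam : Fin N → ℝ) (Y : Mat N) (σ : Fin N → Bool) : Fin N → ℝ :=
  app (tp Y) fun l => lam l * app Y (spv σ) l

lemma ip_spv (σ : Fin N → Bool) : ip (spv σ) (spv σ) = (N:ℝ) := by simp [ip, spv, spin_sq]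

lemma hvec_sq {lam : Fin N → ℝ} {L : ℝ} (hL : ∀ l, |lam l| ≤ L) {Y : Mat N} (hY : Orth Y) (σ : Fin N → Bool) :
    ip (hvec lam Y σ) (hvec lam Y σ) ≤ L ^ 2 * N := by
  rw [hvec, ip_app hY.tp, ← ip_spv σ, ← ip_app hY (spv σ) (spv σ)]
  simp only [ip, Finset.mul_sum]
  refine Finset.sum_le_sum fun l _ => ?_
  rw [show lam l * app Y (spv σ) l * (lam l * app Y (spv σ) l) = lam l ^ 2 * (app Y (spv σ) l * app Y (spv σ) l) by ring]
  exact mul_le_mul_of_nonneg_right (by rw [← sq_abs]; exact pow_le_pow_left₀ (abs_nonneg _) (hL l) 2) (mul_self_nonneg _)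

/-- change of energy under one reflection -/
lemma energy_refl_sq {β L ρ : ℝ} {lam : Fin N → ℝ} (hL : ∀ l, |lam l| ≤ L) (hρ : 0 < ρ) {k : ℕ} (hk : k < N)
    {Y : Mat N} (hY : Orth Y) {w : Fin N → ℝ} (hw : UnitFrom k w) (σ : Fin N → Bool) :
    (energy β lam (mul Y (refl (rdir k w))) σ - energy β lam Y σ) ^ 2 ≤
      2 * β ^ 2 * ((6 * ip (bas k) (hvec lam Y σ) ^ 2 + 2 * ρ + 32 * L ^ 2) +
        ip w (spv σ) ^ 4 * (2 * ip (bas k) (hvec lam Y σ) ^ 2 + 2 * ρ + 32 * L ^ 2) +
        ip w (hvec lam Y σ) ^ 4 * (4 / ρ)) := by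
  set s := spv σ
  set hv := hvec lam Y σ
  set v := rdir k w
  have hwk : |ip (bas k) w| ≤ 1 := by
    rw [ip_bas hk, abs_le]
    have h := Finset.single_le_sum (f := fun i => w i * w i) (fun i _ => mul_self_nonneg _) (Finset.mem_univ ⟨k, hk⟩)
    rw [show ∑ i, w i * w i = ip w w from rfl, hw.1] at h
    constructor <;> nlinarith
  obtain ⟨e, he, hv2, hvx⟩ : ∃ e : ℝ, e * e = 1 ∧ (2 ≤ ip v v ∧ ip v v ≤ 4) ∧
      ∀ x, ip v x = ip (bas k) x + e * ip w x := by
    have hb := bas_unit (N := N) hk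
    have hw1 := hw.1
    obtain ⟨h1, h2⟩ := abs_le.1 hwk
    have hc : ∑ i, w i * bas k i = ip (bas k) w := Finset.sum_congr rfl fun i _ => mul_comm _ _
    simp only [v, rdir]
    split_ifs with h
    · refine ⟨-1, by norm_num, ?_, fun x => by simp [ip, sub_mul, Finset.sum_sub_distrib]; ring⟩
      simp only [ip, sub_mul, mul_sub, Finset.sum_sub_distrib, hc] at hb hw1 h1 h2 h ⊢
      constructor <;> linarith
    · refine ⟨1, by norm_num, ?_, fun x => by simp [ip, add_mul, Finset.sum_add_distrib]⟩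
      simp only [ip, add_mul, mul_add, Finset.sum_add_distrib, hc] at hb hw1 h1 h2 h ⊢
      constructor <;> linarith
  set c := 2 * ip v s / ip v v
  set α := ip v hv
  set γ := ∑ l, lam l * app Y v l ^ 2
  have hΔ : energy β lam (mul Y (refl v)) σ - energy β lam Y σ = β / 2 * (-2 * c * α + c ^ 2 * γ) := by
    have h1 : field (mul Y (refl v)) σ = fun l => app Y s l - c * app Y v l := by
      rw [field_app, app_mul, app_refl]
      funext l
      simp only [app, mul_sub, Finset.sum_sub_distrib, Finset.mul_sum]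
      congr 1
      exact Finset.sum_congr rfl fun i _ => by ring
    have h2 : α = ∑ l, lam l * app Y s l * app Y v l := by
      show ip v (app (tp Y) fun l => lam l * app Y s l) = _
      rw [ip_tp hY.tp]; exact Finset.sum_congr rfl fun l _ => mul_comm _ _
    simp only [energy, h1, h2, γ, field_app, Finset.mul_sum, ← Finset.sum_add_distrib, ← mul_sub,
      ← Finset.sum_sub_distrib]
    exact Finset.sum_congr rfl fun l _ => by ring
  have hγ : γ ^ 2 ≤ 16 * L ^ 2 := by
    have h := abs_qf_le (x := app Y v) hL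
    rw [ip_app hY] at h
    have hL0 : 0 ≤ L := (abs_nonneg _).trans (hL ⟨k, hk⟩)
    have := h.trans (mul_le_mul_of_nonneg_left hv2.2 hL0)
    rw [show γ = qf lam (app Y v) from rfl, ← sq_abs, show 16 * L ^ 2 = (L * 4) ^ 2 by ring]
    exact pow_le_pow_left₀ (abs_nonneg _) this 2
  have hsk : ip (bas k) s ^ 2 = 1 := by rw [ip_bas hk, sq]; exact spin_sq _
  set a := ip w s
  set b := ip w hv
  set h := ip (bas k) hv
  have hc2 : c ^ 2 ≤ 2 + 2 * a ^ 2 := by
    have h1 : c ^ 2 ≤ ip v s ^ 2 := by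
      simp only [c]; rw [div_pow, div_le_iff₀ (by nlinarith)]
      nlinarith [mul_le_mul_of_nonneg_left (pow_le_pow_left₀ zero_le_two hv2.1 2) (sq_nonneg (ip v s))]
    have h2 : ip v s ^ 2 ≤ 2 + 2 * a ^ 2 := by
      rw [hvx]
      have := sq_nonneg (ip (bas k) s - e * a)
      have e2 : (e * a) ^ 2 = a ^ 2 := by rw [mul_pow, sq e, he, one_mul]
      simp only [a] at *
      linarith
    exact h1.trans h2
  have hα : α ^ 2 ≤ 2 * h ^ 2 + 2 * b ^ 2 := by
    simp only [α]; rw [hvx]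
    have := sq_nonneg (h - e * b)
    have e2 : (e * b) ^ 2 = b ^ 2 := by rw [mul_pow, sq e, he, one_mul]
    linarith
  rw [hΔ]
  have h1 : (β / 2 * (-2 * c * α + c ^ 2 * γ)) ^ 2 ≤
      2 * β ^ 2 * ((2 + 2 * a ^ 2) * (2 * h ^ 2 + 2 * b ^ 2) + 4 * L ^ 2 * (2 + 2 * a ^ 2) ^ 2) := by
    have s1 := mul_le_mul hc2 hα (sq_nonneg _) (by positivity)
    have s2 := mul_le_mul (pow_le_pow_left₀ (sq_nonneg c) hc2 2) hγ (sq_nonneg _) (by positivity)
    have s3 : (-2 * c * α + c ^ 2 * γ) ^ 2 ≤ 8 * (c ^ 2 * α ^ 2) + 2 * ((c ^ 2) ^ 2 * γ ^ 2) := by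
      linarith [sq_nonneg (-2 * c * α - c ^ 2 * γ)]
    rw [mul_pow]
    refine (mul_le_mul_of_nonneg_left s3 (sq_nonneg _)).trans ?_
    linarith [mul_le_mul_of_nonneg_left s1 (sq_nonneg β), mul_le_mul_of_nonneg_left s2 (sq_nonneg β)]
  refine h1.trans (mul_le_mul_of_nonneg_left ?_ (by positivity))
  have t1 : b ^ 2 ≤ (ρ + b ^ 4 / ρ) / 2 := by
    rw [le_div_iff₀ two_pos]
    refine le_of_mul_le_mul_left ?_ hρ
    rw [mul_add, mul_div_cancel₀ _ hρ.ne']
    linarith [sq_nonneg (b ^ 2 - ρ)]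
  have t2 : a ^ 2 * b ^ 2 ≤ (ρ * a ^ 4 + b ^ 4 / ρ) / 2 := by
    rw [le_div_iff₀ two_pos]
    refine le_of_mul_le_mul_left ?_ hρ
    rw [mul_add, mul_div_cancel₀ _ hρ.ne']
    linarith [sq_nonneg (b ^ 2 - ρ * a ^ 2)]
  have t3 : a ^ 2 * h ^ 2 ≤ (1 + a ^ 4) / 2 * h ^ 2 :=
    mul_le_mul_of_nonneg_right (by linarith [sq_nonneg (a ^ 2 - 1)]) (sq_nonneg h)
  have t4 : (2 + 2 * a ^ 2) ^ 2 * L ^ 2 ≤ (8 + 8 * a ^ 4) * L ^ 2 :=
    mul_le_mul_of_nonneg_right (by linarith [sq_nonneg (a ^ 2 - 1)]) (sq_nonneg L)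
  linear_combination 4 * t1 + 4 * t2 + 4 * t3 + 4 * t4

/-- bounded version of the pressure -/
def clip (B β : ℝ) (lam : Fin N → ℝ) (U : Mat N) : ℝ := max (-B) (min B (pressure β lam U))

lemma clip_facts {B β : ℝ} (hB : 0 ≤ B) (lam : Fin N → ℝ) :
    Measurable (clip B β lam) ∧ ∀ U, |clip B β lam U| ≤ B :=
  ⟨measurable_const.max (measurable_const.min (measurable_pressure β lam)),
    fun U => abs_le.2 ⟨le_max_left _ _, max_le (by linarith) (min_le_left _ _)⟩⟩

lemma clip_eq (hN : 0 < N) {β L : ℝ} (hβ : 0 ≤ β) {lam : Fin N → ℝ} (hL : ∀ l, |lam l| ≤ L) {U : Mat N}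
    (hU : Orth U) : clip (β * L / 2) β lam U = pressure β lam U := by
  obtain ⟨h1, h2⟩ := abs_le.1 (abs_pressure_le hN hβ hL hU)
  rw [clip, min_eq_right h2, max_eq_right h1]

/-- the two halves of one increment agree -/
lemma incr_sym {ν : Measure (Mat N)} (hν : IsHaarOrthogonal ν) {F : Mat N → ℝ} (hF : Measurable F) {B : ℝ}
    (hB : ∀ U, |F U| ≤ B) {k : ℕ} (hk : k < N)
    (hrot : ∀ Y w, F (mul Y (rot k w)) = F (mul Y (refl (rdir k w)))) :
    incr ν F k = 2 * ∫ Y, ∫ w, max (F Y - F (mul Y (refl (rdir k w)))) 0 ^ 2 ∂unif N k ∂ν := by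
  have := hν.1
  set P1 := fun (Y : Mat N) (w : Fin N → ℝ) => max (F Y - F (mul Y (refl (rdir k w)))) 0 ^ 2
  have hHm : Measurable fun q : Mat N × (Fin N → ℝ) => mul q.1 (refl (rdir k q.2)) :=
    measurable_mul.comp (measurable_fst.prodMk (measurable_refl.comp ((measurable_rdir k).comp measurable_snd)))
  have hP1 : Measurable fun q : Mat N × (Fin N → ℝ) => P1 q.1 q.2 :=
    (((hF.comp measurable_fst).sub (hF.comp hHm)).max measurable_const).pow_const 2
  have hP1b : ∀ Y w, ‖P1 Y w‖ ≤ (2 * B) ^ 2 := fun Y w => by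
    rw [norm_eq_abs, abs_of_nonneg (sq_nonneg _)]
    refine pow_le_pow_left₀ (le_max_right _ _) (max_le ?_ ?_) 2 <;>
      linarith [(abs_le.1 (hB Y)).2, (abs_le.1 (hB (mul Y (refl (rdir k w))))).1, abs_nonneg (F Y), hB Y]
  have hinner : ∀ w, ∫ Y, (F (mul Y (rot k w)) - F Y) ^ 2 ∂ν = 2 * ∫ Y, P1 Y w ∂ν := fun w => by
    have hPw : Measurable fun Y => P1 Y w := hP1.comp (measurable_id.prodMk measurable_const)
    have i1 : Integrable (fun Y => P1 Y w) ν := .of_bound hPw.aestronglyMeasurable _ (.of_forall fun Y => hP1b Y w)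
    have i2 : Integrable (fun Y => P1 (mul Y (refl (rdir k w))) w) ν :=
      .of_bound (hPw.comp (measurable_mul_right _)).aestronglyMeasurable _ (.of_forall fun Y => hP1b _ w)
    have e : ∀ Y, (F (mul Y (rot k w)) - F Y) ^ 2 = P1 Y w + P1 (mul Y (refl (rdir k w))) w := fun Y => by
      rw [hrot]
      simp only [P1, mul_assoc', refl_refl', mul_one']
      rcases le_total (F Y) (F (mul Y (refl (rdir k w)))) with h | h
      · rw [max_eq_right (sub_nonpos.2 h), max_eq_left (sub_nonneg.2 h)]; ring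
      · rw [max_eq_left (sub_nonneg.2 h), max_eq_right (sub_nonpos.2 h)]; ring
    simp only [e]
    rw [integral_add i1 i2, two_mul]
    congr 1
    conv_rhs => rw [← map_mul_right hν (orth_refl (rdir k w))]
    exact (integral_map (measurable_mul_right _).aemeasurable hPw.aestronglyMeasurable).symm
  have iP : Integrable (Function.uncurry fun Y w => P1 Y w) (ν.prod (unif N k)) :=
    .of_bound hP1.aestronglyMeasurable _ (.of_forall fun q => hP1b q.1 q.2)
  rw [incr, integral_congr_ae (.of_forall hinner), integral_const_mul, ← integral_integral_swap iP]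

/-- averaged bound for one configuration -/
lemma term_le {L ρ h2 : ℝ} (hL : 0 ≤ h2) (hρ : 0 < ρ) {k : ℕ} (hk : k < N) (x y : Fin N → ℝ)
    (hx : ip (proj k x) (proj k x) = (N:ℝ) - k) (hy : ip (proj k y) (proj k y) ≤ ρ * ((N:ℝ) - k)) :
    Integrable (fun w => (6 * h2 + 2 * ρ + 32 * L ^ 2) + ip w x ^ 4 * (2 * h2 + 2 * ρ + 32 * L ^ 2) +
      ip w y ^ 4 * (4 / ρ)) (unif N k) ∧
    ∫ w, ((6 * h2 + 2 * ρ + 32 * L ^ 2) + ip w x ^ 4 * (2 * h2 + 2 * ρ + 32 * L ^ 2) + ip w y ^ 4 * (4 / ρ))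
      ∂unif N k ≤ (1 + g4) * (6 * h2 + 6 * ρ + 32 * L ^ 2) := by
  have hm : 0 < (N:ℝ) - k := sub_pos.2 (by exact_mod_cast hk)
  have hg := g4_nonneg
  have j1 := (unif_four hk x).1.mul_const (2 * h2 + 2 * ρ + 32 * L ^ 2)
  have j2 := (unif_four hk y).1.mul_const (4 / ρ)
  refine ⟨((integrable_const _).fun_add j1).fun_add j2, ?_⟩
  rw [integral_add ((integrable_const _).fun_add j1) j2, integral_add (integrable_const _) j1,
    integral_mul_const, integral_mul_const]
  simp only [integral_const, probReal_univ, one_smul]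
  have a1 : ∫ w, ip w x ^ 4 ∂unif N k ≤ g4 :=
    (unif_four hk x).2.trans (le_of_eq (by rw [hx, mul_div_assoc, div_self (by positivity), mul_one]))
  have a2 : (∫ w, ip w y ^ 4 ∂unif N k) * (4 / ρ) ≤ 4 * g4 * ρ := by
    refine (mul_le_mul_of_nonneg_right ((unif_four hk y).2.trans
      (div_le_div_of_nonneg_right (mul_le_mul_of_nonneg_left (pow_le_pow_left₀
        (Finset.sum_nonneg fun i _ => mul_self_nonneg _) hy 2) hg) (sq_nonneg _))) (by positivity)).trans (le_of_eq ?_)
    field_simp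
  have a3 := mul_le_mul_of_nonneg_right a1 (show 0 ≤ 2 * h2 + 2 * ρ + 32 * L ^ 2 by positivity)
  linarith [mul_nonneg hg hL, mul_nonneg hg hρ.le, mul_nonneg hg (sq_nonneg L)]

lemma gib_avg (β : ℝ) (lam : Fin N → ℝ) (U : Mat N) (c : ℝ) : ∑ σ, gib β lam U σ * c = c := by
  rw [← Finset.sum_mul, gib_sum, one_mul]

lemma proj_spv {k : ℕ} (hk : k < N) (σ : Fin N → Bool) : ip (proj k (spv σ)) (proj k (spv σ)) = (N:ℝ) - k := by
  rw [← card_from hk, Finset.card_filter, Nat.cast_sum]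
  refine Finset.sum_congr rfl fun i _ => ?_
  simp only [proj]; split_ifs <;> simp [spv, spin_sq]

/-- local field squared, averaged -/
def hk2 (β : ℝ) (lam : Fin N → ℝ) (k : ℕ) (Y : Mat N) : ℝ :=
  ∑ σ, gib β lam Y σ * ip (bas k) (hvec lam Y σ) ^ 2

lemma step_le (hN : 0 < N) {β L : ℝ} (hβ : 0 ≤ β) (hL0 : 0 < L) {lam : Fin N → ℝ} (hL : ∀ l, |lam l| ≤ L) {k : ℕ}
    (hk : k < N) {Y : Mat N} (hY : Orth Y) :
    ∫ w, max (clip (β * L / 2) β lam Y - clip (β * L / 2) β lam (mul Y (refl (rdir k w)))) 0 ^ 2 ∂unif N k ≤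
      2 * β ^ 2 * (1 + g4) / (N:ℝ) ^ 2 *
        (6 * hk2 β lam k Y + 6 * (L ^ 2 * N / ((N:ℝ) - k)) + 32 * L ^ 2) := by
  have hm : 0 < (N:ℝ) - k := sub_pos.2 (by exact_mod_cast hk)
  have hN' : (0:ℝ) < N := by exact_mod_cast hN
  set ρ := L ^ 2 * N / ((N:ℝ) - k)
  have hρ : 0 < ρ := by positivity
  set h2 := fun σ => ip (bas k) (hvec lam Y σ) ^ 2
  set T := fun (σ : Fin N → Bool) (w : Fin N → ℝ) => (6 * h2 σ + 2 * ρ + 32 * L ^ 2) +
    ip w (spv σ) ^ 4 * (2 * h2 σ + 2 * ρ + 32 * L ^ 2) + ip w (hvec lam Y σ) ^ 4 * (4 / ρ)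
  have hT : ∀ σ, Integrable (T σ) (unif N k) ∧
      ∫ w, T σ w ∂unif N k ≤ (1 + g4) * (6 * h2 σ + 6 * ρ + 32 * L ^ 2) := fun σ =>
    term_le (sq_nonneg _) hρ hk _ _ (proj_spv hk σ)
      (((ip_proj_le k _).trans (hvec_sq hL hY σ)).trans (le_of_eq (by simp only [ρ]; field_simp)))
  have hb : ∀ᵐ w ∂unif N k,
      max (clip (β * L / 2) β lam Y - clip (β * L / 2) β lam (mul Y (refl (rdir k w)))) 0 ^ 2 ≤
        2 * β ^ 2 / (N:ℝ) ^ 2 * ∑ σ, gib β lam Y σ * T σ w := by
    refine (unif_unitFrom hk).mono fun w hw => ?_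
    rw [clip_eq hN hβ hL hY, clip_eq hN hβ hL (Orth.mul' hY (orth_refl _))]
    refine (pdiff hN β lam Y _).trans ?_
    rw [div_mul_eq_mul_div, Finset.mul_sum]
    refine div_le_div_of_nonneg_right (Finset.sum_le_sum fun σ _ => ?_) (by positivity)
    rw [mul_left_comm (2 * β ^ 2)]
    exact mul_le_mul_of_nonneg_left (energy_refl_sq hL hρ hk hY hw σ) (gib_nonneg _ _ _ _)
  have hi : Integrable (fun w => 2 * β ^ 2 / (N:ℝ) ^ 2 * ∑ σ, gib β lam Y σ * T σ w) (unif N k) :=
    (integrable_finsetSum _ fun σ _ => (hT σ).1.const_mul _).const_mul _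
  refine (integral_mono_of_nonneg (.of_forall fun w => sq_nonneg _) hi hb).trans ?_
  rw [integral_const_mul, integral_finsetSum _ fun σ _ => (hT σ).1.const_mul _]
  simp only [integral_const_mul]
  refine (mul_le_mul_of_nonneg_left (Finset.sum_le_sum fun σ _ => mul_le_mul_of_nonneg_left (hT σ).2
    (gib_nonneg _ _ _ _)) (by positivity)).trans (le_of_eq ?_)
  have e : ∑ σ, gib β lam Y σ * ((1 + g4) * (6 * h2 σ + 6 * ρ + 32 * L ^ 2)) =
      (1 + g4) * (6 * hk2 β lam k Y + (6 * ρ + 32 * L ^ 2)) := by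
    have e1 : ∀ σ, gib β lam Y σ * ((1 + g4) * (6 * h2 σ + 6 * ρ + 32 * L ^ 2)) =
        (1 + g4) * (6 * (gib β lam Y σ * h2 σ) + gib β lam Y σ * (6 * ρ + 32 * L ^ 2)) := fun σ => by ring
    simp only [e1]
    rw [← Finset.mul_sum, Finset.sum_add_distrib, ← Finset.mul_sum, gib_avg, hk2]
  rw [e]; ring

lemma hk2_facts {ν : Measure (Mat N)} (hν : IsHaarOrthogonal ν) (β : ℝ) {L : ℝ} {lam : Fin N → ℝ}
    (hL : ∀ l, |lam l| ≤ L) :
    (∀ k, k < N → Integrable (hk2 β lam k) ν) ∧ ∀ Y, Orth Y → ∑ i : Fin N, hk2 β lam i Y ≤ L ^ 2 * N := by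
  have := hν.1
  have hsum : ∀ Y, Orth Y → ∑ i : Fin N, hk2 β lam i Y ≤ L ^ 2 * N := fun Y hY => by
    simp only [hk2]
    rw [Finset.sum_comm]
    refine le_trans (Finset.sum_le_sum fun σ _ => ?_) (gib_avg β lam Y (L ^ 2 * N)).le
    rw [← Finset.mul_sum]
    refine mul_le_mul_of_nonneg_left ?_ (gib_nonneg _ _ _ _)
    refine le_trans (le_of_eq ?_) (hvec_sq hL hY σ)
    exact Finset.sum_congr rfl fun i _ => by rw [ip_bas i.2, sq]
  refine ⟨fun k hk => ?_, hsum⟩
  refine .of_bound ?_ (L ^ 2 * N) (hν.2.1.mono fun Y hY => ?_)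
  · refine (Finset.measurable_sum _ fun σ _ => ?_).aestronglyMeasurable
    have hE : ∀ τ, Measurable fun U : Mat N => exp (energy β lam U τ) := fun τ =>
      Real.measurable_exp.comp (measurable_energy β lam τ)
    have happ : ∀ l, Measurable fun U : Mat N => lam l * app U (spv σ) l := fun l => by unfold app; fun_prop
    have hh : Measurable fun U : Mat N => hvec lam U σ :=
      measurable_app.comp (measurable_tp.prodMk (measurable_pi_lambda _ happ))
    have hip : Measurable fun x : Fin N → ℝ => ip (bas k) x := by unfold ip; fun_prop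
    exact ((hE σ).div (Finset.measurable_sum _ fun τ _ => hE τ)).mul ((hip.comp hh).pow_const 2)
  · have h0 : ∀ i, 0 ≤ hk2 β lam i Y := fun i =>
      Finset.sum_nonneg fun σ _ => mul_nonneg (gib_nonneg _ _ _ _) (sq_nonneg _)
    rw [norm_eq_abs, abs_of_nonneg (h0 k)]
    set F : Fin N → ℝ := fun i => hk2 β lam (i : ℕ) Y with hF
    have h1 : F ⟨k, hk⟩ ≤ ∑ i, F i := Finset.single_le_sum (f := F) (fun i _ => h0 _) (Finset.mem_univ _)
    exact le_trans h1 (hsum Y hY)

/-- one reflection changes the pressure little on average -/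
lemma incr_le {ν : Measure (Mat N)} (hν : IsHaarOrthogonal ν) {β L : ℝ} (hβ : 0 ≤ β) (hL0 : 0 < L)
    {lam : Fin N → ℝ} (hL : ∀ l, |lam l| ≤ L) {k : ℕ} (hk : k < N) :
    incr ν (clip (β * L / 2) β lam) k ≤ 4 * β ^ 2 * (1 + g4) / (N:ℝ) ^ 2 *
      (6 * ∫ Y, hk2 β lam k Y ∂ν + 6 * (L ^ 2 * N / ((N:ℝ) - k)) + 32 * L ^ 2) := by
  have := hν.1
  have hB : 0 ≤ β * L / 2 := by positivity
  rw [incr_sym hν (clip_facts hB lam).1 (clip_facts hB lam).2 hk fun Y w => by simp only [clip, pressure_rot hk]]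
  have iH := (hk2_facts hν β hL).1 k hk
  have iR : Integrable (fun Y => 2 * β ^ 2 * (1 + g4) / (N:ℝ) ^ 2 *
      (6 * hk2 β lam k Y + 6 * (L ^ 2 * N / ((N:ℝ) - k)) + 32 * L ^ 2)) ν :=
    (((iH.const_mul 6).add (integrable_const _)).add (integrable_const _)).const_mul _
  refine (mul_le_mul_of_nonneg_left (integral_mono_of_nonneg
    (.of_forall fun Y => integral_nonneg fun w => sq_nonneg _) iR
    (hν.2.1.mono fun Y hY => step_le (by omega) hβ hL0 hL hk hY)) zero_le_two).trans (le_of_eq ?_)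
  rw [integral_const_mul, integral_add ((iH.const_mul 6).fun_add (integrable_const _)) (integrable_const _),
    integral_add (iH.const_mul 6) (integrable_const _), integral_const_mul]
  simp only [integral_const, probReal_univ, one_smul]
  ring

lemma harmonic_sqrt : ∀ n : ℕ, ∑ d ∈ Finset.range n, 1 / ((d:ℝ) + 1) ≤ 2 * √(n:ℝ)
  | 0 => by simp
  | n + 1 => by
    rw [Finset.sum_range_succ, Nat.cast_succ]
    have h := harmonic_sqrt n
    have hn : (0:ℝ) ≤ n := Nat.cast_nonneg n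
    have ha := Real.sq_sqrt hn
    have hb := Real.sq_sqrt (show (0:ℝ) ≤ n + 1 by linarith)
    have hb1 : 1 ≤ √((n:ℝ) + 1) := Real.one_le_sqrt.2 (by linarith)
    have hab : √(n:ℝ) ≤ √((n:ℝ) + 1) := Real.sqrt_le_sqrt (by linarith)
    have : 1 / ((n:ℝ) + 1) ≤ 2 * (√((n:ℝ) + 1) - √(n:ℝ)) := by
      rw [div_le_iff₀ (by linarith)]
      nlinarith [Real.sqrt_nonneg (n:ℝ)]
    linarith

/-- the pressure is self-averaging -/
theorem pressure_variance {ν : Measure (Mat N)} (hν : IsHaarOrthogonal ν) (hN : 0 < N) {β L : ℝ} (hβ : 0 ≤ β)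
    (hL0 : 0 < L) {lam : Fin N → ℝ} (hL : ∀ l, |lam l| ≤ L) :
    ∫ U, (pressure β lam U - ∫ V, pressure β lam V ∂ν) ^ 2 ∂ν ≤
      200 * (1 + g4) * β ^ 2 * L ^ 2 / √(N:ℝ) := by
  have := hν.1
  have hN' : (0:ℝ) < N := by exact_mod_cast hN
  set B := β * L / 2
  have hB : 0 ≤ B := by positivity
  set F := clip B β lam
  have hFm : Measurable F := measurable_const.max (measurable_const.min (measurable_pressure β lam))
  have hFB : ∀ U, |F U| ≤ B := fun U => abs_le.2 ⟨le_max_left _ _, max_le (by linarith) (min_le_left _ _)⟩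
  have hFo : F =ᵐ[ν] pressure β lam := hν.2.1.mono fun U hU => by
    obtain ⟨h1, h2⟩ := abs_le.1 (abs_pressure_le hN hβ hL hU)
    simp only [F, clip, B]; rw [min_eq_right h2, max_eq_right h1]
  rw [← integral_congr_ae hFo, ← integral_congr_ae (hFo.mono fun U hU => congrArg (fun x => (x - ∫ V, F V ∂ν) ^ 2) hU)]
  refine (variance_chain hν hFm hFB).trans ?_
  set P := fun k => ∫ Y, hk2 β lam k Y ∂ν
  refine (Finset.sum_le_sum fun d hd => incr_le hν hβ hL0 hL
    (show N - (d + 1) < N by have := Finset.mem_range.1 hd; omega)).trans ?_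
  rw [← Finset.mul_sum]
  have hP : ∑ d ∈ Finset.range N, P (N - (d + 1)) ≤ L ^ 2 * N := by
    have e0 : ∑ d ∈ Finset.range N, P (N - (d + 1)) = ∑ i : Fin N, P i := by
      rw [Fin.sum_univ_eq_sum_range, ← Finset.sum_range_reflect]
      refine Finset.sum_congr rfl fun d hd => congrArg P ?_
      have := Finset.mem_range.1 hd
      omega
    obtain ⟨hi, hsum⟩ := hk2_facts hν β hL
    rw [e0, ← integral_finsetSum _ fun i _ => hi _ i.2]
    exact (integral_mono_ae (integrable_finsetSum _ fun i _ => hi _ i.2) (integrable_const (L ^ 2 * (N:ℝ)))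
      (hν.2.1.mono fun Y hY => hsum Y hY)).trans_eq (by simp)
  have hQ : ∑ d ∈ Finset.range N, L ^ 2 * (N:ℝ) / ((N:ℝ) - ((N - (d + 1) : ℕ) : ℝ)) ≤
      L ^ 2 * N * (2 * √(N:ℝ)) := by
    refine le_trans (le_of_eq ?_) (mul_le_mul_of_nonneg_left (harmonic_sqrt N) (by positivity))
    rw [Finset.mul_sum]
    refine Finset.sum_congr rfl fun d hd => ?_
    rw [Nat.cast_sub (Nat.succ_le_of_lt (Finset.mem_range.1 hd))]
    push_cast
    rw [mul_one_div]; congr 1; ring
  simp only [Finset.sum_add_distrib, ← Finset.mul_sum, Finset.sum_const, Finset.card_range, nsmul_eq_mul]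
  have hs1 : 1 ≤ √(N:ℝ) := Real.one_le_sqrt.2 (by exact_mod_cast hN)
  have hsq := Real.mul_self_sqrt hN'.le
  have hg := g4_nonneg
  refine (mul_le_mul_of_nonneg_left (show _ ≤ 50 * L ^ 2 * N * √(N:ℝ) from ?_) (by positivity)).trans (le_of_eq ?_)
  · have h0 : L ^ 2 * N * 1 ≤ L ^ 2 * N * √(N:ℝ) := mul_le_mul_of_nonneg_left hs1 (by positivity)
    linarith
  · have hs : √(N:ℝ) ≠ 0 := by positivity
    field_simp
    rw [show (√(N:ℝ)) ^ 2 = N by rw [sq, hsq]]
    ring

end Vale.Agent.P166.Phase
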