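import Vale.Agent.P166.Phase.Lower
import Vale.Agent.P166.Phase.Poincare

/-!
Self-averaging and convergence in the high-temperature phase.
-/

open MeasureTheory Filter Real
open scoped Topology

noncomputable section

namespace Vale.Agent.P166.Phase

variable {μ : Measure ℝ} [IsProbabilityMeasure μ] {lam : ∀ N : ℕ, Fin N → ℝ} {ν : ∀ N : ℕ, Measure (Mat N)}

/-- the pressure is self-averaging at every temperature -/
theorem self_averaging (hμ : IsCompact μ.support) (h : Admissible μ lam) (hν : ∀ N, IsHaarOrthogonal (ν N))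
    {β : ℝ} (hβ : 0 ≤ β) {ε : ℝ} (hε : 0 < ε) :
    Tendsto (fun N : ℕ => (ν N).real
      {U | ε ≤ |pressure β (lam N) U - ∫ V, pressure β (lam N) V ∂ν N|}) atTop (𝓝 0) := by
  have hlim : Tendsto (fun N : ℕ => 200 * (1 + g4) * β ^ 2 * bnd μ ^ 2 / √(N:ℝ) / ε ^ 2) atTop (𝓝 0) := by
    simpa using ((tendsto_const_nhds (x := 200 * (1 + g4) * β ^ 2 * bnd μ ^ 2)).div_atTop
      (Real.tendsto_sqrt_atTop.comp tendsto_natCast_atTop_atTop)).div_const (ε ^ 2)
  refine squeeze_zero' (.of_forall fun N => measureReal_nonneg) ?_ hlim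
  filter_upwards [eventually_gt_atTop 0, lam_bdd hμ h] with N hN hL
  have := (hν N).1
  set m := ∫ V, pressure β (lam N) V ∂ν N
  have hm := mul_meas_ge_le_integral_of_nonneg (μ := ν N) (.of_forall fun U => sq_nonneg (pressure β (lam N) U - m))
    (integrable_of_continuous (hν N) hN hβ (lam N) (φ := fun x => (x - m) ^ 2) (by fun_prop)) (ε ^ 2)
  have hset : {U | ε ≤ |pressure β (lam N) U - m|} = {U | ε ^ 2 ≤ (pressure β (lam N) U - m) ^ 2} := by
    ext U
    simp only [Set.mem_ofPred_eq]
    rw [← sq_abs (pressure β (lam N) U - m)]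
    exact (pow_le_pow_iff_left₀ hε.le (abs_nonneg _) two_ne_zero).symm
  rw [← hset] at hm
  rw [le_div_iff₀ (by positivity), mul_comm]
  exact hm.trans (pressure_variance (hν N) hN hβ bnd_pos hL)

/-- convergence to the annealed value -/
theorem annealed_phase (hμ : IsCompact μ.support) (h : Admissible μ lam) (hν : ∀ N, IsHaarOrthogonal (ν N))
    {β : ℝ} (hβ : 0 < β) (hG : ENNReal.ofReal β < edgeG μ) (hc : Crit μ β) {ε : ℝ} (hε : 0 < ε) :
    Tendsto (fun N : ℕ => (ν N).real {U | ε ≤ |pressure β (lam N) U - annealed μ β|}) atTop (𝓝 0) := by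
  obtain ⟨z0, hz0, hv⟩ := exists_crit hμ hβ hG
  obtain ⟨c, hc0, hlow⟩ := lower_prob hμ h hν hβ hz0 hv hc (show 0 < ε / 4 by linarith)
  have hs := self_averaging hμ h hν hβ.le (show 0 < ε / 4 by linarith)
  have hu := upper_prob hμ h hν hβ hε
  have hsum := hs.add hu
  rw [add_zero] at hsum
  refine squeeze_zero' (.of_forall fun N => measureReal_nonneg) ?_ hsum
  filter_upwards [hlow, hs.eventually (eventually_lt_nhds hc0)] with N h1 h2
  have := (hν N).1
  set m := ∫ V, pressure β (lam N) V ∂ν N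
  obtain ⟨U, hU1, hU2⟩ : ∃ U, annealed μ β - ε / 4 ≤ pressure β (lam N) U ∧ |pressure β (lam N) U - m| < ε / 4 := by
    by_contra hcon
    push Not at hcon
    exact absurd (h1.trans (measureReal_mono fun U hU => hcon U hU)) (not_le.2 h2)
  refine (measureReal_mono ?_).trans (measureReal_union_le _ _)
  intro U hU
  by_cases hu : annealed μ β + ε ≤ pressure β (lam N) U
  · exact Or.inr hu
  · refine Or.inl (show ε / 4 ≤ |pressure β (lam N) U - m| from ?_)
    simp only [Set.mem_ofPred_eq] at hU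
    rcases le_abs'.1 hU with hU | hU
    · obtain ⟨a1, a2⟩ := abs_lt.1 hU2
      exact le_abs'.2 (Or.inl (by linarith))
    · exact absurd (by linarith) hu

end Vale.Agent.P166.Phase
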