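import Vale.Agent.P166.Phase.Cosine
import Vale.Agent.P166.Phase.Chain

/-!
A uniform event on a band of low dimension, and its rarity under planting.
-/

open MeasureTheory ProbabilityTheory Real

noncomputable section

namespace Vale.Agent.P166.Phase

open Pattern (gauss)

variable {N : ℕ}

lemma app_lin (A : Mat N) (a b : ℝ) (x y : Fin N → ℝ) :
    app A (fun i => a * x i + b * y i) = fun l => a * app A x l + b * app A y l := by
  funext l
  simp only [app, Finset.mul_sum, ← Finset.sum_add_distrib]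
  exact Finset.sum_congr rfl fun i _ => by ring

lemma ip_lin (a b : ℝ) (x y z : Fin N → ℝ) :
    ip z (fun i => a * x i + b * y i) = a * ip z x + b * ip z y := by
  simp only [ip, Finset.mul_sum, ← Finset.sum_add_distrib]
  exact Finset.sum_congr rfl fun i _ => by ring

lemma dist_sq (x y : Fin N → ℝ) : ∑ i, (x i - y i) ^ 2 = ip x x - 2 * ip x y + ip y y := by
  simp only [ip, Finset.mul_sum, ← Finset.sum_sub_distrib, ← Finset.sum_add_distrib]
  exact Finset.sum_congr rfl fun i _ => by ring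

/-- splitting a unit vector along a unit vector -/
lemma split_unit (hN : 2 ≤ N) {e x : Fin N → ℝ} (he : ip e e = 1) (hx : ip x x = 1) {t : ℝ} (ht : ip e x = t) :
    ∃ r, ip r r = 1 ∧ ip e r = 0 ∧ x = fun i => t * e i + √(1 - t ^ 2) * r i := by
  have hd : ∑ i, (x i - t * e i) ^ 2 = 1 - t ^ 2 := by
    rw [dist_sq]
    have e1 : ip x (fun i => t * e i) = t * t := by
      have := ip_lin t 0 e e x
      simp only [zero_mul, add_zero] at this
      rw [this, ip_comm, ht]
    have e2 : ip (fun i => t * e i) (fun i => t * e i) = t * t := by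
      calc _ = t * t * ip e e := by simp only [ip, Finset.mul_sum]; exact Finset.sum_congr rfl fun i _ => by ring
        _ = _ := by rw [he, mul_one]
    rw [hx, e1, e2]; ring
  have h0 : 0 ≤ 1 - t ^ 2 := hd ▸ Finset.sum_nonneg fun i _ => sq_nonneg _
  rcases h0.eq_or_lt with h | h
  · obtain ⟨g, hg⟩ := (perp_ne_zero_ae hN he).exists
    refine ⟨nz (perp e g), ip_nz_self hg, ?_, funext fun i => ?_⟩
    · have h1 := ip_nz_perp (x := e) (by rw [he]; norm_num) g
      rw [nz_of_unit he] at h1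
      simp only [ip, nz, mul_div_assoc', ← Finset.sum_div] at h1 ⊢
      rw [h1, zero_div]
    · rw [← h] at hd
      have := (Finset.sum_eq_zero_iff_of_nonneg fun i _ => sq_nonneg _).1 hd i (Finset.mem_univ i)
      simp only [← h, Real.sqrt_zero, zero_mul, add_zero]
      exact sub_eq_zero.1 (pow_eq_zero_iff two_ne_zero |>.1 this)
  · set s := √(1 - t ^ 2)
    have hs : 0 < s := Real.sqrt_pos.2 h
    have hs2 : s ^ 2 = 1 - t ^ 2 := Real.sq_sqrt h.le
    refine ⟨fun i => s⁻¹ * x i + -(t * s⁻¹) * e i, ?_, ?_, funext fun i => ?_⟩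
    · have e1 : ∀ i, (s⁻¹ * x i + -(t * s⁻¹) * e i) * (s⁻¹ * x i + -(t * s⁻¹) * e i) =
          (x i - t * e i) ^ 2 / s ^ 2 := fun i => by field_simp; ring
      simp only [ip, e1, ← Finset.sum_div, hd, hs2]
      exact div_self h.ne'
    · rw [ip_lin, ht, he]; ring
    · field_simp; ring

lemma int_abs_le_sq (a : ℤ) : |(a:ℝ)| ≤ (a:ℝ) ^ 2 := by
  rcases eq_or_ne a 0 with h | h
  · simp [h]
  · have h1 : (1:ℝ) ≤ |(a:ℝ)| := by exact_mod_cast Int.one_le_abs h
    rw [← sq_abs]; exact le_self_pow₀ h1 two_ne_zero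

/-- lattice vectors on the band with bounded norm -/
def net (K : Finset (Fin N)) (M : ℕ) (R : ℝ) : Finset (Fin N → ℤ) :=
  (Fintype.piFinset fun k => if k ∈ K then Finset.Icc (-(M:ℤ)) M else {0}).filter fun n =>
    ∑ k, ((n k : ℝ)) ^ 2 ≤ R

/-- direction of a lattice vector -/
def dir (n : Fin N → ℤ) : Fin N → ℝ := nz fun k => (n k : ℝ)

lemma sum_exp_abs : ∀ M : ℕ, ∑ j ∈ Finset.Icc (-(M:ℤ)) M, exp (-|(j:ℝ)|) ≤ 3 - 2 * (1 / 2 : ℝ) ^ M
  | 0 => by norm_num
  | M + 1 => by
    have e : Finset.Icc (-((M + 1 : ℕ):ℤ)) ((M + 1 : ℕ):ℤ) =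
        insert (-((M + 1 : ℕ):ℤ)) (insert ((M + 1 : ℕ):ℤ) (Finset.Icc (-(M:ℤ)) M)) := by
      ext j; simp only [Finset.mem_Icc, Finset.mem_insert]; omega
    rw [e, Finset.sum_insert (by simp only [Finset.mem_insert, Finset.mem_Icc]; omega),
      Finset.sum_insert (by simp only [Finset.mem_Icc]; omega)]
    have hexp : exp (-((M:ℝ) + 1)) ≤ (1 / 2 : ℝ) ^ (M + 1) := by
      rw [show -((M:ℝ) + 1) = ((M + 1 : ℕ):ℝ) * (-1) by push_cast; ring, exp_nat_mul]
      refine pow_le_pow_left₀ (exp_pos _).le ?_ _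
      rw [exp_neg, one_div]
      exact inv_anti₀ two_pos (by linarith [exp_one_gt_d9])
    have h := sum_exp_abs M
    have hpos : (0:ℝ) ≤ (M:ℝ) + 1 := by positivity
    push_cast
    rw [abs_neg, abs_of_nonneg hpos]
    rw [pow_succ] at hexp ⊢
    linarith

lemma net_card (K : Finset (Fin N)) (M : ℕ) (R : ℝ) : ((net K M R).card : ℝ) ≤ exp (R + 2 * K.card) := by
  classical
  set P := Fintype.piFinset fun k => if k ∈ K then Finset.Icc (-(M:ℤ)) M else {0}
  have h1 : ∀ n ∈ net K M R, (1:ℝ) ≤ exp R * ∏ k, exp (-|(n k : ℝ)|) := fun n hn => by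
    rw [← exp_sum, ← exp_add]
    refine one_le_exp ?_
    have hR := (Finset.mem_filter.1 hn).2
    have : ∀ k, |(n k : ℝ)| ≤ (n k : ℝ) ^ 2 := fun k => int_abs_le_sq (n k)
    have := Finset.sum_le_sum (s := Finset.univ) fun k _ => this k
    rw [Finset.sum_neg_distrib]
    linarith
  calc ((net K M R).card : ℝ) = ∑ _n ∈ net K M R, (1:ℝ) := by simp
    _ ≤ ∑ n ∈ net K M R, exp R * ∏ k, exp (-|(n k : ℝ)|) := Finset.sum_le_sum h1
    _ ≤ ∑ n ∈ P, exp R * ∏ k, exp (-|(n k : ℝ)|) :=
        Finset.sum_le_sum_of_subset_of_nonneg (Finset.filter_subset _ _) fun n _ _ => by positivity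
    _ = exp R * ∏ k, ∑ j ∈ (if k ∈ K then Finset.Icc (-(M:ℤ)) M else {0}), exp (-|(j:ℝ)|) := by
        rw [Finset.prod_univ_sum, Finset.mul_sum]
    _ ≤ exp R * ∏ k : Fin N, (if k ∈ K then exp 2 else 1) := by
        refine mul_le_mul_of_nonneg_left (Finset.prod_le_prod (fun k _ => Finset.sum_nonneg fun j _ => (exp_pos _).le)
          fun k _ => ?_) (exp_pos _).le
        split_ifs
        · refine (sum_exp_abs M).trans ?_
          have := pow_nonneg (show (0:ℝ) ≤ 1 / 2 by norm_num) M
          linarith [add_one_le_exp (2:ℝ)]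
        · simp
    _ = exp (R + 2 * K.card) := by
        rw [Finset.prod_ite_mem, Finset.univ_inter, Finset.prod_const, ← exp_nat_mul, ← exp_add]
        ring_nf

/-- the event that some band direction has a small average cosine -/
def Bad (K : Finset (Fin N)) (M : ℕ) (R thr : ℝ) : Set (Mat N) :=
  {U | ∃ n ∈ net K M R, ip (dir n) (dir n) = 1 ∧ cavg (app (tp U) (dir n)) ≤ thr}

lemma measurableSet_bad (K : Finset (Fin N)) (M : ℕ) (R thr : ℝ) : MeasurableSet (Bad K M R thr) := by
  have : Bad K M R thr = ⋃ n ∈ net K M R, {U | ip (dir n) (dir n) = 1 ∧ cavg (app (tp U) (dir n)) ≤ thr} := by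
    ext U; simp only [Bad, Set.mem_ofPred_eq, Set.mem_iUnion, exists_prop]
  rw [this]
  refine Finset.measurableSet_biUnion _ fun n _ => ?_
  have hm : Measurable fun U : Mat N => cavg (app (tp U) (dir n)) := by unfold cavg app tp; fun_prop
  exact (MeasurableSet.const _).inter (measurableSet_le hm measurable_const)

lemma bad_prob {ν : Measure (Mat N)} (hν : IsHaarOrthogonal ν) (hN : 0 < N) (K : Finset (Fin N)) (M : ℕ) (R : ℝ)
    {thr p : ℝ} (hp : (sph N).real {w | cavg w ≤ thr} ≤ p) :
    ν.real (Bad K M R thr) ≤ exp (R + 2 * K.card) * p := by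
  have := hν.1
  have hp0 : 0 ≤ p := measureReal_nonneg.trans hp
  have : Bad K M R thr = ⋃ n ∈ net K M R, {U | ip (dir n) (dir n) = 1 ∧ cavg (app (tp U) (dir n)) ≤ thr} := by
    ext U; simp only [Bad, Set.mem_ofPred_eq, Set.mem_iUnion, exists_prop]
  rw [this]
  refine (measureReal_biUnion_finset_le _ _).trans ?_
  refine (Finset.sum_le_sum (g := fun _ => p) fun n _ => ?_).trans ?_
  · by_cases hu : ip (dir n) (dir n) = 1
    · refine le_trans (le_of_eq ?_) hp
      have hm : Measurable fun U : Mat N => app (tp U) (dir n) := measurable_app.comp (measurable_tp.prodMk measurable_const)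
      have hcm : Measurable fun w : Fin N → ℝ => cavg w := by unfold cavg; fun_prop
      have hlaw : ν.map (fun U => app (tp U) (dir n)) = sph N := by
        have hma : Measurable fun U : Mat N => app U (dir n) := measurable_app.comp (measurable_id.prodMk measurable_const)
        have h := law_app hν hN hu
        rw [← map_tp hν, Measure.map_map hma measurable_tp] at h
        exact h
      rw [← hlaw, map_measureReal_apply hm (measurableSet_le hcm measurable_const)]
      simp [hu]
    · simp [hu, hp0]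
  · rw [Finset.sum_const, nsmul_eq_mul]
    exact mul_le_mul_of_nonneg_right (net_card K M R) hp0

lemma net_near (K : Finset (Fin N)) {κ : ℝ} (hκ : 0 < κ) (hκ1 : κ ≤ 1) {M : ℕ}
    (hM : (2 / κ ^ 2 + 1) * K.card ≤ M) {e : Fin N → ℝ} (he : ip e e = 1) (hsupp : ∀ k, k ∉ K → e k = 0) :
    ∃ n ∈ net K M ((2 / κ ^ 2 + 1) * K.card), ip (dir n) (dir n) = 1 ∧ ∑ k, (dir n k - e k) ^ 2 ≤ κ ^ 2 := by
  classical
  have hK : 0 < K.card := by
    refine Finset.card_pos.2 (Finset.nonempty_iff_ne_empty.2 fun h0 => ?_)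
    have : ∀ k, e k = 0 := fun k => hsupp k (by simp [h0])
    simp [ip, this] at he
  set m := √(K.card : ℝ)
  have hm : 0 < m := Real.sqrt_pos.2 (by exact_mod_cast hK)
  have hm2 : m ^ 2 = K.card := Real.sq_sqrt (Nat.cast_nonneg _)
  set x := fun k => e k * m / κ
  set n : Fin N → ℤ := fun k => round (x k)
  have hn0 : ∀ k, k ∉ K → n k = 0 := fun k hk => by simp [n, x, hsupp k hk]
  have hd : ∑ k, ((n k : ℝ) - x k) ^ 2 ≤ (K.card : ℝ) / 4 := by
    rw [← Finset.sum_subset (Finset.subset_univ K) fun k _ hk => by simp [hn0 k hk, x, hsupp k hk]]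
    refine (Finset.sum_le_sum (g := fun _ => (1 / 4 : ℝ)) fun k _ => ?_).trans_eq (by simp; ring)
    have h := abs_sub_round (x k)
    rw [abs_sub_comm] at h
    rw [← sq_abs, show (1 / 4 : ℝ) = (1 / 2) ^ 2 by norm_num]
    exact pow_le_pow_left₀ (abs_nonneg _) h 2
  have hx : ∑ k, x k ^ 2 = K.card / κ ^ 2 := by
    have : ∀ k, x k ^ 2 = e k * e k * (m ^ 2 / κ ^ 2) := fun k => by simp only [x]; ring
    simp only [this, ← Finset.sum_mul, hm2]
    rw [show ∑ k, e k * e k = 1 from he, one_mul]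
  have hsum : ∑ k, (n k : ℝ) ^ 2 ≤ (2 / κ ^ 2 + 1) * K.card := by
    refine (Finset.sum_le_sum (g := fun k => 2 * x k ^ 2 + 2 * ((n k : ℝ) - x k) ^ 2) fun k _ => ?_).trans ?_
    · linarith [sq_nonneg ((n k : ℝ) - 2 * x k)]
    · rw [Finset.sum_add_distrib, ← Finset.mul_sum, ← Finset.mul_sum, hx]
      have : (0:ℝ) ≤ K.card := Nat.cast_nonneg _
      rw [add_mul, one_mul, div_mul_eq_mul_div, ← mul_div_assoc 2]
      linarith
  have hmem : n ∈ net K M ((2 / κ ^ 2 + 1) * K.card) := by
    refine Finset.mem_filter.2 ⟨Fintype.mem_piFinset.2 fun k => ?_, hsum⟩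
    split_ifs with hk
    · have h1 : |(n k : ℝ)| ≤ M := by
        refine le_trans ?_ (le_trans ((Finset.single_le_sum (f := fun k => (n k : ℝ) ^ 2) (fun _ _ => sq_nonneg _)
          (Finset.mem_univ k)).trans hsum) hM)
        exact int_abs_le_sq (n k)
      rw [Finset.mem_Icc]
      obtain ⟨a1, a2⟩ := abs_le.1 h1
      exact ⟨by exact_mod_cast a1, by exact_mod_cast a2⟩
    · simp [hn0 k hk]
  set p := fun k => (n k : ℝ)
  set s := κ / m
  have hs : 0 < s := by positivity
  set y := fun k => s * p k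
  have hye : ∑ k, (y k - e k) ^ 2 ≤ κ ^ 2 / 4 := by
    have : ∀ k, (y k - e k) ^ 2 = s ^ 2 * ((n k : ℝ) - x k) ^ 2 := fun k => by
      simp only [y, p, x, s]; field_simp
    simp only [this, ← Finset.mul_sum]
    refine (mul_le_mul_of_nonneg_left hd (sq_nonneg _)).trans (le_of_eq ?_)
    simp only [s, div_pow, hm2]; field_simp
  have hp : ip p p ≠ 0 := fun h0 => by
    have hz : ∀ k, p k = 0 := fun k => mul_self_eq_zero.1 (le_antisymm
      (h0 ▸ Finset.single_le_sum (f := fun i => p i * p i) (fun i _ => mul_self_nonneg _) (Finset.mem_univ k))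
      (mul_self_nonneg _))
    have : ∑ k, (y k - e k) ^ 2 = 1 := by
      rw [← he, ip]; exact Finset.sum_congr rfl fun k _ => by simp only [y, hz k]; ring
    have : κ ^ 2 ≤ 1 := pow_le_one₀ hκ.le hκ1
    linarith
  refine ⟨n, hmem, ip_nz_self hp, ?_⟩
  set u := nz p with hu
  show ∑ k, (u k - e k) ^ 2 ≤ κ ^ 2
  set t := s * √(ip p p)
  have ht : 0 ≤ t := by positivity
  have hyu : y = fun k => t * u k := funext fun k => by
    have : √(ip p p) ≠ 0 := (Real.sqrt_pos.2 (lt_of_le_of_ne (Finset.sum_nonneg fun i _ => mul_self_nonneg _) (Ne.symm hp))).ne'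
    simp only [y, t, hu, nz]; field_simp
  set q := ip u e
  have hu1 : ip u u = 1 := ip_nz_self hp
  have e1 : ∑ k, (u k - e k) ^ 2 = 2 - 2 * q := by rw [dist_sq, hu1, he]; ring
  have e2 : ∑ k, (y k - e k) ^ 2 = t ^ 2 - 2 * t * q + 1 := by
    have : ∀ k, (y k - e k) ^ 2 = t ^ 2 * (u k * u k) - 2 * t * (u k * e k) + e k * e k := fun k => by
      rw [hyu]; ring
    simp only [this, Finset.sum_add_distrib, Finset.sum_sub_distrib, ← Finset.mul_sum]
    rw [show ∑ k, u k * u k = 1 from hu1, show ∑ k, e k * e k = 1 from he,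
      show ∑ k, u k * e k = q from rfl]
    ring
  have hq : q ≤ 1 ∧ -1 ≤ q := by
    have h1 := Finset.sum_nonneg fun k (_ : k ∈ Finset.univ) => sq_nonneg (u k - e k)
    rw [e1] at h1
    have h2 := Finset.sum_nonneg fun k (_ : k ∈ Finset.univ) => sq_nonneg (u k + e k)
    have : ∑ k, (u k + e k) ^ 2 = 2 + 2 * q := by
      have : ∀ k, (u k + e k) ^ 2 = u k * u k + 2 * (u k * e k) + e k * e k := fun k => by ring
      simp only [this, Finset.sum_add_distrib, ← Finset.mul_sum]
      rw [show ∑ k, u k * u k = 1 from hu1, show ∑ k, e k * e k = 1 from he,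
        show ∑ k, u k * e k = q from rfl]
      ring
    rw [this] at h2
    constructor <;> linarith
  rw [e1]
  rw [e2] at hye
  rcases le_total 0 q with h | h
  · linarith [sq_nonneg (t - q), mul_le_of_le_one_left h hq.1]
  · linarith [mul_nonneg ht (neg_nonneg.2 h), sq_nonneg t]

/-- mass of a configuration on the band -/
def bmass (K : Finset (Fin N)) (U : Mat N) (σ : Fin N → Bool) : ℝ := ∑ k ∈ K, app U (sv σ) k ^ 2

/-- outside the bad event a planted configuration is unlikely -/
theorem planted {ν : Measure (Mat N)} (hν : IsHaarOrthogonal ν) (hN : 2 ≤ N) (K : Finset (Fin N)) (β : ℝ)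
    (lam : Fin N → ℝ) (σ : Fin N → Bool) {c0 κ thr p : ℝ} (hc0 : 0 < c0) (hκ : 0 < κ) (hκ1 : κ ≤ 1) {M : ℕ}
    (hM : (2 / κ ^ 2 + 1) * K.card ≤ M)
    (hp0 : 0 ≤ p) (hp : ∀ c, c0 ≤ c → c ≤ 1 →
      (perpLaw (sv σ)).real {r | thr - κ ≤ cavg fun i => √c * sv σ i + √(1 - c) * r i} ≤ p) :
    ∫ U, ({U | c0 ≤ bmass K U σ} ∩ (Bad K M ((2 / κ ^ 2 + 1) * K.card) thr)ᶜ).indicator
        (fun U => exp (energy β lam U σ)) U ∂ν ≤ p * ∫ U, exp (energy β lam U σ) ∂ν := by
  have := hν.1
  have hN0 : 0 < N := by omega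
  set e0 := sv σ
  have he0 : ip e0 e0 = 1 := ip_sv hN0 σ
  set B := Bad K M ((2 / κ ^ 2 + 1) * K.card) thr
  set A := {U : Mat N | c0 ≤ bmass K U σ}
  set H := fun U : Mat N => exp (energy β lam U σ)
  have hHm : Measurable H := Real.measurable_exp.comp (measurable_energy β lam σ)
  have hAm : MeasurableSet A := measurableSet_le measurable_const (by unfold bmass app; fun_prop)
  have hBm : MeasurableSet B := measurableSet_bad K M _ thr
  set φ := (A ∩ Bᶜ).indicator H
  have hφm : Measurable φ := hHm.indicator (hAm.inter hBm.compl)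
  set T := fun V : Mat N => tp (stab e0 V)
  have hTm : Measurable T := measurable_tp.comp (measurable_stab e0)
  have hmove : ∀ U V : Mat N, Orth V → app (mul U (T V)) e0 = app U e0 := fun U V hV => by
    rw [app_mul]; congr 1
    conv_lhs => rw [← stab_fix (e := e0) hV]
    exact app_tp_app (stab_orth hV) _
  have hHinv : ∀ U V : Mat N, Orth V → H (mul U (T V)) = H U ∧ (mul U (T V) ∈ A ↔ U ∈ A) := fun U V hV => by
    refine ⟨?_, ?_⟩
    · simp only [H, energy_qf hN0]
      rw [show app (mul U (T V)) (sv σ) = app U (sv σ) from hmove U V hV]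
    · simp only [A, Set.mem_ofPred_eq, bmass]
      rw [show app (mul U (T V)) (sv σ) = app U (sv σ) from hmove U V hV]
  -- resampling around `e0`
  have hUm : Measurable fun q : Mat N × Mat N => mul q.1 (T q.2) :=
    measurable_mul.comp (measurable_fst.prodMk (hTm.comp measurable_snd))
  have iH : Integrable H ν := integrable_exp_energy hν β lam σ
  have hiφ : Integrable (Function.uncurry fun U V => φ (mul U (T V))) (ν.prod ν) := by
    refine (iH.comp_fst ν).mono' (hφm.comp hUm).aestronglyMeasurable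
      ((Measure.quasiMeasurePreserving_snd.ae hν.2.1).mono fun q hq => ?_)
    show ‖φ (mul q.1 (T q.2))‖ ≤ H q.1
    rw [norm_eq_abs, abs_of_nonneg (Set.indicator_nonneg (fun U _ => (exp_pos _).le) _), ← (hHinv q.1 q.2 hq).1]
    exact Set.indicator_le_self' (fun U _ => (exp_pos _).le) _
  have e : ∫ U, φ U ∂ν = ∫ U, ∫ V, φ (mul U (T V)) ∂ν ∂ν := by
    rw [integral_integral_swap hiφ]
    calc ∫ U, φ U ∂ν = ∫ _V, ∫ U, φ U ∂ν ∂ν := by simp
      _ = _ := integral_congr_ae (hν.2.1.mono fun V hV => by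
        show ∫ U, φ U ∂ν = ∫ U, φ (mul U (T V)) ∂ν
        have hm : Measurable fun U : Mat N => mul U (T V) := measurable_mul.comp (measurable_id.prodMk measurable_const)
        conv_lhs => rw [← map_mul_right hν (stab_orth (e := e0) hV).tp]
        exact integral_map hm.aemeasurable hφm.aestronglyMeasurable)
  rw [e, ← integral_const_mul]
  refine integral_mono_ae hiφ.integral_prod_left (iH.const_mul p) (hν.2.1.mono fun U hU => ?_)
  show ∫ V, φ (mul U (T V)) ∂ν ≤ p * H U
  by_cases hA : U ∈ A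
  swap
  · rw [integral_eq_zero_of_ae (hν.2.1.mono fun V hV => Set.indicator_of_notMem
      (fun hh => hA ((hHinv U V hV).2.1 hh.1)) _)]
    exact mul_nonneg hp0 (exp_pos _).le
  -- the band part of `app U e0`
  classical
  set c := bmass K U σ
  have hc : c0 ≤ c := hA
  have hc1 : c ≤ 1 := by
    rw [← ip_app hU e0 e0] at he0
    refine le_trans (Finset.sum_le_sum_of_subset_of_nonneg (Finset.subset_univ K) fun k _ _ => sq_nonneg _) (le_of_eq ?_)
    rw [← he0]; exact Finset.sum_congr rfl fun k _ => sq _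
  set v := fun k => (if k ∈ K then app U e0 k else 0) / √c
  have hsc : 0 < √c := Real.sqrt_pos.2 (hc0.trans_le hc)
  have hv : ip v v = 1 := by
    simp only [ip, v, div_mul_div_comm, ← Finset.sum_div, Real.mul_self_sqrt (hc0.le.trans hc)]
    rw [show ∑ k, (if k ∈ K then app U e0 k else 0) * (if k ∈ K then app U e0 k else 0) = c by
      simp [c, bmass, e0, sq, ← Finset.sum_filter]]
    exact div_self (hc0.trans_le hc).ne'
  have hev : ip e0 (app (tp U) v) = √c := by
    rw [ip_tp (Orth.tp hU)]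
    show ip (app U e0) v = √c
    simp only [ip, v, mul_div_assoc', ← Finset.sum_div, mul_ite, mul_zero]
    rw [show ∑ k, (if k ∈ K then app U e0 k * app U e0 k else 0) = c by simp [c, bmass, e0, sq, ← Finset.sum_filter]]
    rw [div_eq_iff hsc.ne', Real.mul_self_sqrt (hc0.le.trans hc)]
  obtain ⟨r, hr1, hr0, hdec⟩ := split_unit hN he0 (by rw [ip_app (Orth.tp hU), hv]) hev
  rw [Real.sq_sqrt (hc0.le.trans hc)] at hdec
  set Q := {r' : Fin N → ℝ | thr - κ ≤ cavg fun i => √c * e0 i + √(1 - c) * r' i}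
  have hQm : MeasurableSet Q := measurableSet_le measurable_const (by unfold cavg; fun_prop)
  have hlr := (law_stab hν hN he0).1 r hr1 hr0
  have hms : Measurable fun V => app (stab e0 V) r := measurable_app.comp ((measurable_stab e0).prodMk measurable_const)
  have hle : ∀ᵐ V ∂ν, φ (mul U (T V)) ≤ ((fun V => app (stab e0 V) r) ⁻¹' Q).indicator (fun _ => H U) V := by
    refine hν.2.1.mono fun V hV => ?_
    by_cases hin : mul U (T V) ∈ A ∩ Bᶜ
    · rw [show φ (mul U (T V)) = H U by simp only [φ, Set.indicator_of_mem hin, (hHinv U V hV).1],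
        Set.indicator_of_mem]
      show thr - κ ≤ cavg fun i => √c * e0 i + √(1 - c) * app (stab e0 V) r i
      have hO : Orth (mul U (T V)) := show Matrix.of U * Matrix.of (T V) ∈ Matrix.orthogonalGroup (Fin N) ℝ from
        Submonoid.mul_mem _ hU (stab_orth hV).tp
      obtain ⟨n, hn, hn1, hnd⟩ := net_near K hκ hκ1 hM hv fun k hk => by simp [v, hk]
      have h1 : thr < cavg (app (tp (mul U (T V))) (dir n)) := not_le.1 fun hle => hin.2 ⟨n, hn, hn1, hle⟩
      have h2 := cavg_lip hN0 (app (tp (mul U (T V))) (dir n)) (app (tp (mul U (T V))) v)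
      have h3 : ∑ i, (app (tp (mul U (T V))) (dir n) i - app (tp (mul U (T V))) v i) ^ 2 ≤ κ ^ 2 := by
        rw [dist_sq, ip_app hO.tp, ip_app hO.tp, ip_app hO.tp, ← dist_sq]; exact hnd
      replace h2 := h2.trans (Real.sqrt_le_left hκ.le |>.2 h3)
      have h4 : app (tp (mul U (T V))) v = fun i => √c * e0 i + √(1 - c) * app (stab e0 V) r i := by
        rw [show tp (mul U (T V)) = mul (stab e0 V) (tp U) from by
          funext i j; simp only [mul, tp, T]; exact Finset.sum_congr rfl fun l _ => mul_comm _ _, app_mul, hdec,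
          app_lin, stab_fix hV]
      rw [h4] at h2
      linarith [(abs_le.1 h2).2]
    · rw [show φ (mul U (T V)) = 0 from Set.indicator_of_notMem hin _]
      exact Set.indicator_nonneg (fun _ _ => (exp_pos _).le) _
  refine (integral_mono_of_nonneg (.of_forall fun V => Set.indicator_nonneg (fun _ _ => (exp_pos _).le) _)
    ((integrable_const _).indicator (hms hQm)) hle).trans ?_
  rw [integral_indicator_const _ (hms hQm), smul_eq_mul, ← map_measureReal_apply hms hQm, hlr]
  exact mul_le_mul_of_nonneg_right (hp c hc hc1) (exp_pos _).le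

end Vale.Agent.P166.Phase
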