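import Vale.Agent.P166.Phase.Moments

/-!
Averages over configurations of functions of the magnetisation.
-/

open MeasureTheory ProbabilityTheory Real

noncomputable section

namespace Vale.Agent.P166.Phase

variable {N : ℕ}

lemma sum_exp_mg (hN : 0 < N) (s : ℝ) :
    ∑ τ : Fin N → Bool, exp ((N:ℝ) * s * mg τ) = (2:ℝ) ^ N * exp ((N:ℝ) * log (cosh s)) := by
  have hN' : (0:ℝ) < N := by exact_mod_cast hN
  have e : ∀ τ : Fin N → Bool, exp ((N:ℝ) * s * mg τ) = ∏ i, exp (s * spin (τ i)) := fun τ => by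
    rw [← exp_sum, ← Finset.mul_sum, mg]; congr 1; field_simp
  simp only [e]
  rw [← Fintype.prod_sum (fun (_ : Fin N) b => exp (s * spin b))]
  have h2 : ∑ b : Bool, exp (s * spin b) = 2 * cosh s := by
    rw [Fintype.sum_bool, cosh_eq]; simp [spin]; ring
  simp only [h2, Finset.prod_const, Finset.card_univ, Fintype.card_fin]
  rw [mul_pow, exp_nat_mul, exp_log (cosh_pos _)]

lemma gauss_square {a : ℝ} (ha : a < 1) :
    Integrable (fun g => exp (a * g ^ 2 / 2)) (gaussianReal 0 1) ∧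
    ∫ g, exp (a * g ^ 2 / 2) ∂gaussianReal 0 1 = (√(1 - a))⁻¹ := by
  have hp : 0 < 1 - a := by linarith
  have h1 := integrable_tilt1 hp
  have h2 := tilt1 hp MeasurableSet.univ
  simp only [sub_sub_cancel, Set.indicator_univ, probReal_univ] at h1 h2
  exact ⟨h1, eq_inv_of_mul_eq_one_right h2⟩

lemma sum_exp_sq (hN : 0 < N) {a : ℝ} (ha0 : 0 ≤ a) (ha : a < 1) :
    ((2:ℝ) ^ N)⁻¹ * ∑ τ : Fin N → Bool, exp ((N:ℝ) * a * mg τ ^ 2 / 2) ≤ (√(1 - a))⁻¹ := by
  have hN' : (0:ℝ) < N := by exact_mod_cast hN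
  set r := √(a / N)
  have hr : r * r = a / N := Real.mul_self_sqrt (by positivity)
  have hmgf : ∀ c : ℝ, Integrable (fun g => exp (c * g)) (gaussianReal 0 1) ∧
      ∫ g, exp (c * g) ∂gaussianReal 0 1 = exp (c ^ 2 / 2) := fun c => by
    refine ⟨integrable_exp_mul_gaussianReal c, ?_⟩
    have h := congrFun (mgf_id_gaussianReal (μ := 0) (v := 1)) c
    simpa [mgf] using h
  have e : ∀ τ : Fin N → Bool, exp ((N:ℝ) * a * mg τ ^ 2 / 2) = ∫ g, exp ((N:ℝ) * (r * g) * mg τ) ∂gaussianReal 0 1 := by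
    intro τ
    have h := (hmgf ((N:ℝ) * r * mg τ)).2
    calc exp ((N:ℝ) * a * mg τ ^ 2 / 2) = exp (((N:ℝ) * r * mg τ) ^ 2 / 2) := by
          congr 1
          rw [mul_pow, mul_pow, sq r, hr]; field_simp
      _ = _ := by rw [← h]; congr 1; funext g; congr 1; ring
  have hi : ∀ τ : Fin N → Bool, Integrable (fun g => exp ((N:ℝ) * (r * g) * mg τ)) (gaussianReal 0 1) := fun τ =>
    ((hmgf ((N:ℝ) * r * mg τ)).1).congr (Filter.Eventually.of_forall fun g => by show exp _ = exp _; congr 1; ring)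
  simp only [e]
  rw [← integral_finsetSum _ fun τ _ => hi τ, ← integral_const_mul, ← (gauss_square ha).2]
  refine integral_mono ((integrable_finsetSum _ fun τ _ => hi τ).const_mul _) (gauss_square ha).1 fun g => ?_
  dsimp only
  rw [sum_exp_mg hN, ← mul_assoc, inv_mul_cancel₀ (by positivity), one_mul]
  refine exp_le_exp.2 ?_
  have h := log_le_log (cosh_pos _) (cosh_le_exp_half_sq (r * g))
  rw [log_exp] at h
  refine (mul_le_mul_of_nonneg_left h hN'.le).trans (le_of_eq ?_)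
  rw [mul_pow, sq r, hr]; field_simp

lemma card_mg_image : (Finset.univ.image (mg (N := N))).card ≤ N + 1 := by
  classical
  refine (Finset.card_le_card (t := (Finset.range (N + 1)).image fun j : ℕ => (2 * (j:ℝ) - N) / N) fun v hv => ?_).trans
    (Finset.card_image_le.trans (le_of_eq (Finset.card_range _)))
  obtain ⟨τ, -, rfl⟩ := Finset.mem_image.1 hv
  refine Finset.mem_image.2 ⟨(Finset.univ.filter fun i => τ i = true).card, ?_, ?_⟩
  · exact Finset.mem_range.2 (Nat.lt_succ_of_le ((Finset.card_le_univ _).trans (le_of_eq (Fintype.card_fin N))))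
  · have e : ∀ i, spin (τ i) = 2 * (if τ i = true then (1:ℝ) else 0) - 1 := fun i => by cases τ i <;> simp [spin]; norm_num
    simp only [mg, e, Finset.sum_sub_distrib, ← Finset.mul_sum, Finset.sum_boole]
    simp

/-- averages of exponential functions of the magnetisation -/
theorem binom_bound (hN : 0 < N) {a γ q0 E : ℝ} (ha0 : 0 ≤ a) (ha : a < 1) (hE : 0 ≤ E) {B : ℝ → ℝ}
    (hB : ∀ q, 0 ≤ B q)
    (hs : ∀ q, |q| ≤ q0 → B q ≤ E * exp ((N:ℝ) * a * q ^ 2 / 2))
    (hb : ∀ q, q0 < |q| → |q| ≤ 1 → ∃ s : ℝ, B q ≤ E * exp ((N:ℝ) * (s * |q| - log (cosh s) - γ))) :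
    ((2:ℝ) ^ N)⁻¹ * ∑ τ : Fin N → Bool, B (mg τ) ≤ E * ((√(1 - a))⁻¹ + ((N:ℝ) + 1) * exp (-((N:ℝ) * γ))) := by
  classical
  have hN' : (0:ℝ) < N := by exact_mod_cast hN
  rw [← Finset.sum_filter_add_sum_filter_not Finset.univ (fun τ : Fin N → Bool => |mg τ| ≤ q0), mul_add, mul_add]
  refine add_le_add ?_ ?_
  · refine (mul_le_mul_of_nonneg_left ((Finset.sum_le_sum fun τ hτ => hs _ (Finset.mem_filter.1 hτ).2).trans
      (Finset.sum_le_sum_of_subset_of_nonneg (Finset.filter_subset _ _) fun τ _ _ => mul_nonneg hE (exp_pos _).le))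
      (by positivity)).trans ?_
    rw [← Finset.mul_sum, mul_left_comm]
    exact mul_le_mul_of_nonneg_left (sum_exp_sq hN ha0 ha) hE
  · set S := Finset.univ.filter fun τ : Fin N → Bool => ¬|mg τ| ≤ q0
    have hv : ∀ v ∈ Finset.univ.image (mg (N := N)), ((2:ℝ) ^ N)⁻¹ * ∑ τ ∈ S.filter (fun τ => mg τ = v), B (mg τ) ≤
        E * exp (-((N:ℝ) * γ)) := by
      intro v hvi
      by_cases hq : |v| ≤ q0
      · rw [Finset.sum_eq_zero fun τ hτ => ?_, mul_zero]
        · positivity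
        · obtain ⟨h1, h2⟩ := Finset.mem_filter.1 hτ
          exact absurd (h2 ▸ hq) (Finset.mem_filter.1 h1).2
      · obtain ⟨τ0, -, hτ0⟩ := Finset.mem_image.1 hvi
        have hv1 : |v| ≤ 1 := by
          have := abs_ov_le hN τ0 (fun _ => true)
          rw [← hτ0]
          simpa [ov, mg, spin] using this
        obtain ⟨s, hs'⟩ := hb v (not_le.1 hq) hv1
        set s' := if 0 ≤ v then s else -s
        have e : s * |v| = s' * v ∧ log (cosh s) = log (cosh s') := by
          by_cases h : 0 ≤ v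
          · simp [s', h, abs_of_nonneg h]
          · simp [s', h, abs_of_neg (not_le.1 h)]
        rw [e.1, e.2] at hs'
        calc ((2:ℝ) ^ N)⁻¹ * ∑ τ ∈ S.filter (fun τ => mg τ = v), B (mg τ)
            ≤ ((2:ℝ) ^ N)⁻¹ * ∑ τ ∈ S.filter (fun τ => mg τ = v),
                E * exp ((N:ℝ) * (-log (cosh s') - γ)) * exp ((N:ℝ) * s' * mg τ) := by
              refine mul_le_mul_of_nonneg_left (Finset.sum_le_sum fun τ hτ => ?_) (by positivity)
              rw [(Finset.mem_filter.1 hτ).2, mul_assoc E, ← exp_add]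
              refine hs'.trans (le_of_eq ?_); congr 2; ring
          _ ≤ ((2:ℝ) ^ N)⁻¹ * ∑ τ : Fin N → Bool, E * exp ((N:ℝ) * (-log (cosh s') - γ)) * exp ((N:ℝ) * s' * mg τ) :=
              mul_le_mul_of_nonneg_left (Finset.sum_le_sum_of_subset_of_nonneg (Finset.subset_univ _) fun τ _ _ => by positivity)
                (by positivity)
          _ = E * exp (-((N:ℝ) * γ)) := by
              rw [← Finset.mul_sum, sum_exp_mg hN]
              rw [show (N:ℝ) * (-log (cosh s') - γ) = -((N:ℝ) * log (cosh s')) + -((N:ℝ) * γ) by ring, exp_add, exp_neg (_ * log _)]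
              field_simp
    calc ((2:ℝ) ^ N)⁻¹ * ∑ τ ∈ S, B (mg τ)
        = ∑ v ∈ Finset.univ.image (mg (N := N)), ((2:ℝ) ^ N)⁻¹ * ∑ τ ∈ S.filter (fun τ => mg τ = v), B (mg τ) := by
          rw [← Finset.mul_sum, Finset.sum_fiberwise_of_maps_to fun τ _ => Finset.mem_image_of_mem _ (Finset.mem_univ τ)]
      _ ≤ ∑ _v ∈ Finset.univ.image (mg (N := N)), E * exp (-((N:ℝ) * γ)) := Finset.sum_le_sum hv
      _ ≤ E * (((N:ℝ) + 1) * exp (-((N:ℝ) * γ))) := by
          rw [Finset.sum_const, nsmul_eq_mul, mul_left_comm E]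
          exact mul_le_mul_of_nonneg_right (by exact_mod_cast card_mg_image) (by positivity)

end Vale.Agent.P166.Phase
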