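import Vale.Agent.P166.Phase.Binom

/-!
Averages of cosines of scaled coordinates of uniform directions.
-/

open MeasureTheory ProbabilityTheory Real

noncomputable section

namespace Vale.Agent.P166.Phase

open Pattern (gauss)

variable {N : ℕ}

lemma cos_gauss (a b : ℝ) : ∫ g, cos (a + b * g) ∂gaussianReal 0 1 = cos a * exp (-(b ^ 2 / 2)) := by
  have h := charFun_gaussianReal (μ := 0) (v := 1) b
  rw [charFun_apply_real] at h
  have hi : Integrable (fun g : ℝ => Complex.exp ((a:ℂ) * Complex.I) * Complex.exp ((b:ℂ) * (g:ℂ) * Complex.I))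
      (gaussianReal 0 1) := by
    refine Integrable.of_bound (by fun_prop) 1 (.of_forall fun g => ?_)
    rw [norm_mul, ← Complex.ofReal_mul, Complex.norm_exp_ofReal_mul_I, Complex.norm_exp_ofReal_mul_I, one_mul]
  have e : ∀ g : ℝ, cos (a + b * g) =
      (Complex.exp ((a:ℂ) * Complex.I) * Complex.exp ((b:ℂ) * (g:ℂ) * Complex.I)).re := fun g => by
    rw [← Complex.exp_add, ← add_mul, ← Complex.ofReal_mul, ← Complex.ofReal_add, Complex.exp_ofReal_mul_I_re]
  simp only [e]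
  rw [show ∫ g, (Complex.exp ((a:ℂ) * Complex.I) * Complex.exp ((b:ℂ) * (g:ℂ) * Complex.I)).re ∂gaussianReal 0 1 =
      (∫ g, Complex.exp ((a:ℂ) * Complex.I) * Complex.exp ((b:ℂ) * (g:ℂ) * Complex.I) ∂gaussianReal 0 1).re from
    integral_re hi, integral_const_mul, h]
  have e2 : ((b:ℂ) * ((0:ℝ):ℂ) * Complex.I - (((1:NNReal):ℝ):ℂ) * (b:ℂ) ^ 2 / 2) = ((-(b ^ 2 / 2) : ℝ) : ℂ) := by
    push_cast; ring
  rw [e2, ← Complex.ofReal_exp, Complex.re_mul_ofReal, Complex.exp_ofReal_mul_I_re]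

lemma cos_exp_gap {x : ℝ} (h0 : 0 ≤ x) (h1 : x ≤ 1) :
    cos x * exp (x ^ 2 / 2) ≤ 1 - (x ^ 2 / 2) ^ 2 / 8 := by
  set y := x ^ 2 / 2
  have hy0 : 0 ≤ y := by positivity
  have hy1 : y ≤ 1 / 2 := by simp only [y]; linarith [pow_le_one₀ (n := 2) h0 h1]
  have h := (abs_le.1 (cos_bound (x := x) (by rw [abs_of_nonneg h0]; exact h1))).2
  have hx4 : |x| ^ 4 = 4 * y ^ 2 := by rw [abs_of_nonneg h0]; simp only [y]; ring
  have he := (abs_le.1 (exp_bound (x := -y) (by rw [abs_neg, abs_of_nonneg hy0]; linarith) (n := 3) (by norm_num))).1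
  simp [Finset.sum_range_succ, Nat.factorial, abs_of_nonneg hy0] at he
  rw [hx4] at h
  have h3 : y ^ 3 ≤ y ^ 2 * (1 / 2) := by rw [pow_succ]; exact mul_le_mul_of_nonneg_left hy1 (sq_nonneg y)
  have hc : cos x ≤ exp (-y) - y ^ 2 / 8 := by
    simp only [y] at *
    linarith [sq_nonneg (x ^ 2 / 2)]
  refine (mul_le_mul_of_nonneg_right hc (exp_pos y).le).trans ?_
  rw [sub_mul, ← exp_add, neg_add_cancel, exp_zero]
  linarith [mul_le_mul_of_nonneg_left (one_le_exp hy0) (show 0 ≤ y ^ 2 / 8 by positivity)]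

/-- sums of bounded functions of independent normal variables -/
lemma chernoff_bdd {f : Fin N → ℝ → ℝ} (hf : ∀ i, Measurable (f i)) (hb : ∀ i x, |f i x| ≤ 1) {m δ : ℝ}
    (hm : ∀ i, ∫ x, f i x ∂gaussianReal 0 1 ≤ m) (hδ0 : 0 < δ) (hδ : δ ≤ 1 / 2) :
    (gauss (Fin N)).real {g | (N:ℝ) * (m + 6 * δ) ≤ ∑ i, f i (g i)} ≤ exp (-(2 * δ ^ 2 * N)) := by
  set mi := fun i => ∫ x, f i x ∂gaussianReal 0 1
  have hmi : ∀ i, |mi i| ≤ 1 := fun i => by
    rw [← norm_eq_abs]
    exact (norm_integral_le_of_norm_le_const (.of_forall fun x => (norm_eq_abs _).le.trans (hb i x))).trans_eq (by simp)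
  have hi : ∀ i, Integrable (fun x => exp (δ * (f i x - mi i))) (gaussianReal 0 1) := fun i =>
    Integrable.of_bound (Real.measurable_exp.comp ((hf i).sub_const _ |>.const_mul δ)).aestronglyMeasurable (exp 1)
      (.of_forall fun x => by
        rw [norm_eq_abs, abs_exp]
        refine exp_le_exp.2 ((mul_le_mul_of_nonneg_left (le_abs_self _) hδ0.le).trans ?_)
        refine (mul_le_mul hδ (abs_sub (f i x) (mi i)) (abs_nonneg _) (by norm_num)).trans ?_
        linarith [hb i x, hmi i])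
  have hmgf : ∀ i, ∫ x, exp (δ * (f i x - mi i)) ∂gaussianReal 0 1 ≤ exp (4 * δ ^ 2) := fun i => by
    have hfi : Integrable (f i) (gaussianReal 0 1) :=
      Integrable.of_bound (hf i).aestronglyMeasurable 1 (.of_forall fun x => (norm_eq_abs _).le.trans (hb i x))
    have hd := ((hfi.sub (integrable_const (mi i))).const_mul δ)
    refine (integral_mono (hi i) ((((integrable_const 1)).add hd).add (integrable_const (4 * δ ^ 2))) fun x => ?_).trans ?_
    · have hz : |δ * (f i x - mi i)| ≤ 2 * δ := by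
        rw [abs_mul, abs_of_pos hδ0, mul_comm 2 δ]
        exact mul_le_mul_of_nonneg_left ((abs_sub _ _).trans (by linarith [hb i x, hmi i])) hδ0.le
      have h := (abs_le.1 (abs_exp_sub_one_sub_id_le (x := δ * (f i x - mi i)) (hz.trans (by linarith)))).2
      have h2 : (δ * (f i x - mi i)) ^ 2 ≤ 4 * δ ^ 2 := by
        rw [← sq_abs, show 4 * δ ^ 2 = (2 * δ) ^ 2 by ring]
        exact pow_le_pow_left₀ (abs_nonneg _) hz 2
      show exp (δ * (f i x - mi i)) ≤ 1 + δ * (f i x - mi i) + 4 * δ ^ 2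
      linarith
    · simp only [Pi.add_apply, Pi.sub_apply]
      have e : ∫ x, δ * (f i x - mi i) ∂gaussianReal 0 1 = 0 := by
        rw [integral_const_mul, integral_sub hfi (integrable_const _)]; simp [mi]
      have hd' : Integrable (fun x => δ * (f i x - mi i)) (gaussianReal 0 1) := hd
      rw [integral_add (f := fun x => 1 + δ * (f i x - mi i)) ((integrable_const (1:ℝ)).fun_add hd') (integrable_const _),
        integral_add (integrable_const _) hd', e]
      simpa [add_comm] using add_one_le_exp (4 * δ ^ 2)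
  have hint : Integrable (fun g : Fin N → ℝ => exp (δ * ∑ i, (f i (g i) - mi i))) (gauss (Fin N)) := by
    simp only [Finset.mul_sum, exp_sum]
    exact Integrable.fintype_prod (fun i => hi i)
  have hprod : ∫ g, exp (δ * ∑ i, (f i (g i) - mi i)) ∂gauss (Fin N) ≤ exp ((N:ℝ) * (4 * δ ^ 2)) := by
    simp only [Finset.mul_sum, exp_sum]
    rw [gauss, integral_fintype_prod_eq_prod (fun i x => exp (δ * (f i x - mi i)))]
    refine (Finset.prod_le_prod (fun i _ => integral_nonneg fun x => (exp_pos _).le) fun i _ => hmgf i).trans (le_of_eq ?_)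
    rw [Finset.prod_const, Finset.card_univ, Fintype.card_fin, exp_nat_mul]
  have h := (mul_meas_ge_le_integral_of_nonneg (.of_forall fun g => (exp_pos _).le) hint
    (exp (δ * ((N:ℝ) * (6 * δ))))).trans hprod
  have hsub : {g : Fin N → ℝ | (N:ℝ) * (m + 6 * δ) ≤ ∑ i, f i (g i)} ⊆
      {g | exp (δ * ((N:ℝ) * (6 * δ))) ≤ exp (δ * ∑ i, (f i (g i) - mi i))} := fun g hg => by
    simp only [Set.mem_ofPred_eq] at hg ⊢
    refine exp_le_exp.2 (mul_le_mul_of_nonneg_left ?_ hδ0.le)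
    have hsum : ∑ i, mi i ≤ (N:ℝ) * m := (Finset.sum_le_sum fun i _ => hm i).trans_eq (by simp)
    rw [Finset.sum_sub_distrib]
    linarith
  refine (measureReal_mono hsub).trans ?_
  rw [← le_div_iff₀' (exp_pos _), ← exp_sub] at h
  exact h.trans (le_of_eq (by congr 1; ring))

/-- squared norm of a normal vector -/
lemma chi_tail {a : ℝ} (ha : 0 < a) :
    (gauss (Fin N)).real {g | 0 ≤ (1 - a⁻¹) * (ip g g - a * N)} ≤ exp (-((N:ℝ) * ((a - 1 - log a) / 2))) := by
  obtain ⟨hi, hv⟩ := gauss_exp (N := N) (p := fun _ => a⁻¹) fun _ => inv_pos.2 ha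
  have e : ∀ g : Fin N → ℝ, qf (fun _ => 1 - a⁻¹) g = (1 - a⁻¹) * ip g g := fun g => by
    simp only [qf, ip, Finset.mul_sum]; exact Finset.sum_congr rfl fun i _ => by ring
  simp only [e] at hi hv
  have hval : (√(∏ _k : Fin N, a⁻¹))⁻¹ = exp ((N:ℝ) * log a / 2) := by
    rw [Finset.prod_const, Finset.card_univ, Fintype.card_fin, inv_pow, Real.sqrt_inv, inv_inv, exp_half,
      exp_nat_mul, exp_log ha]
  rw [hval] at hv
  have h := mul_meas_ge_le_integral_of_nonneg (.of_forall fun g => (exp_pos _).le) hi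
    (exp ((1 - a⁻¹) * (a * N) / 2))
  rw [hv, ← le_div_iff₀' (exp_pos _), ← exp_sub] at h
  refine (measureReal_mono fun g hg => ?_).trans (h.trans (le_of_eq ?_))
  · simp only [Set.mem_ofPred_eq] at hg ⊢
    exact exp_le_exp.2 (by linarith)
  · congr 1; field_simp; ring

lemma linear_tail {c : Fin N → ℝ} (hc : ip c c = 1) (r : ℝ) :
    (gauss (Fin N)).real {g | r ≤ ip c g ^ 2} ≤ 2 * exp (-(r / 4)) := by
  have hc' : ∑ i, c i ^ 2 = 1 := by simpa [ip, sq] using hc
  obtain ⟨hi, hv⟩ := gauss_square (a := 1 / 2) (by norm_num)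
  have hi' := Pattern.integrable_linear c hc' hi
  have hv' : ∫ g, exp (1 / 2 * (∑ i, c i * g i) ^ 2 / 2) ∂gauss (Fin N) ≤ 2 := by
    rw [Pattern.integral_linear c hc' (F := fun t => exp (1 / 2 * t ^ 2 / 2)) (by fun_prop), hv]
    refine inv_le_of_inv_le₀ two_pos (Real.le_sqrt_of_sq_le (by norm_num))
  have h := (mul_meas_ge_le_integral_of_nonneg (.of_forall fun g => (exp_pos _).le) hi' (exp (r / 4))).trans hv'
  rw [← le_div_iff₀' (exp_pos _), div_eq_mul_inv (2:ℝ), ← exp_neg] at h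
  refine (measureReal_mono fun g hg => ?_).trans h
  simp only [Set.mem_ofPred_eq] at hg ⊢
  exact exp_le_exp.2 (by simp only [ip] at hg; linarith)

/-- the good event for normalising -/
def Normal (c : Fin N → ℝ) (ε : ℝ) : Set (Fin N → ℝ) :=
  {g | (1 - ε) * N < ip g g ∧ ip g g < (1 + ε) * N ∧ ip c g ^ 2 < ε * N}

lemma normal_tail {ε : ℝ} (hε : 0 < ε) (hε1 : ε < 1) : ∃ ρ, 0 < ρ ∧ ∀ (N : ℕ) (c : Fin N → ℝ), ip c c = 1 →
    (gauss (Fin N)).real (Normal c ε)ᶜ ≤ 4 * exp (-((N:ℝ) * ρ)) := by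
  have hg : ∀ a : ℝ, 0 < a → a ≠ 1 → 0 < (a - 1 - log a) / 2 := fun a ha ha1 => by
    linarith [log_lt_sub_one_of_pos ha ha1]
  have g1 := hg (1 + ε) (by linarith) (by linarith)
  have g2 := hg (1 - ε) (by linarith) (by linarith)
  set ρ := min (min ((1 + ε - 1 - log (1 + ε)) / 2) ((1 - ε - 1 - log (1 - ε)) / 2)) (ε / 4)
  refine ⟨ρ, lt_min (lt_min g1 g2) (by linarith), fun N c hc => ?_⟩
  have hN : (0:ℝ) ≤ N := Nat.cast_nonneg N
  have hρ : ∀ x, ρ ≤ x → exp (-((N:ℝ) * x)) ≤ exp (-((N:ℝ) * ρ)) := fun x hx =>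
    exp_le_exp.2 (neg_le_neg (mul_le_mul_of_nonneg_left hx hN))
  have hsub : (Normal c ε)ᶜ ⊆ {g : Fin N → ℝ | 0 ≤ (1 - (1 + ε)⁻¹) * (ip g g - (1 + ε) * N)} ∪
      {g | 0 ≤ (1 - (1 - ε)⁻¹) * (ip g g - (1 - ε) * N)} ∪ {g | ε * N ≤ ip c g ^ 2} := fun g hg => by
    simp only [Normal, Set.mem_compl_iff, Set.mem_ofPred_eq, not_and_or, not_lt] at hg
    rcases hg with h | h | h
    · refine Or.inl (Or.inr ?_)
      simp only [Set.mem_ofPred_eq]
      exact mul_nonneg_of_nonpos_of_nonpos (sub_nonpos.2 (one_le_inv_iff₀.2 ⟨by linarith, by linarith⟩))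
        (by linarith)
    · refine Or.inl (Or.inl ?_)
      simp only [Set.mem_ofPred_eq]
      exact mul_nonneg (sub_nonneg.2 (inv_le_one_of_one_le₀ (by linarith))) (by linarith)
    · exact Or.inr h
  refine (measureReal_mono hsub).trans ((measureReal_union_le _ _).trans ?_)
  refine (add_le_add (measureReal_union_le _ _) le_rfl).trans ?_
  have a1 := (chi_tail (N := N) (show 0 < 1 + ε by linarith)).trans (hρ _ ((min_le_left _ _).trans (min_le_left _ _)))
  have a2 := (chi_tail (N := N) (show 0 < 1 - ε by linarith)).trans (hρ _ ((min_le_left _ _).trans (min_le_right _ _)))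
  have a3 := linear_tail hc (ε * N)
  have a4 : exp (-(ε * N / 4)) ≤ exp (-((N:ℝ) * ρ)) := le_trans (le_of_eq (by congr 1; ring)) (hρ _ (min_le_right _ (ε / 4)))
  linarith

/-- average cosine of the scaled coordinates -/
def cavg (w : Fin N → ℝ) : ℝ := (∑ i, cos (√(N:ℝ) * w i)) / N

lemma cavg_lip (hN : 0 < N) (v w : Fin N → ℝ) :
    |cavg v - cavg w| ≤ √(∑ i, (v i - w i) ^ 2) := by
  have hN' : (0:ℝ) < N := by exact_mod_cast hN
  rw [cavg, cavg, ← sub_div, abs_div, abs_of_pos hN', div_le_iff₀ hN', ← Finset.sum_sub_distrib]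
  refine (Finset.abs_sum_le_sum_abs _ _).trans ((Finset.sum_le_sum fun i _ => abs_cos_sub_cos_le _ _).trans ?_)
  have e : ∀ i, |√(N:ℝ) * v i - √(N:ℝ) * w i| = √(N:ℝ) * |v i - w i| := fun i => by
    rw [← mul_sub, abs_mul, abs_of_nonneg (Real.sqrt_nonneg _)]
  simp only [e, ← Finset.mul_sum]
  have h := sq_sum_le_card_mul_sum_sq (s := Finset.univ) (f := fun i => |v i - w i|)
  simp only [sq_abs, Finset.card_univ, Fintype.card_fin] at h
  have h2 : ∑ i, |v i - w i| ≤ √(N:ℝ) * √(∑ i, (v i - w i) ^ 2) := by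
    rw [← Real.sqrt_mul hN'.le]
    exact (Real.le_sqrt (Finset.sum_nonneg fun i _ => abs_nonneg _) (by positivity)).2 h
  refine (mul_le_mul_of_nonneg_left h2 (Real.sqrt_nonneg _)).trans (le_of_eq ?_)
  rw [← mul_assoc, Real.mul_self_sqrt hN'.le, mul_comm]

/-- normalising moves a vector little -/
lemma normalise_dist {g p : Fin N → ℝ} (hN : 0 < N) {ε : ℝ} (hε : 0 ≤ ε) (hε1 : ε < 1 / 2)
    (hg : ip g g < (1 + ε) * N) (hp : (1 - 2 * ε) * N ≤ ip p p) (hpg : ip p g = ip p p) :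
    ∑ i, (nz p i - g i / √(N:ℝ)) ^ 2 ≤ 5 * ε := by
  have hN' : (0:ℝ) < N := by exact_mod_cast hN
  have hp0 : 0 < ip p p := lt_of_lt_of_le (mul_pos (by linarith) hN') hp
  have e : ∑ i, (nz p i - g i / √(N:ℝ)) ^ 2 = ip (nz p) (nz p) - 2 * (√(ip p p) / √(N:ℝ)) + ip g g / N := by
    have h1 : √(ip p p) / √(N:ℝ) = ∑ i, nz p i * (g i / √(N:ℝ)) := by
      simp only [nz, div_mul_div_comm, ← Finset.sum_div]
      rw [show ∑ i, p i * g i = ip p g from rfl, hpg]
      rw [div_eq_div_iff (Real.sqrt_pos.2 hN').ne' (mul_pos (Real.sqrt_pos.2 hp0) (Real.sqrt_pos.2 hN')).ne',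
        ← mul_assoc, Real.mul_self_sqrt hp0.le]
    rw [h1, ip, ip, Finset.mul_sum, Finset.sum_div, ← Finset.sum_sub_distrib, ← Finset.sum_add_distrib]
    refine Finset.sum_congr rfl fun i _ => ?_
    have : g i * g i / (N:ℝ) = (g i / √(N:ℝ)) * (g i / √(N:ℝ)) := by
      rw [div_mul_div_comm, Real.mul_self_sqrt hN'.le]
    rw [this]; ring
  rw [e, ip_nz_self hp0.ne']
  have h1 : 1 - 2 * ε ≤ √(ip p p) / √(N:ℝ) := by
    rw [← Real.sqrt_div hp0.le]
    refine Real.le_sqrt_of_sq_le ?_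
    rw [le_div_iff₀ hN']
    refine le_trans ?_ hp
    refine mul_le_mul_of_nonneg_right ?_ hN'.le
    rw [sq]; exact mul_le_of_le_one_left (by linarith) (by linarith)
  have h2 : ip g g / N ≤ 1 + ε := (div_le_iff₀ hN').2 hg.le
  linarith

/-- exponential lower tail of the average cosine of a uniform direction -/
theorem sph_cos_tail {δ : ℝ} (hδ0 : 0 < δ) (hδ : δ ≤ 1 / 2) : ∃ ρ, 0 < ρ ∧ ∀ N : ℕ, 0 < N →
    (sph N).real {w | cavg w ≤ exp (-(1 / 2)) - 7 * δ} ≤ 5 * exp (-((N:ℝ) * ρ)) := by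
  have hsq := pow_le_pow_left₀ hδ0.le hδ 2
  set ε := δ ^ 2 / 5
  have hε : 0 < ε := by positivity
  have hε1 : ε < 1 / 2 := by simp only [ε]; linarith
  obtain ⟨ρ, hρ, htail⟩ := normal_tail hε (show ε < 1 by linarith)
  refine ⟨min ρ (2 * δ ^ 2), lt_min hρ (by positivity), fun N hN => ?_⟩
  have hN' : (0:ℝ) < N := by exact_mod_cast hN
  have hm : Measurable fun w : Fin N → ℝ => cavg w := by unfold cavg; fun_prop
  rw [sph, map_measureReal_apply measurable_nz (measurableSet_le hm measurable_const)]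
  set c : Fin N → ℝ := fun i => if i = ⟨0, hN⟩ then 1 else 0
  have hc : ip c c = 1 := by simp [ip, c]
  have hsub : nz ⁻¹' {w : Fin N → ℝ | cavg w ≤ exp (-(1 / 2)) - 7 * δ} ⊆
      (Normal c ε)ᶜ ∪ {g | (N:ℝ) * (-exp (-(1 / 2)) + 6 * δ) ≤ ∑ i, -cos (g i)} := by
    intro g hg
    by_cases hn : g ∈ Normal c ε
    · refine Or.inr ?_
      obtain ⟨h1, h2, -⟩ := hn
      have hd := normalise_dist hN hε.le hε1 h2 (p := g) (le_trans (mul_le_mul_of_nonneg_right (by linarith) hN'.le) h1.le) rfl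
      have hl := (cavg_lip hN (fun i => g i / √(N:ℝ)) (nz g)).trans (Real.sqrt_le_left hδ0.le |>.2 (le_trans (le_of_eq
        (Finset.sum_congr rfl fun i _ => by ring)) (hd.trans_eq (by simp only [ε]; ring))))
      have e : cavg (fun i => g i / √(N:ℝ)) = (∑ i, cos (g i)) / N := by
        simp only [cavg, mul_div_cancel₀ _ (Real.sqrt_pos.2 hN').ne']
      rw [e] at hl
      simp only [Set.mem_preimage, Set.mem_ofPred_eq] at hg ⊢
      have h3 : (∑ i, cos (g i)) / N ≤ exp (-(1 / 2)) - 6 * δ := by linarith [(abs_le.1 hl).2]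
      rw [div_le_iff₀ hN'] at h3
      rw [Finset.sum_neg_distrib]
      linarith
    · exact Or.inl hn
  refine (measureReal_mono hsub).trans ((measureReal_union_le _ _).trans ?_)
  have a1 := (htail N c hc).trans (mul_le_mul_of_nonneg_left
    (exp_le_exp.2 (neg_le_neg (mul_le_mul_of_nonneg_left (min_le_left ρ (2 * δ ^ 2)) hN'.le))) (by norm_num))
  have hmean : ∫ x, -cos x ∂gaussianReal 0 1 ≤ -exp (-(1 / 2)) := by
    rw [integral_neg]
    have := cos_gauss 0 1
    simp only [zero_add, one_mul, cos_zero, one_pow] at this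
    rw [this]
  have a2 := (chernoff_bdd (f := fun (_ : Fin N) x => -cos x) (fun _ => by fun_prop)
    (fun _ x => by rw [abs_neg]; exact abs_cos_le_one x) (fun _ => hmean) hδ0 hδ).trans
    (exp_le_exp.2 (show -(2 * δ ^ 2 * (N:ℝ)) ≤ -((N:ℝ) * min ρ (2 * δ ^ 2)) by
      linarith [mul_le_mul_of_nonneg_left (min_le_right ρ (2 * δ ^ 2)) hN'.le]))
  linarith

/-- a direction with positive weight on a configuration has a smaller average cosine -/
theorem perp_cos_tail {δ : ℝ} (hδ0 : 0 < δ) (hδ : δ ≤ 1 / 2) {c0 : ℝ} (hc0 : 0 ≤ c0) :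
    ∃ ρ, 0 < ρ ∧ ∀ N : ℕ, 0 < N → ∀ (σ : Fin N → Bool) (c : ℝ), c0 ≤ c → c ≤ 1 →
    (perpLaw (sv σ)).real {r | exp (-(1 / 2)) * (1 - c0 ^ 2 / 32) + 7 * δ ≤
      cavg fun i => √c * sv σ i + √(1 - c) * r i} ≤ 5 * exp (-((N:ℝ) * ρ)) := by
  have hsq := pow_le_pow_left₀ hδ0.le hδ 2
  set ε := δ ^ 2 / 5
  have hε : 0 < ε := by positivity
  have hε1 : ε < 1 / 2 := by simp only [ε]; linarith
  obtain ⟨ρ, hρ, htail⟩ := normal_tail hε (show ε < 1 by linarith)
  refine ⟨min ρ (2 * δ ^ 2), lt_min hρ (by positivity), fun N hN σ c hc hc1 => ?_⟩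
  have hN' : (0:ℝ) < N := by exact_mod_cast hN
  set e0 := sv σ
  have he0 : ip e0 e0 = 1 := ip_sv hN σ
  have hmr : Measurable fun r : Fin N → ℝ => cavg fun i => √c * e0 i + √(1 - c) * r i := by unfold cavg; fun_prop
  have hmp : Measurable fun g => nz (perp e0 g) := measurable_nz.comp (measurable_perp e0)
  rw [perpLaw, map_measureReal_apply hmp (measurableSet_le measurable_const hmr)]
  set f : Fin N → ℝ → ℝ := fun i x => cos (√c * spin (σ i) + √(1 - c) * x)
  have hsub : (fun g => nz (perp e0 g)) ⁻¹' {r : Fin N → ℝ | exp (-(1 / 2)) * (1 - c0 ^ 2 / 32) + 7 * δ ≤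
      cavg fun i => √c * e0 i + √(1 - c) * r i} ⊆
      (Normal e0 ε)ᶜ ∪ {g | (N:ℝ) * (exp (-(1 / 2)) * (1 - c0 ^ 2 / 32) + 6 * δ) ≤ ∑ i, f i (g i)} := by
    intro g hg
    by_cases hn : g ∈ Normal e0 ε
    · refine Or.inr ?_
      obtain ⟨h1, h2, h3⟩ := hn
      have hperp : ∀ i, perp e0 g i = g i - ip e0 g * e0 i := fun i => by simp only [perp, nz_of_unit he0]
      have hpg : ip (perp e0 g) g = ip g g - ip e0 g ^ 2 := by
        simp only [ip, hperp, sub_mul, Finset.sum_sub_distrib, mul_assoc, ← Finset.mul_sum, sq]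
      have hpp : ip (perp e0 g) (perp e0 g) = ip g g - ip e0 g ^ 2 := by
        have e : ∀ i, perp e0 g i * perp e0 g i =
            g i * g i - 2 * ip e0 g * (e0 i * g i) + ip e0 g ^ 2 * (e0 i * e0 i) := fun i => by rw [hperp]; ring
        simp only [ip] at e ⊢
        simp only [e, Finset.sum_add_distrib, Finset.sum_sub_distrib, ← Finset.mul_sum]
        rw [show ∑ i, e0 i * e0 i = 1 from he0]; ring
      have hd := normalise_dist hN hε.le hε1 h2 (p := perp e0 g) (by rw [hpp]; linarith) (by rw [hpg, hpp])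
      have hl := cavg_lip hN (fun i => √c * e0 i + √(1 - c) * (g i / √(N:ℝ)))
        (fun i => √c * e0 i + √(1 - c) * nz (perp e0 g) i)
      have hl2 : ∑ i, (√c * e0 i + √(1 - c) * (g i / √(N:ℝ)) - (√c * e0 i + √(1 - c) * nz (perp e0 g) i)) ^ 2 ≤ δ ^ 2 := by
        have e : ∀ i, (√c * e0 i + √(1 - c) * (g i / √(N:ℝ)) - (√c * e0 i + √(1 - c) * nz (perp e0 g) i)) ^ 2 =
            √(1 - c) ^ 2 * (nz (perp e0 g) i - g i / √(N:ℝ)) ^ 2 := fun i => by ring
        simp only [e, ← Finset.mul_sum]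
        refine le_trans (mul_le_of_le_one_left (Finset.sum_nonneg fun i _ => sq_nonneg _)
          (pow_le_one₀ (Real.sqrt_nonneg _) (Real.sqrt_le_one.2 (by linarith)))) (hd.trans_eq ?_)
        simp only [ε]; ring
      replace hl := hl.trans (Real.sqrt_le_left hδ0.le |>.2 hl2)
      have e : cavg (fun i => √c * e0 i + √(1 - c) * (g i / √(N:ℝ))) = (∑ i, f i (g i)) / N := by
        simp only [cavg, f, e0, sv]
        congr 1
        refine Finset.sum_congr rfl fun i _ => ?_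
        congr 1
        field_simp
      rw [e] at hl
      simp only [Set.mem_preimage, Set.mem_ofPred_eq] at hg ⊢
      have h4 : exp (-(1 / 2)) * (1 - c0 ^ 2 / 32) + 6 * δ ≤ (∑ i, f i (g i)) / N := by linarith [(abs_le.1 hl).1]
      rw [le_div_iff₀ hN'] at h4
      linarith
    · exact Or.inl hn
  refine (measureReal_mono hsub).trans ((measureReal_union_le _ _).trans ?_)
  have a1 := (htail N e0 he0).trans (mul_le_mul_of_nonneg_left
    (exp_le_exp.2 (neg_le_neg (mul_le_mul_of_nonneg_left (min_le_left ρ (2 * δ ^ 2)) hN'.le))) (by norm_num))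
  have hmean : ∀ i, ∫ x, f i x ∂gaussianReal 0 1 ≤ exp (-(1 / 2)) * (1 - c0 ^ 2 / 32) := fun i => by
    simp only [f]
    rw [cos_gauss, Real.sq_sqrt (by linarith)]
    have hs : cos (√c * spin (σ i)) = cos √c := by cases σ i <;> simp [spin]
    have hgap := cos_exp_gap (Real.sqrt_nonneg c) (Real.sqrt_le_one.2 hc1)
    rw [Real.sq_sqrt (hc0.trans hc)] at hgap
    rw [hs, show -((1 - c) / 2) = c / 2 + -(1 / 2) by ring, exp_add, ← mul_assoc, mul_comm]
    refine mul_le_mul_of_nonneg_left (hgap.trans ?_) (exp_pos _).le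
    linarith [pow_le_pow_left₀ hc0 hc 2]
  have a2 := (chernoff_bdd (f := f) (fun i => by fun_prop) (fun i x => abs_cos_le_one _) hmean hδ0 hδ).trans
    (exp_le_exp.2 (show -(2 * δ ^ 2 * (N:ℝ)) ≤ -((N:ℝ) * min ρ (2 * δ ^ 2)) by
      linarith [mul_le_mul_of_nonneg_left (min_le_right ρ (2 * δ ^ 2)) hN'.le]))
  linarith

end Vale.Agent.P166.Phase
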