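import Vale.Agent.P166.Phase.Rate

/-!
A law for which the criterion holds up to the edge.
-/

open MeasureTheory Filter Real Set
open scoped Topology ENNReal

noncomputable section

namespace Vale.Agent.P166.Phase

/-- law of `-√t` for uniform `t` -/
def sqrtLaw : Measure ℝ := (volume.restrict (Icc (0:ℝ) 1)).map fun t => -√t

/-- an admissible sequence for `sqrtLaw` -/
def sqrtLam (N : ℕ) (k : Fin N) : ℝ := -√(((k : ℕ) + 1 : ℝ) / N)

lemma measurable_negsqrt : Measurable fun t : ℝ => -√t := by fun_prop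

instance : IsProbabilityMeasure sqrtLaw := by
  constructor
  rw [sqrtLaw, Measure.map_apply measurable_negsqrt MeasurableSet.univ]
  simp

lemma integral_sqrtLaw {f : ℝ → ℝ} (hf : Measurable f) : ∫ x, f x ∂sqrtLaw = ∫ t in (0:ℝ)..1, f (-√t) := by
  rw [sqrtLaw, integral_map measurable_negsqrt.aemeasurable hf.aestronglyMeasurable,
    intervalIntegral.integral_of_le zero_le_one, integral_Icc_eq_integral_Ioc]

lemma support_sqrtLaw : sqrtLaw.support = Icc (-1:ℝ) 0 := by
  refine Subset.antisymm ?_ fun x hx => ?_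
  · refine Measure.support_subset_of_isClosed isClosed_Icc ?_
    rw [sqrtLaw, mem_ae_map_iff measurable_negsqrt.aemeasurable measurableSet_Icc]
    filter_upwards [ae_restrict_mem measurableSet_Icc] with t ht
    exact ⟨neg_le_neg (Real.sqrt_le_one.2 ht.2), neg_nonpos.2 (Real.sqrt_nonneg t)⟩
  · rw [Measure.mem_support_iff_forall]
    intro s hs
    obtain ⟨d, hd, hds⟩ := Metric.mem_nhds_iff.1 hs
    obtain ⟨a, c, ha, hac, hc, hsub⟩ : ∃ a c, 0 ≤ a ∧ a < c ∧ c ≤ 1 ∧ ∀ u ∈ Icc a c, |(-u) - x| < d := by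
      rcases le_or_gt (-x) (1 / 2) with h | h
      · refine ⟨-x, -x + min (d / 2) (1 / 2), by linarith [hx.2], lt_add_of_pos_right _ (lt_min (half_pos hd) one_half_pos),
          by linarith [min_le_right (d / 2) (1 / 2)], fun u hu => abs_lt.2 ?_⟩
        constructor <;> linarith [hu.1, hu.2, min_le_left (d / 2) (1 / 2)]
      · refine ⟨-x - min (d / 2) (1 / 2), -x, by linarith [min_le_right (d / 2) (1 / 2)],
          sub_lt_self _ (lt_min (half_pos hd) one_half_pos), by linarith [hx.1], fun u hu => abs_lt.2 ?_⟩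
        constructor <;> linarith [hu.1, hu.2, min_le_left (d / 2) (1 / 2)]
    have hbig : Icc (a ^ 2) (c ^ 2) ⊆ (fun t : ℝ => -√t) ⁻¹' Metric.ball x d := fun t ht => by
      rw [mem_preimage, Metric.mem_ball, Real.dist_eq]
      refine hsub _ ⟨Real.le_sqrt_of_sq_le ht.1, ?_⟩
      exact (Real.sqrt_le_left (ha.trans hac.le)).2 ht.2
    refine lt_of_lt_of_le ?_ (measure_mono hds)
    rw [sqrtLaw, Measure.map_apply measurable_negsqrt measurableSet_ball, Measure.restrict_apply
      (measurable_negsqrt measurableSet_ball)]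
    refine lt_of_lt_of_le ?_ (measure_mono (subset_inter hbig
      (Icc_subset_Icc (sq_nonneg a) (pow_le_one₀ (ha.trans hac.le) hc))))
    rw [Real.volume_Icc, ENNReal.ofReal_pos, sub_pos]
    exact pow_lt_pow_left₀ hac ha two_ne_zero

lemma top_sqrtLaw : top sqrtLaw = 0 := by rw [top, support_sqrtLaw, csSup_Icc (by norm_num)]

lemma log_le_sub_inv {u : ℝ} (hu : 1 ≤ u) : log u ≤ (u - u⁻¹) / 2 := by
  rw [← Real.sinh_log (by linarith)]
  exact Real.self_le_sinh_iff.2 (log_nonneg hu)

lemma edgeG_sqrtLaw : edgeG sqrtLaw = ENNReal.ofReal 2 := by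
  have hm : Measurable fun x : ℝ => (ENNReal.ofReal (0 - x))⁻¹ := (ENNReal.measurable_ofReal.comp (by fun_prop)).inv
  rw [edgeG, top_sqrtLaw, sqrtLaw, lintegral_map hm measurable_negsqrt]
  have hd : ∀ t ∈ Ioo (0:ℝ) 1, HasDerivAt (fun s => 2 * √s) (√t)⁻¹ t := fun t ht => by
    have := (Real.hasDerivAt_sqrt ht.1.ne').const_mul 2
    refine this.congr_deriv ?_
    have := Real.sqrt_pos.2 ht.1
    field_simp
  have hc : ContinuousOn (fun s : ℝ => 2 * √s) (Icc 0 1) := by fun_prop
  have hi : IntervalIntegrable (fun t : ℝ => (√t)⁻¹) volume 0 1 :=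
    intervalIntegral.intervalIntegrable_deriv_of_nonneg (by rwa [uIcc_of_le zero_le_one])
      (by rw [min_eq_left zero_le_one, max_eq_right zero_le_one]; exact hd)
      (fun t _ => inv_nonneg.2 (Real.sqrt_nonneg t))
  have hv : ∫ t in Icc (0:ℝ) 1, (√t)⁻¹ = 2 := by
    rw [integral_Icc_eq_integral_Ioc, ← intervalIntegral.integral_of_le zero_le_one,
      intervalIntegral.integral_eq_sub_of_hasDerivAt_of_le zero_le_one hc hd hi]
    simp
  have hio : IntegrableOn (fun t : ℝ => (√t)⁻¹) (Icc 0 1) :=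
    (integrableOn_Icc_iff_integrableOn_Ioc (by simp)).2 hi.1
  rw [← hv, ofReal_integral_eq_lintegral_ofReal hio (.of_forall fun t => inv_nonneg.2 (Real.sqrt_nonneg t))]
  refine lintegral_congr_ae ?_
  rw [← restrict_Ioc_eq_restrict_Icc]
  filter_upwards [ae_restrict_mem measurableSet_Ioc] with t ht
  rw [zero_sub, neg_neg, ENNReal.ofReal_inv_of_pos (Real.sqrt_pos.2 ht.1)]

lemma kernels_sqrtLaw {e : ℝ} (he : 0 < e) :
    stiel sqrtLaw e = 2 * (1 - e * log ((1 + e) / e)) ∧
    stielSq sqrtLaw e = 2 * (log ((1 + e) / e) - 1 / (1 + e)) := by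
  have hne : ∀ t : ℝ, 0 < e + √t := fun t => by linarith [Real.sqrt_nonneg t]
  have hlog : log ((1 + e) / e) = log (e + 1) - log e := by rw [log_div (by linarith) he.ne', add_comm]
  have hw : ∀ t ∈ Ioo (0:ℝ) 1, HasDerivAt (fun s => log (e + √s)) (1 / (2 * √t) / (e + √t)) t := fun t ht =>
    ((Real.hasDerivAt_sqrt ht.1.ne').const_add e).log (hne t).ne'
  constructor
  · rw [stiel, integral_sqrtLaw (by fun_prop)]
    have hd : ∀ t ∈ Ioo (0:ℝ) 1, HasDerivAt (fun s => 2 * √s - 2 * e * log (e + √s)) (e - -√t)⁻¹ t := fun t ht => by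
      refine (((Real.hasDerivAt_sqrt ht.1.ne').const_mul 2).sub ((hw t ht).const_mul (2 * e))).congr_deriv ?_
      have := Real.sqrt_pos.2 ht.1
      have := hne t
      rw [sub_neg_eq_add]
      field_simp
      ring
    have hcl : ContinuousOn (fun s => 2 * √s - 2 * e * log (e + √s)) (Icc 0 1) :=
      (by fun_prop : ContinuousOn (fun s : ℝ => 2 * √s) (Icc 0 1)).sub
        (ContinuousOn.mul continuousOn_const (ContinuousOn.log (by fun_prop) fun t _ => (hne t).ne'))
    rw [intervalIntegral.integral_eq_sub_of_hasDerivAt_of_le zero_le_one hcl hd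
      (Continuous.intervalIntegrable ((by fun_prop : Continuous fun t : ℝ => e - -√t).inv₀ fun t => by
        rw [sub_neg_eq_add]; exact (hne t).ne') 0 1)]
    simp only [Real.sqrt_one, Real.sqrt_zero, add_zero, hlog]
    ring
  · rw [stielSq, integral_sqrtLaw (by fun_prop)]
    have hd : ∀ t ∈ Ioo (0:ℝ) 1,
        HasDerivAt (fun s => 2 * log (e + √s) + 2 * e * (e + √s)⁻¹) ((e - -√t) ^ 2)⁻¹ t := fun t ht => by
      refine (((hw t ht).const_mul 2).add
        ((((Real.hasDerivAt_sqrt ht.1.ne').const_add e).fun_inv (hne t).ne').const_mul (2 * e))).congr_deriv ?_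
      have := Real.sqrt_pos.2 ht.1
      have := hne t
      rw [sub_neg_eq_add]
      field_simp
      ring
    have hcl : ContinuousOn (fun s => 2 * log (e + √s) + 2 * e * (e + √s)⁻¹) (Icc 0 1) :=
      (ContinuousOn.mul continuousOn_const (ContinuousOn.log (by fun_prop) fun t _ => (hne t).ne')).add
        (ContinuousOn.mul continuousOn_const (ContinuousOn.inv₀ (by fun_prop) fun t _ => (hne t).ne'))
    have hq : Continuous fun t : ℝ => (e - -√t) ^ 2 := by fun_prop
    rw [intervalIntegral.integral_eq_sub_of_hasDerivAt_of_le zero_le_one hcl hd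
      (Continuous.intervalIntegrable (hq.inv₀ fun t => by
        rw [sub_neg_eq_add]; exact (pow_pos (hne t) 2).ne') 0 1)]
    simp only [Real.sqrt_one, Real.sqrt_zero, add_zero, hlog]
    field_simp
    ring

/-- the criterion at the edge value `2` -/
lemma crit_sqrtLaw : ∀ z, top sqrtLaw < z → stiel sqrtLaw z < 2 →
    4 * (2 - stiel sqrtLaw z) ^ 2 * stielSq sqrtLaw z ≤ stiel sqrtLaw z ^ 2 * (2 * 2 - stiel sqrtLaw z) ^ 2 := by
  intro e he _
  rw [top_sqrtLaw] at he
  obtain ⟨h1, h2⟩ := kernels_sqrtLaw he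
  rw [h1, h2]
  set t := (1 + e) / e
  set L := log t
  set s := e * L
  set u := √t
  have ht1 : 1 ≤ t := by rw [le_div_iff₀ he]; linarith
  have hu1 : 1 ≤ u := Real.one_le_sqrt.2 ht1
  have hu2 : u ^ 2 = t := Real.sq_sqrt (by linarith)
  set r := u⁻¹
  have hr0 : 0 < r := inv_pos.2 (by linarith)
  have hr1 : r ≤ 1 := inv_le_one_of_one_le₀ hu1
  have hr2 : r ^ 2 = e / (1 + e) := by simp only [r, inv_pow, hu2, t, inv_div]
  have he1 : 1 / (1 + e) = 1 - r ^ 2 := by rw [hr2]; field_simp; ring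
  have hLu : L ≤ u - r := by
    have h := log_le_sub_inv hu1
    have : L = 2 * log u := by simp only [L, ← hu2, log_pow]; norm_num
    simp only [r]; linarith
  have hL0 : 1 / (1 + e) ≤ L := by
    have h := one_sub_inv_le_log_of_pos (show 0 < t by linarith)
    have : 1 - t⁻¹ = 1 / (1 + e) := by simp only [t, inv_div]; field_simp; ring
    linarith
  have hLnn : 0 ≤ L := le_trans (by positivity) hL0
  have hsr : s ≤ r := by
    refine (mul_le_mul_of_nonneg_left hLu he.le).trans (le_of_eq ?_)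
    have ee : e * (u ^ 2 - 1) = 1 := by rw [hu2]; simp only [t]; field_simp; ring
    have : u ≠ 0 := by linarith
    simp only [r]; field_simp; linarith
  have hs0 : 0 ≤ s := mul_nonneg he.le hLnn
  have hX : s * (L - 1 / (1 + e)) ≤ 2 * (1 - s) ^ 2 := by
    have h3 : L - 1 / (1 + e) ≤ (1 - r ^ 2) * (1 - r) / r := by
      refine le_trans (sub_le_sub_right hLu _) (le_of_eq ?_)
      rw [he1, show u = 1 / r by simp [r]]
      field_simp
    refine (mul_le_mul hsr h3 (sub_nonneg.2 hL0) hr0.le).trans ?_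
    rw [mul_div_cancel₀ _ hr0.ne']
    have h4 := pow_le_pow_left₀ (sub_nonneg.2 hr1) (show 1 - r ≤ 1 - s by linarith) 2
    have h5 := mul_le_mul_of_nonneg_right (show 1 + r ≤ 2 by linarith) (sq_nonneg (1 - r))
    linarith
  have h6 := mul_le_mul_of_nonneg_left hX (show 0 ≤ 32 * s by positivity)
  have h7 := mul_le_mul_of_nonneg_right (show 4 * s ≤ (1 + s) ^ 2 by linarith [sq_nonneg (1 - s)])
    (show 0 ≤ 16 * (1 - s) ^ 2 by positivity)
  linarith

lemma sqrtLam_admissible : Admissible sqrtLaw sqrtLam := by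
  refine ⟨fun g => ?_, ?_, ?_⟩
  · set h : ℝ → ℝ := fun t => g (-√t)
    have hh : Continuous h := g.continuous.comp (by fun_prop)
    have hv : ∫ x, g x ∂sqrtLaw = ∫ t in (0:ℝ)..1, h t := integral_sqrtLaw g.continuous.measurable
    rw [hv, Metric.tendsto_nhds]
    intro ε hε
    obtain ⟨δ, hδ, huc⟩ := Metric.uniformContinuousOn_iff.1
      (isCompact_Icc.uniformContinuousOn_of_continuous (hh.continuousOn (s := Icc 0 1))) (ε / 2) (half_pos hε)
    filter_upwards [eventually_gt_atTop 0,
      (tendsto_const_div_atTop_nhds_zero_nat (1:ℝ)).eventually (eventually_lt_nhds hδ)] with N hN hNδ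
    have hN' : (0:ℝ) < N := by exact_mod_cast hN
    set a : ℕ → ℝ := fun k => (k:ℝ) / N
    have hsplit : ∫ t in (0:ℝ)..1, h t = ∑ k ∈ Finset.range N, ∫ t in (a k)..(a (k + 1)), h t := by
      rw [intervalIntegral.sum_integral_adjacent_intervals fun k _ => hh.intervalIntegrable _ _]
      simp only [a]; rw [Nat.cast_zero, zero_div, div_self hN'.ne']
    rw [Real.dist_eq, hsplit, Finset.sum_div]
    have hsum : ∑ k : Fin N, g (sqrtLam N k) / (N:ℝ) = ∑ k ∈ Finset.range N, h (a (k + 1)) / (N:ℝ) := by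
      rw [← Fin.sum_univ_eq_sum_range (fun k => h (a (k + 1)) / (N:ℝ))]
      refine Finset.sum_congr rfl fun k _ => ?_
      simp only [h, a, sqrtLam]; push_cast; rfl
    rw [hsum, ← Finset.sum_sub_distrib]
    refine lt_of_le_of_lt ((Finset.abs_sum_le_sum_abs _ _).trans (Finset.sum_le_sum (g := fun _ => ε / 2 / (N:ℝ)) fun k hk => ?_)) ?_
    · have hk' : k + 1 ≤ N := Finset.mem_range.1 hk
      have hle : a k ≤ a (k + 1) := div_le_div_of_nonneg_right (by push_cast; linarith) hN'.le
      have hw : a (k + 1) - a k = 1 / N := by simp only [a]; push_cast; ring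
      have e : h (a (k + 1)) / N - ∫ t in (a k)..(a (k + 1)), h t = ∫ t in (a k)..(a (k + 1)), (h (a (k + 1)) - h t) := by
        rw [intervalIntegral.integral_sub intervalIntegrable_const (hh.intervalIntegrable _ _),
          intervalIntegral.integral_const, hw, smul_eq_mul, one_div, inv_mul_eq_div]
      rw [e, ← Real.norm_eq_abs]
      refine (intervalIntegral.norm_integral_le_of_norm_le_const (C := ε / 2) fun t ht => ?_).trans (le_of_eq ?_)
      · rw [uIoc_of_le hle] at ht
        have h1 : a (k + 1) ≤ 1 := (div_le_one hN').2 (by exact_mod_cast hk')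
        have h0 : 0 ≤ a k := by positivity
        refine (le_of_lt ?_)
        rw [Real.norm_eq_abs]
        refine huc (a (k + 1)) ⟨by linarith, h1⟩ t ⟨by linarith [ht.1], by linarith [ht.2]⟩ ?_
        rw [Real.dist_eq, abs_of_nonneg (by linarith [ht.2])]
        linarith [ht.1]
      · rw [hw, abs_of_nonneg (by positivity)]; ring
    · rw [Finset.sum_const, Finset.card_range, nsmul_eq_mul, mul_div_cancel₀ _ hN'.ne']; linarith
  · rw [show sSup sqrtLaw.support = top sqrtLaw from rfl, top_sqrtLaw]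
    have hlim : Tendsto (fun N : ℕ => -√(1 / (N:ℝ))) atTop (𝓝 0) := by
      simpa using ((Real.continuous_sqrt.tendsto 0).comp (tendsto_const_div_atTop_nhds_zero_nat 1)).neg
    refine hlim.congr' ?_
    filter_upwards [eventually_gt_atTop 0] with N hN
    have : Nonempty (Fin N) := ⟨⟨0, hN⟩⟩
    refine le_antisymm (le_trans (le_of_eq ?_) (le_ciSup (Set.finite_range _).bddAbove (⟨0, hN⟩ : Fin N))) (ciSup_le fun k => ?_)
    · simp [sqrtLam]
    · refine neg_le_neg (Real.sqrt_le_sqrt (div_le_div_of_nonneg_right ?_ (Nat.cast_nonneg N)))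
      linarith [Nat.cast_nonneg (α := ℝ) (k : ℕ)]
  · rw [support_sqrtLaw, csInf_Icc (by norm_num)]
    refine tendsto_const_nhds.congr' ?_
    filter_upwards [eventually_gt_atTop 0] with N hN
    have hN' : (0:ℝ) < N := by exact_mod_cast hN
    have : Nonempty (Fin N) := ⟨⟨0, hN⟩⟩
    refine le_antisymm (le_ciInf fun k => ?_) (le_trans (ciInf_le (Set.finite_range _).bddBelow (⟨N - 1, by omega⟩ : Fin N)) (le_of_eq ?_))
    · refine neg_le_neg (Real.sqrt_le_one.2 ((div_le_one hN').2 ?_))
      exact_mod_cast k.2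
    · simp only [sqrtLam]
      rw [show (((N - 1 : ℕ) : ℝ) + 1) = N by rw [Nat.cast_sub (by omega)]; simp, div_self hN'.ne', Real.sqrt_one]

/-- the example -/
theorem example_law : ∃ μ : Measure ℝ, IsProbabilityMeasure μ ∧ IsCompact μ.support ∧ edgeG μ = ENNReal.ofReal 2 ∧
    (∀ z, top μ < z → stiel μ z < 2 → 4 * (2 - stiel μ z) ^ 2 * stielSq μ z ≤ stiel μ z ^ 2 * (2 * 2 - stiel μ z) ^ 2) ∧
    ∃ lam : ∀ N : ℕ, Fin N → ℝ, Admissible μ lam :=
  ⟨sqrtLaw, inferInstance, by rw [support_sqrtLaw]; exact isCompact_Icc, edgeG_sqrtLaw, crit_sqrtLaw, sqrtLam, sqrtLam_admissible⟩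

end Vale.Agent.P166.Phase
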