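import Vale.Agent.P166.Phase.Rate
import Vale.Agent.P166.Phase.Binom

/-!
Spectral averages along admissible sequences, and the annealed upper bound.
-/

open MeasureTheory Filter Real
open scoped Topology

noncomputable section

namespace Vale.Agent.P166.Phase

variable {μ : Measure ℝ} [IsProbabilityMeasure μ] {lam : ∀ N : ℕ, Fin N → ℝ}

lemma lam_lt (h : Admissible μ lam) {z : ℝ} (hz : top μ < z) : ∀ᶠ N : ℕ in atTop, ∀ k, lam N k < z :=
  (h.2.1.eventually (eventually_lt_nhds hz)).mono fun N hN k =>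
    lt_of_le_of_lt (le_ciSup (Set.finite_range _).bddAbove k) hN

lemma lam_bdd (hμ : IsCompact μ.support) (h : Admissible μ lam) : ∀ᶠ N : ℕ in atTop, ∀ k, |lam N k| ≤ bnd μ :=
  edge_data hμ h

lemma avg_tendsto (hμ : IsCompact μ.support) (h : Admissible μ lam) {f : ℝ → ℝ} {c : ℝ} (hc : top μ < c)
    (hf : ContinuousOn f (Set.Icc (-bnd μ) c)) :
    Tendsto (fun N : ℕ => (∑ k, f (lam N k)) / (N:ℝ)) atTop (𝓝 (∫ x, f x ∂μ)) := by
  have hab : -bnd μ ≤ c := by
    have : |top μ| ≤ bnd μ := by unfold top bnd; linarith [abs_nonneg (sInf μ.support)]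
    linarith [(abs_le.1 this).1]
  set g := Set.IccExtend hab ((Set.Icc (-bnd μ) c).restrict f)
  have hgc : Continuous g := hf.restrict.Icc_extend'
  obtain ⟨B, hB⟩ := isCompact_Icc.exists_bound_of_continuousOn hf
  have hgb : ∀ x, ‖g x‖ ≤ B := fun x => hB _ (Subtype.coe_prop _)
  have hlim := h.1 (BoundedContinuousFunction.ofNormedAddCommGroup g hgc B hgb)
  have e1 : ∫ x, g x ∂μ = ∫ x, f x ∂μ := integral_congr_ae ((ae_mem hμ).mono fun x hx =>
    Set.IccExtend_of_mem hab _ (show x ∈ Set.Icc (-bnd μ) c from ⟨(abs_le.1 hx.2).1, by linarith⟩))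
  refine (show Tendsto (fun N : ℕ => (∑ k, g (lam N k)) / (N:ℝ)) atTop (𝓝 (∫ x, f x ∂μ)) from e1 ▸ hlim).congr' ?_
  filter_upwards [lam_bdd hμ h, lam_lt h hc] with N h1 h2
  congr 1
  exact Finset.sum_congr rfl fun k _ =>
    Set.IccExtend_of_mem hab _ (show lam N k ∈ Set.Icc (-bnd μ) c from ⟨(abs_le.1 (h1 k)).1, (h2 k).le⟩)

/-- finite Stieltjes sums -/
def stielN {N : ℕ} (v : Fin N → ℝ) (z : ℝ) : ℝ := (∑ k, (z - v k)⁻¹) / N

/-- finite second-order sums -/
def stielSqN {N : ℕ} (v : Fin N → ℝ) (z : ℝ) : ℝ := (∑ k, ((z - v k) ^ 2)⁻¹) / N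

lemma spectral_tendsto (hμ : IsCompact μ.support) (h : Admissible μ lam) {z : ℝ} (hz : top μ < z) :
    Tendsto (fun N : ℕ => stielN (lam N) z) atTop (𝓝 (stiel μ z)) ∧
    Tendsto (fun N : ℕ => stielSqN (lam N) z) atTop (𝓝 (stielSq μ z)) ∧
    ∀ θ, Tendsto (fun N : ℕ => psi (lam N) θ z) atTop (𝓝 (rate μ θ z)) := by
  set c := (top μ + z) / 2
  have hc : top μ < c := by simp only [c]; linarith
  have hne : ∀ x ∈ Set.Icc (-bnd μ) c, 0 < z - x := fun x hx => by
    have := hx.2; simp only [c] at this; linarith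
  refine ⟨avg_tendsto hμ h hc ((continuousOn_const.sub continuousOn_id).inv₀ fun x hx => (hne x hx).ne'),
    avg_tendsto hμ h hc (((continuousOn_const.sub continuousOn_id).pow 2).inv₀ fun x hx => (pow_pos (hne x hx) 2).ne'),
    fun θ => ?_⟩
  exact ((avg_tendsto hμ h hc (f := fun x => log (z - x))
    ((continuousOn_const.sub continuousOn_id).log fun x hx => (hne x hx).ne')).const_sub _).div_const 2

variable {ν : ∀ N : ℕ, Measure (Mat N)}

/-- the annealed upper bound -/
theorem upper_prob (hμ : IsCompact μ.support) (h : Admissible μ lam) (hν : ∀ N, IsHaarOrthogonal (ν N))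
    {β : ℝ} (hβ : 0 < β) {ε : ℝ} (hε : 0 < ε) :
    Tendsto (fun N : ℕ => (ν N).real {U | annealed μ β + ε ≤ pressure β (lam N) U}) atTop (𝓝 0) := by
  have : Nonempty (Set.Ioi (top μ)) := ⟨⟨top μ + 1, by simp⟩⟩
  obtain ⟨⟨z, hz⟩, hzr⟩ := exists_lt_of_ciInf_lt (show annealed μ β < annealed μ β + ε / 4 by linarith)
  have hlim : Tendsto (fun N : ℕ => exp (-((N:ℝ) * (ε / 2)))) atTop (𝓝 0) :=
    tendsto_exp_atBot.comp (tendsto_neg_atTop_atBot.comp (tendsto_natCast_atTop_atTop.atTop_mul_const (by linarith)))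
  refine squeeze_zero' (Eventually.of_forall fun N => measureReal_nonneg) ?_ hlim
  filter_upwards [eventually_gt_atTop 0, lam_lt h hz,
    ((spectral_tendsto hμ h hz).2.2 β).eventually (eventually_lt_nhds
      (show rate μ β z < annealed μ β + ε / 2 from hzr.trans (by linarith)))] with N hN hlt hpsi
  have := (hν N).1
  have hN' : (0:ℝ) < N := by exact_mod_cast hN
  obtain ⟨hi, hv⟩ := first_moment (hν N) hN β (lam N)
  have hm := mul_meas_ge_le_integral_of_nonneg (Eventually.of_forall fun U => (part_pos β (lam N) U).le) hi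
    (exp (N * (annealed μ β + ε)))
  have hset : {U | annealed μ β + ε ≤ pressure β (lam N) U} = {U | exp (N * (annealed μ β + ε)) ≤ part β (lam N) U} := by
    ext U
    simp only [Set.mem_ofPred_eq, pressure_part, one_div, ← le_log_iff_exp_le (part_pos β (lam N) U)]
    rw [le_inv_mul_iff₀ hN']
  rw [hv, ← hset] at hm
  have h2 := hm.trans ((sint_upper (hν N) hN hβ hlt).trans (exp_le_exp.2 (mul_le_mul_of_nonneg_left hpsi.le hN'.le)))
  refine le_of_mul_le_mul_left (h2.trans (le_of_eq ?_)) (exp_pos (N * (annealed μ β + ε)))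
  rw [← exp_add]; congr 1; ring

end Vale.Agent.P166.Phase
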