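import Vale.Agent.P166.Phase.Band
import Vale.Agent.P166.Phase.Weak

/-!
Strict gap to the annealed value beyond the edge.
-/

open MeasureTheory Filter Real
open scoped Topology ENNReal

noncomputable section

namespace Vale.Agent.P166.Phase

variable {μ : Measure ℝ} [IsProbabilityMeasure μ] {lam : ∀ N : ℕ, Fin N → ℝ} {ν : ∀ N : ℕ, Measure (Mat N)}

lemma edge_finite (hμ : IsCompact μ.support) {β : ℝ} (hG : edgeG μ < ENNReal.ofReal β) :
    (∀ᵐ x ∂μ, x < top μ) ∧ Integrable (fun x => (top μ - x)⁻¹) μ ∧ ∫ x, (top μ - x)⁻¹ ∂μ < β := by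
  have hne : edgeG μ ≠ ∞ := (hG.trans ENNReal.ofReal_lt_top).ne
  have hm : Measurable fun x => (ENNReal.ofReal (top μ - x))⁻¹ := (ENNReal.measurable_ofReal.comp (by fun_prop)).inv
  have hlt : ∀ᵐ x ∂μ, x < top μ := (ae_lt_top hm hne).mono fun x hx => by
    by_contra h
    simp [ENNReal.ofReal_of_nonpos (sub_nonpos.2 (not_lt.1 h))] at hx
  have hpos : ∀ᵐ x ∂μ, 0 ≤ (top μ - x)⁻¹ := hlt.mono fun x hx => inv_nonneg.2 (by linarith)
  have e : ∫⁻ x, ENNReal.ofReal (top μ - x)⁻¹ ∂μ = edgeG μ :=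
    lintegral_congr_ae (hlt.mono fun x hx => ENNReal.ofReal_inv_of_pos (by linarith))
  have hi : Integrable (fun x => (top μ - x)⁻¹) μ :=
    (lintegral_ofReal_ne_top_iff_integrable (by fun_prop : Measurable _).aestronglyMeasurable hpos).1 (e ▸ hne)
  refine ⟨hlt, hi, ?_⟩
  rw [← ofReal_integral_eq_lintegral_ofReal hi hpos] at e
  rw [← e] at hG
  exact (ENNReal.ofReal_lt_ofReal_iff_of_nonneg (integral_nonneg_of_ae hpos)).1 hG

/-- kernel with the band pushed down -/
def cut (b η x : ℝ) : ℝ := b - η / 2 - min x (b - η)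

lemma cut_pos {b η : ℝ} (hη : 0 < η) (x : ℝ) : η / 2 ≤ cut b η x := by
  unfold cut; linarith [min_le_right x (b - η)]

lemma cut_edge {b η x : ℝ} (hη : 0 < η) : (b - x) / 2 ≤ cut b η x := by
  unfold cut
  rcases min_cases x (b - η) with ⟨h1, h2⟩ | ⟨h1, h2⟩ <;> rw [h1] <;> linarith

lemma band_scale {β : ℝ} (hμ : IsCompact μ.support) (hG : edgeG μ < ENNReal.ofReal β) {G' : ℝ}
    (hG' : ∫ x, (top μ - x)⁻¹ ∂μ < G') {ε r : ℝ} (hε : 0 < ε) (hr : 0 < r) :
    ∃ η, 0 < η ∧ η ≤ r ∧ ∫ x, (cut (top μ) η x)⁻¹ ∂μ < G' ∧ ∫ x, ramp (top μ - 2 * η) η x ∂μ < ε := by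
  obtain ⟨hlt, hi, -⟩ := edge_finite hμ hG
  set b := top μ
  set e := fun n : ℕ => 1 / ((n:ℝ) + 1)
  have he : ∀ n, 0 < e n := fun n => by positivity
  have he0 : Tendsto e atTop (𝓝 0) := tendsto_one_div_add_atTop_nhds_zero_nat
  have h1 : Tendsto (fun n => ∫ x, (cut b (e n) x)⁻¹ ∂μ) atTop (𝓝 (∫ x, (b - x)⁻¹ ∂μ)) := by
    refine tendsto_integral_of_dominated_convergence (fun x => 2 * (b - x)⁻¹)
      (fun n => (by unfold cut; fun_prop : Measurable fun x => (cut b (e n) x)⁻¹).aestronglyMeasurable) (hi.const_mul 2)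
      (fun n => hlt.mono fun x hx => ?_) (hlt.mono fun x hx => ?_)
    · have h := cut_pos (b := b) (he n) x
      rw [norm_eq_abs, abs_inv, abs_of_pos (lt_of_lt_of_le (half_pos (he n)) h)]
      refine (inv_anti₀ (half_pos (sub_pos.2 hx)) (cut_edge (he n))).trans (le_of_eq ?_)
      rw [inv_div]; ring
    · refine Tendsto.inv₀ ?_ (sub_ne_zero.2 hx.ne')
      refine (show Tendsto (fun n => b - e n / 2 - x) atTop (𝓝 (b - x)) by
        simpa using ((he0.div_const 2).const_sub b).sub_const x).congr' ?_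
      filter_upwards [he0.eventually (eventually_lt_nhds (sub_pos.2 hx))] with n hn
      rw [cut, min_eq_left (by linarith)]
  have h2 : Tendsto (fun n => ∫ x, ramp (b - 2 * e n) (e n) x ∂μ) atTop (𝓝 0) := by
    have h := tendsto_integral_of_dominated_convergence (μ := μ) (F := fun n x => ramp (b - 2 * e n) (e n) x)
      (f := fun _ => (0:ℝ)) (fun _ => 1)
      (fun n => (ramp (b - 2 * e n) (e n)).continuous.aestronglyMeasurable) (integrable_const 1)
      (fun n => .of_forall fun x => by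
        rw [norm_eq_abs, abs_of_nonneg (ramp_nonneg _ _ _)]; exact ramp_le_one _ _ _)
      (hlt.mono fun x hx => tendsto_const_nhds.congr' ?_)
    · simpa using h
    · filter_upwards [he0.eventually (eventually_lt_nhds (half_pos (sub_pos.2 hx)))] with n hn
      rw [ramp_eq_zero (he n) (by linarith)]
  obtain ⟨n, ⟨a1, a2⟩, a3⟩ := (((h1.eventually (eventually_lt_nhds hG')).and (h2.eventually (eventually_lt_nhds hε))).and
    (he0.eventually (eventually_le_nhds hr))).exists
  exact ⟨e n, he n, a3, a1, a2⟩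

lemma annealed_lower (hμ : IsCompact μ.support) {β τ : ℝ} (hβ : 0 < β) (hτ : 0 < τ)
    (hG : stiel μ (top μ + τ) ≤ β) : rate μ β (top μ + τ) - β * τ / 2 ≤ annealed μ β := by
  have : Nonempty (Set.Ioi (top μ)) := ⟨⟨top μ + 1, by simp⟩⟩
  refine le_ciInf fun z => ?_
  have hz : top μ < top μ + τ := by linarith
  have h := rate_tangent hμ (θ := β) z.2 hz
  obtain ⟨hg0, -⟩ := stiel_pos hμ hz
  have hzb : top μ < (z : ℝ) := z.2
  have h1 : -(β * τ) ≤ (β - stiel μ (top μ + τ)) * ((z:ℝ) - (top μ + τ)) := by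
    rcases le_total (top μ + τ) (z:ℝ) with hh | hh
    · exact le_trans (by linarith [mul_pos hβ hτ]) (mul_nonneg (sub_nonneg.2 hG) (sub_nonneg.2 hh))
    · have := mul_le_mul (show β - stiel μ (top μ + τ) ≤ β by linarith) (show top μ + τ - (z:ℝ) ≤ τ by linarith)
        (sub_nonneg.2 hh) hβ.le
      linarith
  linarith

/-- the spectral part of the gap -/
lemma spectral_gap (hμ : IsCompact μ.support) (h : Admissible μ lam) {β G' c0 η : ℝ}
    (hβ : 0 < β) (hG : edgeG μ < ENNReal.ofReal β) (hG' : G' < β) (hc : 0 < c0) (hc' : c0 * (2 * β + G') ≤ (β - G') / 4)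
    (hc1 : c0 ≤ 1) (hη : 0 < η) (hcut : ∫ x, (cut (top μ) η x)⁻¹ ∂μ < G') {ρ : ℝ} (hρ : 0 < ρ) (hηρ : β * c0 * η ≤ ρ) :
    ∀ᶠ N : ℕ in atTop,
      psi (fun k => min (lam N k) (top μ - η)) β (top μ - η / 2) + β * (η + c0 * η) * c0 / 2 ≤
        annealed μ β - η * (β - G') / 16 ∧
      (∀ k, lam N k < top μ + c0 * η) ∧ psi (lam N) β (top μ + c0 * η) ≤ annealed μ β + ρ := by
  set b := top μ
  set τ := c0 * η
  have hτ : 0 < τ := mul_pos hc hη
  have hz : b < b + τ := by linarith
  obtain ⟨hlt, hi, hGβ⟩ := edge_finite hμ hG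
  have hst : stiel μ (b + τ) ≤ β := by
    refine le_trans (integral_mono_ae (integrable_kernels hμ hz).1 hi (hlt.mono fun x hx => ?_)) hGβ.le
    exact inv_anti₀ (by linarith) (by linarith)
  have hA := annealed_lower hμ hβ hτ hst
  set f2 := fun x => log (cut b η x)
  have hf2 : Continuous f2 :=
    Continuous.log (by unfold cut; fun_prop) fun x => (lt_of_lt_of_le (half_pos hη) (cut_pos hη x)).ne'
  have t2 := avg_tendsto hμ h hz hf2.continuousOn
  have hcb : ∀ᵐ x ∂μ, x ≤ b ∧ |x| ≤ bnd μ := ae_mem hμ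
  have i2 : Integrable f2 μ := by
    obtain ⟨C, hC⟩ := isCompact_Icc.exists_bound_of_continuousOn (hf2.continuousOn (s := Set.Icc (-bnd μ) (bnd μ)))
    exact Integrable.of_bound hf2.aestronglyMeasurable C
      (hcb.mono fun x hx => hC x ⟨(abs_le.1 hx.2).1, (abs_le.1 hx.2).2⟩)
  have i1 : Integrable (fun x => (cut b η x)⁻¹) μ :=
    Integrable.of_bound (by unfold cut; fun_prop : Measurable fun x => (cut b η x)⁻¹).aestronglyMeasurable (η / 2)⁻¹
      (.of_forall fun x => by
        rw [norm_eq_abs, abs_inv, abs_of_pos (lt_of_lt_of_le (half_pos hη) (cut_pos hη x))]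
        exact inv_anti₀ (half_pos hη) (cut_pos hη x))
  have i0 := (integrable_kernels hμ hz).2.2.1
  have hJ : ∫ x, log (b + τ - x) ∂μ - ∫ x, f2 x ∂μ ≤ (τ + η / 2) * ∫ x, (cut b η x)⁻¹ ∂μ := by
    rw [← integral_sub i0 i2, ← integral_const_mul]
    refine integral_mono_ae (i0.sub i2) (i1.const_mul _) (hcb.mono fun x hx => ?_)
    have hc0 := lt_of_lt_of_le (half_pos hη) (cut_pos (b := b) hη x)
    have hn : 0 < b + τ - x := by linarith [hx.1]
    show log (b + τ - x) - log (cut b η x) ≤ (τ + η / 2) * (cut b η x)⁻¹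
    rw [← log_div hn.ne' hc0.ne']
    refine (log_le_sub_one_of_pos (div_pos hn hc0)).trans ?_
    rw [div_sub_one hc0.ne', div_eq_mul_inv]
    refine mul_le_mul_of_nonneg_right ?_ (inv_nonneg.2 hc0.le)
    unfold cut; linarith [min_le_left x (b - η)]
  have hpsi2 : Tendsto (fun N : ℕ => psi (fun k => min (lam N k) (b - η)) β (b - η / 2)) atTop
      (𝓝 ((β * (b - η / 2) - 1 - log β - ∫ x, f2 x ∂μ) / 2)) := (t2.const_sub _).div_const 2
  have key : (β * (b - η / 2) - 1 - log β - ∫ x, f2 x ∂μ) / 2 + β * (η + τ) * c0 / 2 ≤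
      annealed μ β - η * (β - G') / 8 := by
    have h1 := mul_le_mul_of_nonneg_left hcut.le (show 0 ≤ τ + η / 2 by linarith)
    have h2 := mul_le_mul_of_nonneg_left hc' hη.le
    have h3 := mul_le_mul_of_nonneg_left hc1 (show 0 ≤ β * c0 * η by positivity)
    simp only [rate] at hA
    simp only [τ] at *
    linarith
  have hpos : 0 < η * (β - G') / 16 := by have := sub_pos.2 hG'; positivity
  filter_upwards [lam_lt h hz, hpsi2.eventually (eventually_le_nhds (lt_add_of_pos_right _ hpos)),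
    ((spectral_tendsto hμ h hz).2.2 β).eventually (eventually_le_nhds (show rate μ β (b + τ) < rate μ β (b + τ) + ρ / 2 by linarith))]
    with N h1 h2 h3
  refine ⟨by linarith, h1, ?_⟩
  have : β * τ = β * c0 * η := by simp only [τ]; ring
  linarith

lemma energy_band {N : ℕ} (hN : 0 < N) {β : ℝ} (hβ : 0 ≤ β) {v : Fin N → ℝ} {a d : ℝ} (hd : ∀ k, v k ≤ a + d)
    (hd0 : 0 ≤ d) (U : Mat N) (σ : Fin N → Bool) :
    energy β v U σ ≤ energy β (fun k => min (v k) a) U σ +
      (N:ℝ) * β / 2 * (d * bmass (Finset.univ.filter fun k => a < v k) U σ) := by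
  rw [energy_qf hN, energy_qf hN, ← mul_add]
  refine mul_le_mul_of_nonneg_left ?_ (by positivity)
  rw [qf, qf, bmass, Finset.mul_sum, Finset.sum_filter, ← Finset.sum_add_distrib]
  refine Finset.sum_le_sum fun k _ => ?_
  split_ifs with hk
  · rw [min_eq_right hk.le, ← add_mul]
    exact mul_le_mul_of_nonneg_right (hd k) (sq_nonneg _)
  · rw [min_eq_left (not_lt.1 hk), add_zero]

/-- beyond the edge the pressure stays below the annealed value -/
theorem gap_prob (hμ : IsCompact μ.support) (h : Admissible μ lam) (hν : ∀ N, IsHaarOrthogonal (ν N))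
    {β : ℝ} (hG : edgeG μ < ENNReal.ofReal β) :
    ∃ d, 0 < d ∧ Tendsto (fun N : ℕ => (ν N).real {U | annealed μ β - d ≤ pressure β (lam N) U}) atTop (𝓝 0) := by
  obtain ⟨hlt, hi, hGβ⟩ := edge_finite hμ hG
  set G0 := ∫ x, (top μ - x)⁻¹ ∂μ
  have hG0 : 0 ≤ G0 := integral_nonneg_of_ae (hlt.mono fun x hx => inv_nonneg.2 (by linarith))
  have hβ : 0 < β := lt_of_le_of_lt hG0 hGβ
  set G' := (G0 + β) / 2
  have hG' : G' < β := by simp only [G']; linarith
  have hG'0 : G0 < G' := by simp only [G']; linarith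
  have hden : 0 < 2 * β + G' := by simp only [G']; linarith
  set c0 := (β - G') / (4 * (2 * β + G'))
  have hc0 : 0 < c0 := div_pos (by linarith) (by linarith)
  have hc0' : c0 * (2 * β + G') ≤ (β - G') / 4 :=
    le_of_eq (by simp only [c0]; field_simp; exact mul_div_cancel_right₀ _ (by linarith))
  have hc01 : c0 ≤ 1 := by
    simp only [c0]; rw [div_le_one (by linarith)]; linarith
  set δ := exp (-(1 / 2)) * c0 ^ 2 / 480
  have hδ : 0 < δ := by positivity
  have hδ2 : δ ≤ 1 / 2 := by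
    have h1 : exp (-(1 / 2)) * c0 ^ 2 ≤ 1 := mul_le_one₀ (exp_le_one_iff.2 (by norm_num)) (sq_nonneg _) (pow_le_one₀ hc0.le hc01)
    simp only [δ]; linarith
  obtain ⟨ρ1, hρ1, hsph⟩ := sph_cos_tail hδ hδ2
  obtain ⟨ρ2, hρ2, hperp⟩ := perp_cos_tail hδ hδ2 hc0.le
  set thr := exp (-(1 / 2)) - 7 * δ
  have hthr : exp (-(1 / 2)) * (1 - c0 ^ 2 / 32) + 7 * δ ≤ thr - δ := by simp only [thr, δ]; linarith
  set R0 := 2 / δ ^ 2 + 1
  have hR0 : 0 < R0 := by positivity
  set ε := ρ1 / (2 * (R0 + 2))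
  have hε : 0 < ε := by positivity
  obtain ⟨η, hη, hηr, hcut, hband⟩ := band_scale hμ hG hG'0 hε (show 0 < ρ2 / (2 * β * c0) by positivity)
  have hηρ : β * c0 * η ≤ ρ2 / 2 := by
    refine le_trans (mul_le_mul_of_nonneg_left hηr (by positivity)) (le_of_eq ?_)
    field_simp
  set d := min (η * (β - G') / 16) (ρ2 / 2)
  have hd : 0 < d := lt_min (by have := sub_pos.2 hG'; positivity) (by linarith)
  refine ⟨d / 2, by linarith, ?_⟩
  have hlim : Tendsto (fun N : ℕ => 5 * exp (-((N:ℝ) * (ρ1 / 2))) + 6 * exp (-((N:ℝ) * (d / 2)))) atTop (𝓝 0) := by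
    have t : ∀ r : ℝ, 0 < r → Tendsto (fun N : ℕ => exp (-((N:ℝ) * r))) atTop (𝓝 0) := fun r hr =>
      tendsto_exp_atBot.comp (tendsto_neg_atTop_atBot.comp (tendsto_natCast_atTop_atTop.atTop_mul_const hr))
    simpa using ((t _ (half_pos hρ1)).const_mul 5).add ((t _ (half_pos hd)).const_mul 6)
  refine squeeze_zero' (.of_forall fun N => measureReal_nonneg) ?_ hlim
  have hramp := h.1 (ramp (top μ - 2 * η) η)
  filter_upwards [spectral_gap hμ h hβ hG hG' hc0 hc0' hc01 hη hcut (half_pos hρ2) hηρ,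
    hramp.eventually (eventually_lt_nhds hband), eventually_ge_atTop 2] with N ⟨hp2, hlam, hp1⟩ hcard hN
  have hN0 : 0 < N := by omega
  have hN' : (0:ℝ) < N := by exact_mod_cast hN0
  have := (hν N).1
  set a := top μ - η
  set K := Finset.univ.filter fun k => a < lam N k
  have hK : (K.card : ℝ) ≤ ε * N := by
    rw [div_lt_iff₀ hN'] at hcard
    refine le_trans ?_ hcard.le
    rw [Finset.cast_card]
    refine (Finset.sum_le_sum fun k hk => (le_of_eq (ramp_eq_one hη ?_).symm)).trans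
      (Finset.sum_le_sum_of_subset_of_nonneg (Finset.subset_univ K) fun k _ _ => ramp_nonneg _ _ _)
    have := (Finset.mem_filter.1 hk).2
    simp only [a] at this; linarith
  set M := ⌈R0 * K.card⌉₊
  set R := R0 * K.card
  set B := Bad K M R thr
  have hBm : MeasurableSet B := measurableSet_bad K M R thr
  have hB : (ν N).real B ≤ 5 * exp (-((N:ℝ) * (ρ1 / 2))) := by
    refine (bad_prob (hν N) hN0 K M R (hsph N hN0)).trans ?_
    rw [mul_left_comm, ← exp_add]
    refine mul_le_mul_of_nonneg_left (exp_le_exp.2 ?_) (by norm_num)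
    have h1 := mul_le_mul_of_nonneg_left hK (show 0 ≤ R0 + 2 by linarith)
    rw [← mul_assoc, show (R0 + 2) * ε = ρ1 / 2 by simp only [ε]; field_simp] at h1
    simp only [R]; linarith
  -- the restricted first moment
  set lam' := fun k => min (lam N k) a
  set C := exp ((N:ℝ) * β / 2 * ((η + c0 * η) * c0))
  set X := fun σ => ({U : Mat N | c0 ≤ bmass K U σ} ∩ Bᶜ).indicator fun U => exp (energy β (lam N) U σ)
  have iX : ∀ σ, Integrable (X σ) (ν N) := fun σ =>
    (integrable_exp_energy (hν N) β (lam N) σ).indicator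
      ((measurableSet_le measurable_const (by unfold bmass app; fun_prop)).inter hBm.compl)
  have hpt : ∀ U ∈ Bᶜ, part β (lam N) U ≤ C * part β lam' U + ((2:ℝ) ^ N)⁻¹ * ∑ σ, X σ U := fun U hU => by
    simp only [part]
    rw [mul_left_comm C, ← mul_add]
    refine mul_le_mul_of_nonneg_left ?_ (by positivity)
    rw [Finset.mul_sum, ← Finset.sum_add_distrib]
    refine Finset.sum_le_sum fun σ _ => ?_
    by_cases hF : c0 ≤ bmass K U σ
    · simp only [X, Set.indicator_of_mem (show U ∈ {U : Mat N | c0 ≤ bmass K U σ} ∩ Bᶜ from ⟨hF, hU⟩)]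
      exact le_add_of_nonneg_left (mul_pos (exp_pos _) (exp_pos _)).le
    · simp only [X, Set.indicator_of_notMem (show U ∉ {U : Mat N | c0 ≤ bmass K U σ} ∩ Bᶜ from fun h => hF h.1), add_zero, C]
      rw [← exp_add]
      refine exp_le_exp.2 ?_
      have he := energy_band hN0 hβ.le (v := lam N) (a := a) (d := η + c0 * η)
        (fun k => by have := hlam k; simp only [a]; linarith) (by positivity) U σ
      have hF' := mul_le_mul_of_nonneg_left (not_le.1 hF).le
        (show 0 ≤ (N:ℝ) * β / 2 * (η + c0 * η) by positivity)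
      linarith
  obtain ⟨ip1, hip1⟩ := first_moment (hν N) hN0 β lam'
  obtain ⟨ip0, hip0⟩ := first_moment (hν N) hN0 β (lam N)
  have hX : ∀ σ, ∫ U, X σ U ∂ν N ≤ 5 * exp (-((N:ℝ) * ρ2)) * ∫ U, exp (energy β (lam N) U σ) ∂ν N := fun σ =>
    planted (hν N) hN K β (lam N) σ hc0 hδ (by linarith) (Nat.le_ceil _) (by positivity) fun c hc hc1 =>
      le_trans (measureReal_mono fun r hr => le_trans hthr hr) (hperp N hN0 σ c hc hc1)
  have hmean : ∫ U, Bᶜ.indicator (part β (lam N)) U ∂ν N ≤ 6 * exp (N * (annealed μ β - d)) := by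
    have iS := (integrable_finsetSum Finset.univ fun σ _ => iX σ).const_mul (((2:ℝ) ^ N)⁻¹)
    refine (integral_mono_of_nonneg (.of_forall fun U => Set.indicator_nonneg (fun U _ => (part_pos _ _ U).le) U)
      ((ip1.const_mul C).add iS) (.of_forall fun U => ?_)).trans ?_
    · simp only [Pi.add_apply]
      by_cases hU : U ∈ Bᶜ
      · rw [Set.indicator_of_mem hU]; exact hpt U hU
      · rw [Set.indicator_of_notMem hU]
        exact add_nonneg (mul_pos (exp_pos _) (part_pos _ _ U)).le (mul_nonneg (by positivity)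
          (Finset.sum_nonneg fun σ _ => Set.indicator_nonneg (fun _ _ => (exp_pos _).le) _))
    · simp only [Pi.add_apply]
      rw [integral_add (ip1.const_mul C) iS, integral_const_mul, integral_const_mul, hip1,
        integral_finsetSum _ fun σ _ => iX σ]
      have h1 : C * sint lam' β ≤ exp (N * (annealed μ β - d)) := by
        refine (mul_le_mul_of_nonneg_left (sint_upper (hν N) hN0 hβ (z := top μ - η / 2) fun k => ?_) (exp_pos _).le).trans ?_
        · exact lt_of_le_of_lt (min_le_right _ _) (by simp only [a]; linarith)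
        · rw [← exp_add]
          refine exp_le_exp.2 ?_
          have hd1 : d ≤ η * (β - G') / 16 := min_le_left _ _
          have := mul_le_mul_of_nonneg_left (show psi lam' β (top μ - η / 2) + β * (η + c0 * η) * c0 / 2 ≤
            annealed μ β - d by simp only [lam', a]; linarith) hN'.le
          linarith
      have h2 : ((2:ℝ) ^ N)⁻¹ * ∑ σ, ∫ U, X σ U ∂ν N ≤ 5 * exp (N * (annealed μ β - d)) := by
        refine (mul_le_mul_of_nonneg_left (Finset.sum_le_sum fun σ _ => hX σ) (by positivity)).trans ?_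
        rw [← Finset.mul_sum, mul_left_comm]
        have e : ((2:ℝ) ^ N)⁻¹ * ∑ σ : Fin N → Bool, ∫ U, exp (energy β (lam N) U σ) ∂ν N = sint (lam N) β := by
          rw [← hip0]
          simp only [part]
          rw [integral_const_mul, integral_finsetSum _ fun σ _ => integrable_exp_energy (hν N) β (lam N) σ]
        rw [e, mul_assoc]
        refine mul_le_mul_of_nonneg_left ?_ (by norm_num)
        refine (mul_le_mul_of_nonneg_left (sint_upper (hν N) hN0 hβ hlam) (exp_pos _).le).trans ?_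
        rw [← exp_add]
        refine exp_le_exp.2 ?_
        have hd2 : d ≤ ρ2 / 2 := min_le_right _ _
        have := mul_le_mul_of_nonneg_left (show psi (lam N) β (top μ + c0 * η) - ρ2 ≤ annealed μ β - d by linarith) hN'.le
        linarith
      linarith
  have hgood : (ν N).real ({U | annealed μ β - d / 2 ≤ pressure β (lam N) U} ∩ Bᶜ) ≤ 6 * exp (-((N:ℝ) * (d / 2))) := by
    have hm := mul_meas_ge_le_integral_of_nonneg (μ := ν N)
      (.of_forall fun U => Set.indicator_nonneg (s := Bᶜ) (f := part β (lam N)) (fun U _ => (part_pos _ _ U).le) U)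
      (ip0.indicator hBm.compl) (exp (N * (annealed μ β - d / 2)))
    have hsub : {U | annealed μ β - d / 2 ≤ pressure β (lam N) U} ∩ Bᶜ ⊆
        {U | exp (N * (annealed μ β - d / 2)) ≤ Bᶜ.indicator (part β (lam N)) U} := fun U ⟨hU, hUB⟩ => by
      simp only [Set.mem_ofPred_eq] at hU ⊢
      rw [Set.indicator_of_mem hUB, ← le_log_iff_exp_le (part_pos β (lam N) U)]
      rwa [pressure_part, one_div, le_inv_mul_iff₀ hN'] at hU
    refine (measureReal_mono hsub).trans (le_of_mul_le_mul_left ((hm.trans hmean).trans (le_of_eq ?_))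
      (exp_pos (N * (annealed μ β - d / 2))))
    rw [mul_left_comm, ← exp_add]; congr 2; ring
  refine le_trans (measureReal_mono (s₂ := B ∪ ({U | annealed μ β - d / 2 ≤ pressure β (lam N) U} ∩ Bᶜ)) fun U hU => ?_)
    ((measureReal_union_le _ _).trans (add_le_add hB hgood))
  by_cases hUB : U ∈ B
  · exact Or.inl hUB
  · exact Or.inr ⟨hU, hUB⟩

end Vale.Agent.P166.Phase
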