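import Vale.Agent.P166.Phase.Converge
import Vale.Agent.P166.Phase.Gap

/-!
The exact threshold of the annealed phase.
-/

open MeasureTheory Filter Real
open scoped Topology ENNReal

noncomputable section

namespace Vale.Agent.P166.Phase

variable {μ : Measure ℝ} [IsProbabilityMeasure μ] {lam : ∀ N : ℕ, Fin N → ℝ} {ν : ∀ N : ℕ, Measure (Mat N)}

lemma pressure_lip {N : ℕ} (hN : 0 < N) {β β' L : ℝ} {v : Fin N → ℝ} (hL : ∀ k, |v k| ≤ L) {U : Mat N}
    (hU : Orth U) : pressure β' v U ≤ pressure β v U + |β' - β| * L / 2 := by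
  have hN' : (0:ℝ) < N := by exact_mod_cast hN
  have hL0 : 0 ≤ L := (abs_nonneg _).trans (hL ⟨0, hN⟩)
  have hp : part β' v U ≤ exp ((N:ℝ) * (|β' - β| * L / 2)) * part β v U := by
    rw [part, part, mul_left_comm, Finset.mul_sum Finset.univ _ (exp _)]
    refine mul_le_mul_of_nonneg_left (Finset.sum_le_sum fun σ _ => ?_) (by positivity)
    rw [← exp_add]
    refine exp_le_exp.2 ?_
    have h := abs_qf_le (x := app U (sv σ)) hL
    rw [ip_app hU, ip_sv hN, mul_one] at h
    have h1 : (β' - β) * qf v (app U (sv σ)) ≤ |β' - β| * L := by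
      refine (le_abs_self _).trans ?_
      rw [abs_mul]; exact mul_le_mul_of_nonneg_left h (abs_nonneg _)
    have := mul_le_mul_of_nonneg_left h1 (show 0 ≤ (N:ℝ) / 2 by positivity)
    rw [energy_qf hN, energy_qf hN]
    linarith
  have h := log_le_log (part_pos _ _ _) hp
  rw [log_mul (exp_pos _).ne' (part_pos _ _ _).ne', log_exp] at h
  rw [pressure_part, pressure_part, one_div]
  refine (mul_le_mul_of_nonneg_left h (inv_nonneg.2 hN'.le)).trans (le_of_eq ?_)
  field_simp; ring

/-- convergence at the edge itself, by continuity -/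
lemma edge_phase (hμ : IsCompact μ.support) (h : Admissible μ lam) (hν : ∀ N, IsHaarOrthogonal (ν N))
    {g : ℝ} (hg : 0 < g) (hG : edgeG μ = ENNReal.ofReal g)
    (hc : ∀ z, top μ < z → stiel μ z < g →
      4 * (g - stiel μ z) ^ 2 * stielSq μ z ≤ stiel μ z ^ 2 * (2 * g - stiel μ z) ^ 2)
    {ε : ℝ} (hε : 0 < ε) :
    Tendsto (fun N : ℕ => (ν N).real {U | ε ≤ |pressure g (lam N) U - annealed μ g|}) atTop (𝓝 0) := by
  set B := bnd μ + 2 / g
  have hB : 0 < B := add_pos bnd_pos (by positivity)
  set Δ := min (g / 2) (ε / (2 * B))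
  have hΔ : 0 < Δ := lt_min (by linarith) (by positivity)
  have hΔg : Δ ≤ g / 2 := min_le_left _ _
  have hΔe : Δ * B ≤ ε / 2 := by
    refine (mul_le_mul_of_nonneg_right (min_le_right _ _) hB.le).trans (le_of_eq ?_)
    field_simp
  set β := g - Δ
  have hβ : 0 < β := by simp only [β]; linarith
  have hβg : β < g := by simp only [β]; linarith
  have hGβ : ENNReal.ofReal β < edgeG μ := hG ▸ (ENNReal.ofReal_lt_ofReal_iff hg).2 hβg
  have hlow := annealed_phase hμ h hν hβ hGβ (crit_mono hμ hβg hc) (show 0 < ε / 4 by linarith)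
  have hup := upper_prob hμ h hν hg hε
  obtain ⟨z, hz, hzv⟩ := exists_crit hμ hβ hGβ
  have hzB : |z| ≤ B := by
    have h1 := stiel_le hμ hz
    rw [hzv, le_inv_comm₀ hβ (sub_pos.2 hz)] at h1
    have h2 : β⁻¹ ≤ 2 / g := by rw [← inv_div]; exact inv_anti₀ (by linarith) (by simp only [β]; linarith)
    have h3 : |top μ| ≤ bnd μ := by unfold top bnd; linarith [abs_nonneg (sInf μ.support)]
    have := abs_le.1 h3
    have : 0 < 2 / g := by positivity
    rw [abs_le]; constructor <;> simp only [B] <;> linarith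
  have hA : annealed μ g - Δ * B / 2 ≤ annealed μ β := by
    rw [annealed_eq hμ hz hzv]
    have hb : BddBelow (Set.range fun z : Set.Ioi (top μ) => rate μ g z) := by
      refine ⟨rate μ g z - g * (z - top μ) / 2, ?_⟩
      rintro _ ⟨w, rfl⟩
      have h1 := rate_tangent hμ (θ := g) w.2 hz
      rw [hzv] at h1
      have hw : top μ < (w:ℝ) := w.2
      have a1 := mul_le_mul_of_nonneg_left (show top μ - z ≤ (w:ℝ) - z by linarith) (sub_nonneg.2 hβg.le)
      have a2 := mul_le_mul_of_nonneg_right (show g - β ≤ g by linarith) (sub_nonneg.2 hz.le)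
      show rate μ g z - g * (z - top μ) / 2 ≤ rate μ g w
      linarith
    have h1 : annealed μ g ≤ rate μ g z := ciInf_le hb ⟨z, hz⟩
    have h2 : log β ≤ log g := log_le_log hβ hβg.le
    have h3 : (g - β) * z ≤ Δ * B := by
      simp only [β, sub_sub_cancel]
      exact mul_le_mul_of_nonneg_left ((le_abs_self z).trans hzB) hΔ.le
    have h4 : rate μ g z - rate μ β z = ((g - β) * z - (log g - log β)) / 2 := by unfold rate; ring
    linarith
  have hsum := hlow.add hup
  rw [add_zero] at hsum
  refine squeeze_zero' (.of_forall fun N => measureReal_nonneg) ?_ hsum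
  filter_upwards [eventually_gt_atTop 0, lam_bdd hμ h] with N hN hL
  have := (hν N).1
  refine le_trans (ENNReal.toReal_mono (measure_ne_top _ _) (measure_mono_ae ?_)) (measureReal_union_le _ _)
  filter_upwards [(hν N).2.1] with U hU
  intro hUs
  rcases le_or_gt (annealed μ g + ε) (pressure g (lam N) U) with hu | hu
  · exact Or.inr hu
  refine Or.inl (show ε / 4 ≤ |pressure β (lam N) U - annealed μ β| from ?_)
  have h1 := pressure_lip hN (β := g) (β' := β) hL hU
  rw [show |β - g| = Δ by rw [abs_sub_comm, abs_of_pos (by linarith)]; simp [β]] at h1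
  have hlb : bnd μ ≤ B := le_add_of_nonneg_right (by positivity)
  have h2 := mul_le_mul_of_nonneg_left hlb hΔ.le
  change ε ≤ |pressure g (lam N) U - annealed μ g| at hUs
  rcases le_abs'.1 hUs with h' | h'
  · exact le_abs'.2 (Or.inl (by linarith))
  · linarith

/-- the annealed phase ends exactly at `g` -/
theorem threshold (hμ : IsCompact μ.support) (h : Admissible μ lam) (hν : ∀ N, IsHaarOrthogonal (ν N))
    {g : ℝ} (hG : edgeG μ = ENNReal.ofReal g)
    (hc : ∀ z, top μ < z → stiel μ z < g →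
      4 * (g - stiel μ z) ^ 2 * stielSq μ z ≤ stiel μ z ^ 2 * (2 * g - stiel μ z) ^ 2)
    {β : ℝ} (hβ : 0 < β) :
    (∀ ε : ℝ, 0 < ε → Tendsto (fun N : ℕ => (ν N).real {U | ε ≤ |pressure β (lam N) U - annealed μ β|}) atTop (𝓝 0)) ↔
      β ≤ g := by
  refine ⟨fun hconv => ?_, fun hle ε hε => ?_⟩
  · by_contra hcon
    have hlt : edgeG μ < ENNReal.ofReal β := hG ▸ (ENNReal.ofReal_lt_ofReal_iff hβ).2 (not_le.1 hcon)
    obtain ⟨d, hd, hgap⟩ := gap_prob hμ h hν hlt
    have h1 := (hconv d hd).add hgap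
    rw [add_zero] at h1
    have h2 : ∀ N, (1:ℝ) ≤ (ν N).real {U | d ≤ |pressure β (lam N) U - annealed μ β|} +
        (ν N).real {U | annealed μ β - d ≤ pressure β (lam N) U} := fun N => by
      have := (hν N).1
      refine le_trans (le_of_eq probReal_univ.symm) ((measureReal_mono fun U _ => ?_).trans (measureReal_union_le _ _))
      by_cases hu : annealed μ β - d ≤ pressure β (lam N) U
      · exact Or.inr hu
      · exact Or.inl (show d ≤ |pressure β (lam N) U - annealed μ β| from le_abs'.2 (Or.inl (by linarith)))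
    linarith [ge_of_tendsto h1 (.of_forall h2)]
  · rcases hle.lt_or_eq with hlt | rfl
    · exact annealed_phase hμ h hν hβ (hG ▸ (ENNReal.ofReal_lt_ofReal_iff (hβ.trans hlt)).2 hlt) (crit_mono hμ hlt hc) hε
    · exact edge_phase hμ h hν hβ hG hc hε

end Vale.Agent.P166.Phase
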