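import Vale.Agent.P166.Phase.Weak

/-!
Second moment along the tilted critical point and the resulting lower bound in probability.
-/

open MeasureTheory Filter Real
open scoped Topology

noncomputable section

namespace Vale.Agent.P166.Phase

lemma psi_tangent {N : ℕ} (hN : 0 < N) {v : Fin N → ℝ} {θ z z0 : ℝ} (hz : ∀ k, v k < z) (hz0 : ∀ k, v k < z0) :
    psi v θ z0 + (θ - stielN v z0) * (z - z0) / 2 ≤ psi v θ z := by
  have hN' : (0:ℝ) < N := by exact_mod_cast hN
  have h : ∑ k, log (z - v k) ≤ ∑ k, log (z0 - v k) + (z - z0) * ∑ k, (z0 - v k)⁻¹ := by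
    rw [Finset.mul_sum, ← Finset.sum_add_distrib]
    refine Finset.sum_le_sum fun k _ => ?_
    have h0 : 0 < z0 - v k := sub_pos.2 (hz0 k)
    have h1 : 0 < z - v k := sub_pos.2 (hz k)
    have := log_le_sub_one_of_pos (div_pos h1 h0)
    rw [log_div h1.ne' h0.ne'] at this
    have e : (z - v k) / (z0 - v k) - 1 = (z - z0) * (z0 - v k)⁻¹ := by field_simp; ring
    linarith
  have h2 := div_le_div_of_nonneg_right h hN'.le
  rw [add_div, mul_div_assoc] at h2
  simp only [psi, stielN] at *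
  linarith

lemma psi_shift {N : ℕ} (v : Fin N → ℝ) (μ : Measure ℝ) (θ z : ℝ) :
    psi v θ z - rate μ θ z = psi v 1 z - rate μ 1 z := by
  simp only [psi, rate]; ring

/-- overlaps can be taken nonnegative -/
lemma exists_flip {N : ℕ} (β : ℝ) (lam : Fin N → ℝ) (σ τ : Fin N → Bool) :
    ∃ τ' : Fin N → Bool, ov σ τ' = |ov σ τ| ∧ ∀ U, energy β lam U τ' = energy β lam U τ := by
  by_cases h : 0 ≤ ov σ τ
  · exact ⟨τ, (abs_of_nonneg h).symm, fun U => rfl⟩
  · refine ⟨fun i => !τ i, ?_, (flip_config β lam σ τ).1⟩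
    rw [(flip_config β lam σ τ).2, abs_of_neg (not_le.1 h)]

/-- two-replica bound near zero overlap -/
lemma pair_small {N : ℕ} {ν : Measure (Mat N)} (hν : IsHaarOrthogonal ν) (hN : 2 ≤ N) {β : ℝ} (hβ : 0 < β)
    {lam : Fin N → ℝ} {σ τ : Fin N → Bool} {q : ℝ} (hq : ov σ τ = q) (hq0 : 0 ≤ q) {q0 : ℝ} (hqq : q ≤ q0)
    (hq1 : q0 < 1) {z M L : ℝ} (hz : ∀ k, lam k < z) (hG : stielN lam z = β) (hM : stielSqN lam z ≤ M)
    (hL : ∀ k, z - lam k ≤ L) {a : ℝ} (ha : 1 / (1 - q0 ^ 2) - β ^ 2 / (2 * M) ≤ a) :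
    ∫ U, exp (energy β lam U σ + energy β lam U τ) ∂ν ≤
      exp (1 + β * (L + β * L ^ 2)) * exp (N * (2 * psi lam β z)) * exp ((N:ℝ) * a * q ^ 2 / 2) := by
  have hN0 : 0 < N := by omega
  have hN' : (0:ℝ) < N := by exact_mod_cast hN0
  have hpos : ∀ k, 0 < z - lam k := fun k => sub_pos.2 (hz k)
  have hL0 : 0 < L := lt_of_lt_of_le (hpos ⟨0, hN0⟩) (hL _)
  set m := stielSqN lam z with hm
  have hmL : (L ^ 2)⁻¹ ≤ m := by
    rw [hm, stielSqN, le_div_iff₀ hN']
    refine le_trans (le_of_eq ?_) (Finset.sum_le_sum (f := fun _ => (L ^ 2)⁻¹) fun k _ =>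
      inv_anti₀ (pow_pos (hpos k) 2) (pow_le_pow_left₀ (hpos k).le (hL k) 2))
    simp; ring
  have hm0 : 0 < m := lt_of_lt_of_le (by positivity) hmL
  set d := β / m * q
  have hk : β / m ≤ β * L ^ 2 := by
    rw [div_le_iff₀ hm0]
    have := mul_le_mul_of_nonneg_left hmL (show 0 ≤ β * L ^ 2 by positivity)
    rwa [mul_assoc, mul_inv_cancel₀ (by positivity), mul_one] at this
  have hd0 : 0 ≤ d := mul_nonneg (div_nonneg hβ.le hm0.le) hq0
  have hd : d ≤ β * L ^ 2 := by
    refine le_trans (mul_le_mul hk (show q ≤ 1 by linarith) hq0 (by positivity)) (by rw [mul_one])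
  refine (pair_upper hν hN hβ hq (by rw [abs_of_nonneg hq0]; linarith) hz (zm := z + d)
    (fun k => by linarith [hz k]) (C := 1 + β * (L + β * L ^ 2)) fun k => ?_).trans ?_
  · rw [abs_le]
    have h1 : 0 ≤ β * (1 - q) * (z + d - lam k) :=
      mul_nonneg (mul_nonneg hβ.le (by linarith)) (by linarith [hz k])
    have h2 : β * (1 - q) * (z + d - lam k) ≤ β * (L + β * L ^ 2) :=
      mul_le_mul (mul_le_of_le_one_right hβ.le (by linarith)) (by linarith [hL k]) (by linarith [hz k]) hβ.le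
    constructor <;> linarith
  · rw [← exp_add, ← exp_add]
    refine exp_le_exp.2 ?_
    suffices h : psi lam (β * (1 + q)) z + psi lam (β * (1 - q)) (z + d) ≤ 2 * psi lam β z + a * q ^ 2 / 2 by
      have := mul_le_mul_of_nonneg_left h hN'.le
      linarith
    have hlog : ∑ k, log (z - lam k) + d * ∑ k, (z - lam k)⁻¹ - d ^ 2 / 2 * ∑ k, ((z - lam k) ^ 2)⁻¹ ≤
        ∑ k, log (z + d - lam k) := by
      rw [Finset.mul_sum, Finset.mul_sum, ← Finset.sum_add_distrib, ← Finset.sum_sub_distrib]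
      refine Finset.sum_le_sum fun k _ => ?_
      have hp := hpos k
      set x := d * (z - lam k)⁻¹
      have hx : 0 ≤ x := mul_nonneg hd0 (inv_nonneg.2 hp.le)
      have h1 : log (z + d - lam k) = log (z - lam k) + log (1 + x) := by
        rw [← log_mul hp.ne' (by linarith)]
        congr 1; simp only [x]; field_simp; ring
      have h2 := le_log_one_add_of_nonneg hx
      have h3 : x - x ^ 2 / 2 ≤ 2 * x / (x + 2) := by
        rw [le_div_iff₀ (by linarith)]
        nlinarith [pow_nonneg hx 3]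
      have h4 : x ^ 2 / 2 = d ^ 2 / 2 * ((z - lam k) ^ 2)⁻¹ := by simp only [x]; rw [mul_pow, inv_pow]; ring
      linarith
    have hS : (∑ k, (z - lam k)⁻¹) / N = β := hG
    have hS2 : (∑ k, ((z - lam k) ^ 2)⁻¹) / N = m := rfl
    have hlog' := div_le_div_of_nonneg_right hlog hN'.le
    rw [sub_div, add_div, mul_div_assoc, mul_div_assoc, hS, hS2] at hlog'
    have e1 : log (β * (1 + q)) = log β + log (1 + q) := log_mul hβ.ne' (by linarith)
    have e2 : log (β * (1 - q)) = log β + log (1 - q) := log_mul hβ.ne' (by linarith)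
    have hq2 : 0 < 1 - q ^ 2 := by nlinarith
    have e3 : -(log (1 + q) + log (1 - q)) ≤ q ^ 2 / (1 - q0 ^ 2) := by
      rw [← log_mul (by linarith) (by linarith), show (1 + q) * (1 - q) = 1 - q ^ 2 by ring, ← log_inv]
      refine (log_le_sub_one_of_pos (inv_pos.2 hq2)).trans ?_
      have hsq : q ^ 2 ≤ q0 ^ 2 := pow_le_pow_left₀ hq0 hqq 2
      have h01 : 0 < 1 - q0 ^ 2 := by nlinarith
      rw [show (1 - q ^ 2)⁻¹ - 1 = q ^ 2 / (1 - q ^ 2) by field_simp; ring]
      exact div_le_div_of_nonneg_left (sq_nonneg q) h01 (by linarith)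
    have e4 : d ^ 2 / 2 * m - β * d * q = -(β ^ 2 / (2 * m) * q ^ 2) := by
      simp only [d]; field_simp; ring
    have e5 : β ^ 2 / (2 * M) * q ^ 2 ≤ β ^ 2 / (2 * m) * q ^ 2 :=
      mul_le_mul_of_nonneg_right (div_le_div_of_nonneg_left (sq_nonneg β) (by linarith) (by linarith)) (sq_nonneg q)
    have e6 := mul_le_mul_of_nonneg_right ha (sq_nonneg q)
    rw [sub_mul, one_div, inv_mul_eq_div] at e6
    simp only [psi, e1, e2]
    linarith

variable {μ : Measure ℝ} [IsProbabilityMeasure μ] {lam : ∀ N : ℕ, Fin N → ℝ} {ν : ∀ N : ℕ, Measure (Mat N)}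

/-- spectral data at the finite critical point -/
lemma crit_point (hμ : IsCompact μ.support) (h : Admissible μ lam) {β z0 : ℝ}
    (hz0 : top μ < z0) (hv : stiel μ z0 = β) {δ : ℝ} (hδ : 0 < δ) :
    ∃ γ L M : ℝ, 0 < γ ∧ 0 < M ∧ ∀ᶠ N : ℕ in atTop, ∃ z, (∀ k, γ ≤ z - lam N k) ∧ (∀ k, z - lam N k ≤ L) ∧
      stielN (lam N) z = β ∧ stielSqN (lam N) z ≤ M ∧ rate μ β z0 - δ ≤ psi (lam N) β z := by
  set z1 := (top μ + z0) / 2
  set z2 := z0 + 1
  set w := (top μ + z1) / 2
  have hz1 : top μ < z1 := by simp only [z1]; linarith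
  have hz10 : z1 < z0 := by simp only [z1]; linarith
  have hw : top μ < w := by simp only [w]; linarith
  have hwz : w < z1 := by simp only [w]; linarith
  have hz2 : top μ < z2 := by simp only [z2]; linarith
  have g1 : β < stiel μ z1 := hv ▸ stiel_strictAnti hμ hz1 hz0 hz10
  have g2 : stiel μ z2 < β := hv ▸ stiel_strictAnti hμ hz0 hz2 (lt_add_one z0)
  obtain ⟨s11, s12, -⟩ := spectral_tendsto hμ h hz1
  obtain ⟨s21, -, -⟩ := spectral_tendsto hμ h hz2
  obtain ⟨s01, -, s03⟩ := spectral_tendsto hμ h hz0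
  refine ⟨z1 - w, |z2| + bnd μ, stielSq μ z1 + 1, by linarith, by linarith [(stiel_pos hμ hz1).2], ?_⟩
  have hsmall : Tendsto (fun N : ℕ => |β - stielN (lam N) z0| * (z2 - z1) / 2) atTop (𝓝 0) := by
    have := ((s01.const_sub β).abs.mul_const (z2 - z1)).div_const 2
    simpa [hv] using this
  filter_upwards [lam_lt h hw, lam_bdd hμ h, s11.eventually (eventually_gt_nhds g1),
    s21.eventually (eventually_lt_nhds g2), s12.eventually (eventually_lt_nhds (lt_add_one _)),
    (s03 β).eventually (eventually_ge_nhds (show rate μ β z0 - δ / 2 < rate μ β z0 by linarith)),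
    hsmall.eventually (eventually_le_nhds (show (0:ℝ) < δ / 2 by linarith)),
    eventually_gt_atTop 0] with N hlt hbd h1 h2 h3 h4 h5 hN
  have hN' : (0:ℝ) < N := by exact_mod_cast hN
  have hcont : ContinuousOn (stielN (lam N)) (Set.Icc z1 z2) := fun z hz =>
    ((tendsto_finsetSum _ fun k _ => ((tendsto_id.sub_const (lam N k)).inv₀
      (show z - lam N k ≠ 0 by linarith [hlt k, hz.1]))).div_const (N:ℝ)).mono_left nhdsWithin_le_nhds
  obtain ⟨z, hz, hzv⟩ := intermediate_value_Icc' (by simp only [z2]; linarith) hcont ⟨h2.le, h1.le⟩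
  refine ⟨z, fun k => by linarith [hlt k, hz.1], fun k => by linarith [(abs_le.1 (hbd k)).1, hz.2, le_abs_self z2],
    hzv, ?_, ?_⟩
  · refine le_trans ?_ h3.le
    simp only [stielSqN]
    refine div_le_div_of_nonneg_right (Finset.sum_le_sum fun k _ => ?_) hN'.le
    have : 0 < z1 - lam N k := by linarith [hlt k]
    exact inv_anti₀ (pow_pos this 2) (pow_le_pow_left₀ this.le (by linarith [hz.1]) 2)
  · have h6 := psi_tangent hN (θ := β) (z := z) (z0 := z0) (v := lam N) (fun k => by linarith [hlt k, hz.1])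
      (fun k => by linarith [hlt k])
    have h7 : -(|β - stielN (lam N) z0| * (z2 - z1)) ≤ (β - stielN (lam N) z0) * (z - z0) := by
      refine le_trans (neg_le_neg ?_) (neg_abs_le _)
      rw [abs_mul]
      refine mul_le_mul_of_nonneg_left (abs_le.2 ⟨?_, ?_⟩) (abs_nonneg _)
      · simp only [z2] at *; linarith [hz.1]
      · linarith [hz.2]
    linarith

/-- local exponential two-replica bounds -/
def PairOK (μ : Measure ℝ) (lam : ∀ N : ℕ, Fin N → ℝ) (ν : ∀ N : ℕ, Measure (Mat N)) (β r : ℝ) (S : Set ℝ) : Prop :=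
  ∃ C γ : ℝ, 0 < γ ∧ ∀ᶠ N : ℕ in atTop, ∀ q ∈ S, ∃ s : ℝ, ∀ σ τ : Fin N → Bool, ov σ τ = q →
    ∫ U, exp (energy β (lam N) U σ + energy β (lam N) U τ) ∂ν N ≤
      exp (C + N * (2 * r + s * q - log (cosh s) - γ))

/-- the bound holds on compact sets of nonzero overlaps -/
lemma pair_big (hμ : IsCompact μ.support) (h : Admissible μ lam) (hν : ∀ N, IsHaarOrthogonal (ν N)) {β z0 : ℝ}
    (hβ : 0 < β) (hz0 : top μ < z0) (hv : stiel μ z0 = β) (hc : Crit μ β) {q0 : ℝ} (hq0 : 0 < q0) :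
    PairOK μ lam ν β (rate μ β z0) (Set.Icc q0 1) := by
  refine isCompact_Icc.induction_on ⟨0, 1, one_pos, Eventually.of_forall fun N q hq => absurd hq (Set.notMem_empty q)⟩
    (fun S T hST ⟨C, γ, hγ, hT⟩ => ⟨C, γ, hγ, hT.mono fun N hN q hq => hN q (hST hq)⟩)
    (fun S T ⟨C, γ, hγ, hS⟩ ⟨C', γ', hγ', hT⟩ => ?_) fun x hx => ?_
  · refine ⟨max C C', min γ γ', lt_min hγ hγ', ?_⟩
    filter_upwards [hS, hT] with N h1 h2 q hq
    rcases hq with hq | hq
    · obtain ⟨s, hs⟩ := h1 q hq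
      exact ⟨s, fun σ τ e => (hs σ τ e).trans (exp_le_exp.2 (add_le_add (le_max_left _ _)
        (mul_le_mul_of_nonneg_left (by linarith [min_le_left γ γ']) (Nat.cast_nonneg N))))⟩
    · obtain ⟨s, hs⟩ := h2 q hq
      exact ⟨s, fun σ τ e => (hs σ τ e).trans (exp_le_exp.2 (add_le_add (le_max_right _ _)
        (mul_le_mul_of_nonneg_left (by linarith [min_le_right γ γ']) (Nat.cast_nonneg N))))⟩
  have hx0 : 0 < x := lt_of_lt_of_le hq0 hx.1
  have hcr : ∀ z : ℝ, ∀ y : ℝ, ∀ f : ℝ → ℝ, ContinuousAt f y → f y ≠ 0 → ContinuousAt (fun q => rate μ (f q) z) y :=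
    fun z y f hf hne => (((hf.mul continuousAt_const).sub continuousAt_const).sub (hf.log hne)).sub continuousAt_const
      |>.div_const 2
  obtain ⟨s01, -, s03⟩ := spectral_tendsto hμ h hz0
  rcases hx.2.lt_or_eq with hx1 | hx1
  · obtain ⟨z, hz, hgap⟩ := gap_interior hμ hβ hz0 hv hc hx0 hx1
    set s := (log (1 + x) - log (1 - x)) / 2
    have hs : ent x = s * x - log (cosh s) := ent_dual (by rw [abs_of_pos hx0]; exact hx1)
    set g := fun q => rate μ (β * (1 + q)) z0 + rate μ (β * (1 - q)) z - 2 * rate μ β z0 - (s * q - log (cosh s))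
    have hg : g x < 0 := by simp only [g]; linarith
    have hgc : ContinuousAt g x :=
      (((hcr z0 x (fun q => β * (1 + q)) (by fun_prop) (mul_pos hβ (by linarith)).ne').add
        (hcr z x (fun q => β * (1 - q)) (by fun_prop) (mul_pos hβ (by linarith)).ne')).sub continuousAt_const).sub
        (by fun_prop)
    refine ⟨{q | g q < g x / 2} ∩ Set.Ioo 0 1, mem_nhdsWithin_of_mem_nhds (inter_mem
      (hgc.eventually (eventually_lt_nhds (by linarith))) (Ioo_mem_nhds hx0 hx1)),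
      1 + β * (|z| + bnd μ), -(g x) / 4, by linarith, ?_⟩
    filter_upwards [lam_lt h hz0, lam_lt h hz, lam_bdd hμ h, eventually_ge_atTop 2,
      (s03 1).eventually (eventually_le_nhds (show rate μ 1 z0 < rate μ 1 z0 + -(g x) / 8 by linarith)),
      ((spectral_tendsto hμ h hz).2.2 1).eventually
        (eventually_le_nhds (show rate μ 1 z < rate μ 1 z + -(g x) / 8 by linarith))]
      with N hl0 hl hbd hN hp0 hp q hq
    refine ⟨s, fun σ τ e => ?_⟩
    obtain ⟨hq1, hq2, hq3⟩ := hq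
    refine (pair_upper (hν N) hN hβ e (by rw [abs_of_pos hq2]; exact hq3) hl0 hl
      (C := 1 + β * (|z| + bnd μ)) fun k => ?_).trans (exp_le_exp.2 ?_)
    · rw [abs_le]
      have h1 : 0 ≤ β * (1 - q) * (z - lam N k) :=
        mul_nonneg (mul_nonneg hβ.le (by linarith)) (sub_nonneg.2 (hl k).le)
      have h2 : β * (1 - q) * (z - lam N k) ≤ β * (|z| + bnd μ) :=
        mul_le_mul (mul_le_of_le_one_right hβ.le (by linarith))
          (by linarith [le_abs_self z, (abs_le.1 (hbd k)).1]) (sub_nonneg.2 (hl k).le) hβ.le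
      have : 0 ≤ β * (|z| + bnd μ) := mul_nonneg hβ.le (add_nonneg (abs_nonneg _) (bnd_pos (μ := μ)).le)
      constructor <;> linarith
    · have a1 := psi_shift (lam N) μ (β * (1 + q)) z0
      have a2 := psi_shift (lam N) μ (β * (1 - q)) z
      simp only [Set.mem_ofPred_eq] at hq1
      have : psi (lam N) (β * (1 + q)) z0 + psi (lam N) (β * (1 - q)) z ≤
          2 * rate μ β z0 + s * q - log (cosh s) - -(g x) / 4 := by simp only [g] at hq1 ⊢; linarith
      linarith [mul_le_mul_of_nonneg_left this (Nat.cast_nonneg N : (0:ℝ) ≤ N)]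
  · subst hx1
    set G := log 2 - (rate μ (2 * β) z0 - 2 * rate μ β z0)
    have hG : 0 < G := sub_pos.2 (gap_edge hμ hβ hz0 hv hc)
    obtain ⟨s, hs, hs0⟩ : ∃ s : ℝ, exp (-2 * s) < G ∧ 0 ≤ s := by
      have ht : Tendsto (fun s : ℝ => exp (-2 * s)) atTop (𝓝 0) :=
        tendsto_exp_atBot.comp (tendsto_id.const_mul_atTop_of_neg (by norm_num))
      exact ((ht.eventually (eventually_lt_nhds hG)).and (eventually_ge_atTop 0)).exists
    have hcosh : log (cosh s) ≤ s - log 2 + exp (-2 * s) := by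
      have e : cosh s = exp s * ((1 + exp (-2 * s)) / 2) := by
        rw [cosh_eq, mul_div_assoc', mul_add, mul_one, ← exp_add]; congr 2; congr 1; ring
      rw [e, log_mul (exp_pos s).ne' (by positivity), log_exp, log_div (by positivity) two_ne_zero]
      linarith [log_le_sub_one_of_pos (show 0 < 1 + exp (-2 * s) by positivity)]
    set g := fun q => β * (1 - q) * bnd μ / 2 + rate μ (β * (1 + q)) z0 - 2 * rate μ β z0 - (s * q - log (cosh s))
    have hg : g 1 < 0 := by
      simp only [g, G] at hs ⊢; rw [show β * (1 + 1) = 2 * β by ring]; linarith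
    have hgc : ContinuousAt g 1 :=
      (((show ContinuousAt (fun q : ℝ => β * (1 - q) * bnd μ / 2) 1 by fun_prop).add
        (hcr z0 1 (fun q => β * (1 + q)) (by fun_prop) (mul_pos hβ (by norm_num)).ne')).sub continuousAt_const).sub
        (by fun_prop)
    refine ⟨{q | g q < g 1 / 2} ∩ Set.Ioi 0, mem_nhdsWithin_of_mem_nhds (inter_mem
      (hgc.eventually (eventually_lt_nhds (by linarith))) (Ioi_mem_nhds one_pos)),
      0, -(g 1) / 4, by linarith, ?_⟩
    filter_upwards [lam_lt h hz0, lam_bdd hμ h, eventually_gt_atTop 0,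
      (s03 1).eventually (eventually_le_nhds (show rate μ 1 z0 < rate μ 1 z0 + -(g 1) / 4 by linarith))]
      with N hl0 hbd hN hp0 q hq
    refine ⟨s, fun σ τ e => ?_⟩
    refine (pair_upper_edge (hν N) hN hβ hbd e (show -1 < q by linarith [Set.mem_Ioi.1 hq.2]) hl0).trans
      (exp_le_exp.2 ?_)
    have a1 := psi_shift (lam N) μ (β * (1 + q)) z0
    have hq1 := hq.1
    simp only [Set.mem_ofPred_eq] at hq1
    have : β * (1 - q) * bnd μ / 2 + psi (lam N) (β * (1 + q)) z0 ≤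
        2 * rate μ β z0 + s * q - log (cosh s) - -(g 1) / 4 := by simp only [g] at hq1 hp0 ⊢; linarith
    linarith [mul_le_mul_of_nonneg_left this (Nat.cast_nonneg N : (0:ℝ) ≤ N)]

omit [IsProbabilityMeasure μ] in
/-- Paley–Zygmund -/
lemma half_mass {α : Type*} [MeasurableSpace α] {P : Measure α} [IsProbabilityMeasure P] {Z : α → ℝ}
    (hZm : Measurable Z) (hZ0 : ∀ x, 0 ≤ Z x) (hZ : Integrable Z P) (hZ2 : Integrable (fun x => Z x ^ 2) P)
    (hm : 0 < ∫ x, Z x ∂P) {K : ℝ} (hK : 0 < K) (h : ∫ x, Z x ^ 2 ∂P ≤ K * (∫ x, Z x ∂P) ^ 2) :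
    1 / (4 * K) ≤ P.real {x | (∫ x, Z x ∂P) / 2 ≤ Z x} := by
  set m := ∫ x, Z x ∂P
  set A := {x | m / 2 ≤ Z x}
  have hA : MeasurableSet A := hZm measurableSet_Ici
  set t := 2 * K * m
  have ht : 0 < t := by positivity
  have hi : Integrable (A.indicator fun _ => (1:ℝ)) P := (integrable_const 1).indicator hA
  have hi' : Integrable (fun x => Z x ^ 2 / t + t * A.indicator (fun _ => (1:ℝ)) x) P :=
    (hZ2.div_const t).add (hi.const_mul t)
  have h1 := integral_mono hZ ((integrable_const (m / 2)).add (hi'.div_const 2)) fun x => by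
    show Z x ≤ m / 2 + (Z x ^ 2 / t + t * A.indicator (fun _ => (1:ℝ)) x) / 2
    by_cases hx : x ∈ A
    · rw [Set.indicator_of_mem hx, mul_one]
      have : 2 * Z x ≤ Z x ^ 2 / t + t := by
        rw [div_add' _ _ _ ht.ne', le_div_iff₀ ht]; nlinarith [sq_nonneg (Z x - t)]
      linarith
    · rw [Set.indicator_of_notMem hx, mul_zero, add_zero]
      have : 0 ≤ Z x ^ 2 / t := by positivity
      linarith [not_le.1 (show ¬m / 2 ≤ Z x from hx)]
  simp only [Pi.add_apply] at h1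
  rw [integral_add (integrable_const _) (hi'.div_const 2)] at h1
  simp only [integral_div] at h1
  rw [integral_add (f := fun x => Z x ^ 2 / t) (g := fun x => t * A.indicator (fun _ => (1:ℝ)) x)
    (hZ2.div_const t) (hi.const_mul t)] at h1
  simp only [integral_div, integral_const_mul, integral_indicator_const _ hA] at h1
  simp only [integral_const, probReal_univ, smul_eq_mul, one_mul, mul_one] at h1
  have h2 : (∫ x, Z x ^ 2 ∂P) / t ≤ m / 2 := by
    rw [div_le_iff₀ ht]; simp only [t]; linarith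
  rw [div_le_iff₀ (by positivity)]
  refine le_of_mul_le_mul_left ?_ hm
  simp only [t, A] at h1 h2 ⊢
  linarith

/-- lower bound with positive probability -/
theorem lower_prob (hμ : IsCompact μ.support) (h : Admissible μ lam) (hν : ∀ N, IsHaarOrthogonal (ν N))
    {β z0 : ℝ} (hβ : 0 < β) (hz0 : top μ < z0) (hv : stiel μ z0 = β) (hc : Crit μ β) {ε : ℝ} (hε : 0 < ε) :
    ∃ c, 0 < c ∧ ∀ᶠ N : ℕ in atTop, c ≤ (ν N).real {U | annealed μ β - ε ≤ pressure β (lam N) U} := by
  rw [annealed_eq hμ hz0 hv]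
  obtain ⟨γ0, L, M, hγ0, hM, hev⟩ := crit_point hμ h hz0 hv (δ := ε / 2) (by linarith)
  set c0 := β ^ 2 / (2 * M)
  have hc0 : 0 < c0 := by positivity
  obtain ⟨q0, hq0, hq01, hqa⟩ : ∃ q0 : ℝ, 0 < q0 ∧ q0 < 1 ∧ 1 / (1 - q0 ^ 2) < 1 + c0 := by
    have hcont : ContinuousAt (fun q : ℝ => 1 / (1 - q ^ 2)) 0 := by fun_prop (disch := norm_num)
    have h1 := hcont.eventually (eventually_lt_nhds (show 1 / (1 - (0:ℝ) ^ 2) < 1 + c0 by norm_num; linarith))
    exact ((((h1.filter_mono nhdsWithin_le_nhds).and ((eventually_lt_nhds one_pos).filter_mono nhdsWithin_le_nhds)).and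
      (self_mem_nhdsWithin (a := (0:ℝ)) (s := Set.Ioi 0))).exists).imp fun q hq => ⟨hq.2, hq.1.2, hq.1.1⟩
  set a := max 0 (1 / (1 - q0 ^ 2) - c0)
  have ha1 : a < 1 := max_lt one_pos (by linarith)
  obtain ⟨Cb, γb, hγb, hbig⟩ := pair_big hμ h hν hβ hz0 hv hc hq0
  obtain ⟨γ0', L', M', hγ0', -, hev2⟩ := crit_point hμ h hz0 hv (δ := γb / 4) (by linarith)
  set Cs := 1 + β * (L + β * L ^ 2)
  set C0 := cfour * ((1 + β * L) ^ 2 + (1 + β * L) + 1) / (β * γ0) ^ 2
  set K := (exp (max Cs Cb) * ((√(1 - a))⁻¹ + (1 + 2 / γb))) * exp (2 * C0)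
  have hK : 0 < K := by positivity
  refine ⟨1 / (4 * K), by positivity, ?_⟩
  filter_upwards [hev, hev2, hbig, eventually_ge_atTop 2,
    eventually_ge_atTop ⌈(C0 + log 2) / (ε / 2)⌉₊] with N ⟨z, hzg, hzL, hzG, hzM, hzp⟩ ⟨z', hzg', _, hzG', _, hzp'⟩
    hb hN hNε
  have hN0 : 0 < N := by omega
  have hN' : (0:ℝ) < N := by exact_mod_cast hN0
  have := (hν N).1
  have hzlt : ∀ k, lam N k < z := fun k => by linarith [hzg k]
  obtain ⟨hi, hmean⟩ := first_moment (hν N) hN0 β (lam N)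
  have hlow : exp (N * psi (lam N) β z - C0) ≤ ∫ U, part β (lam N) U ∂ν N := by
    rw [hmean]
    refine sint_lower hN0 hβ hγ0 hzg (fun k => ?_) (by simpa [one_div, stielN] using hzG)
    rw [abs_le]
    have h1 : 0 ≤ β * (z - lam N k) := mul_nonneg hβ.le (sub_nonneg.2 (hzlt k).le)
    have h2 := mul_le_mul_of_nonneg_left (hzL k) hβ.le
    constructor <;> linarith
  have hpz : rate μ β z0 - γb / 4 ≤ psi (lam N) β z := by
    have hlt' : ∀ k, lam N k < z' := fun k => by
      linarith [hzg' k, hγ0']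
    have h1 := psi_tangent hN0 (θ := β) hzlt hlt'
    rw [hzG', sub_self, zero_mul, zero_div, add_zero] at h1
    linarith
  choose s hs using fun q => show ∃ s : ℝ, q ∈ Set.Icc q0 1 → ∀ σ τ : Fin N → Bool, ov σ τ = q →
      ∫ U, exp (energy β (lam N) U σ + energy β (lam N) U τ) ∂ν N ≤
        exp (Cb + N * (2 * rate μ β z0 + s * q - log (cosh s) - γb)) by
    by_cases hq : q ∈ Set.Icc q0 1
    · obtain ⟨s, hs⟩ := hb q hq; exact ⟨s, fun _ => hs⟩
    · exact ⟨0, fun hh => absurd hh hq⟩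
  set E := exp (max Cs Cb) * exp (N * (2 * psi (lam N) β z))
  set B : ℝ → ℝ := fun q => if |q| ≤ q0 then E * exp ((N:ℝ) * a * q ^ 2 / 2)
    else E * exp ((N:ℝ) * (s |q| * |q| - log (cosh (s |q|)) - γb / 2))
  have hB : ∀ σ τ, ∫ U, exp (energy β (lam N) U σ + energy β (lam N) U τ) ∂ν N ≤ B (ov σ τ) := by
    intro σ τ
    obtain ⟨τ', hτ, he⟩ := exists_flip β (lam N) σ τ
    simp only [← he]
    by_cases hq : |ov σ τ| ≤ q0
    · simp only [B, if_pos hq, E]
      refine (pair_small (hν N) hN hβ hτ (abs_nonneg _) hq hq01 hzlt hzG hzM hzL (le_max_right 0 _)).trans ?_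
      rw [sq_abs]
      exact mul_le_mul_of_nonneg_right (mul_le_mul_of_nonneg_right (exp_le_exp.2 (le_max_left Cs Cb))
        (exp_pos _).le) (exp_pos _).le
    · simp only [B, if_neg hq, E]
      refine (hs _ ⟨(not_le.1 hq).le, abs_ov_le hN0 σ τ⟩ σ τ' hτ).trans ?_
      rw [← exp_add, ← exp_add]
      refine exp_le_exp.2 ?_
      have := mul_le_mul_of_nonneg_left hpz hN'.le
      linarith [le_max_right Cs Cb]
  obtain ⟨hi2, hv2⟩ := second_moment (hν N) β (lam N) hB
  have hbin := binom_bound hN0 (B := B) (E := E) (γ := γb / 2) (q0 := q0) (le_max_left 0 _) ha1 (by positivity)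
    (fun q => by simp only [B]; split_ifs <;> positivity)
    (fun q hq => by simp only [B, if_pos hq]; rfl)
    (fun q hq _ => ⟨s |q|, by simp only [B, if_neg (not_le.2 hq)]; rfl⟩)
  have hsecond : ∫ U, part β (lam N) U ^ 2 ∂ν N ≤ K * (∫ U, part β (lam N) U ∂ν N) ^ 2 := by
    refine (hv2.trans hbin).trans ?_
    have h1 : ((N:ℝ) + 1) * exp (-((N:ℝ) * (γb / 2))) ≤ 1 + 2 / γb := by
      rw [exp_neg, ← div_eq_mul_inv, div_le_iff₀ (exp_pos _)]
      refine le_trans ?_ (mul_le_mul_of_nonneg_left (add_one_le_exp _) (by positivity))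
      field_simp
      nlinarith [mul_nonneg hN'.le (sq_nonneg γb)]
    refine (mul_le_mul_of_nonneg_left (add_le_add le_rfl h1) (by positivity)).trans ?_
    refine le_trans (le_of_eq ?_) (mul_le_mul_of_nonneg_left (pow_le_pow_left₀ (exp_pos _).le hlow 2) hK.le)
    simp only [E, K]
    rw [show exp (N * psi (lam N) β z - C0) ^ 2 = exp (N * (2 * psi (lam N) β z)) * exp (-(2 * C0)) by
      rw [← exp_nat_mul, ← exp_add]; congr 1; push_cast; ring, exp_neg]
    field_simp
    rfl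
  have hmass := half_mass (Z := part β (lam N))
    (by unfold part energy field; fun_prop) (fun U => (part_pos _ _ U).le) hi hi2
    (lt_of_lt_of_le (exp_pos _) hlow) hK hsecond
  refine hmass.trans (measureReal_mono fun U hU => ?_)
  simp only [Set.mem_ofPred_eq] at hU ⊢
  rw [pressure_part, one_div, le_inv_mul_iff₀ hN', le_log_iff_exp_le (part_pos _ _ U)]
  refine le_trans ?_ hU
  refine le_trans ?_ (div_le_div_of_nonneg_right hlow zero_le_two)
  rw [← exp_log (show (0:ℝ) < 2 by norm_num), ← exp_sub]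
  refine exp_le_exp.2 ?_
  have hε' : (C0 + log 2) / (ε / 2) ≤ N := le_trans (Nat.le_ceil _) (by exact_mod_cast hNε)
  rw [div_le_iff₀ (by linarith)] at hε'
  have := mul_le_mul_of_nonneg_left hzp hN'.le
  linarith

end Vale.Agent.P166.Phase
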