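import Vale.Agent.P166.Phase.Sphere

/-!
First and second moments of the partition function.
-/

open MeasureTheory ProbabilityTheory Real
open scoped ENNReal NNReal

noncomputable section

namespace Vale.Agent.P166.Phase

open Pattern (gauss)

variable {N : ℕ} {ν : Measure (Mat N)}

/-- normalised partition function -/
def part (β : ℝ) (lam : Fin N → ℝ) (U : Mat N) : ℝ :=
  ((2:ℝ) ^ N)⁻¹ * ∑ σ : Fin N → Bool, exp (energy β lam U σ)

lemma part_pos (β : ℝ) (lam : Fin N → ℝ) (U : Mat N) : 0 < part β lam U :=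
  mul_pos (by positivity) (sum_pos' _)

lemma pressure_part (β : ℝ) (lam : Fin N → ℝ) (U : Mat N) :
    pressure β lam U = 1 / (N:ℝ) * log (part β lam U) := pressure_eq β lam U

/-- unit spin vector -/
def sv (σ : Fin N → Bool) : Fin N → ℝ := fun i => spin (σ i) / √(N:ℝ)

lemma spin_sq (b : Bool) : spin b * spin b = 1 := by cases b <;> simp [spin]

lemma ip_sv (hN : 0 < N) (σ : Fin N → Bool) : ip (sv σ) (sv σ) = 1 := by
  simp only [ip, sv, div_mul_div_comm, spin_sq, Real.mul_self_sqrt (Nat.cast_nonneg N)]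
  simp [hN.ne']

lemma energy_qf (hN : 0 < N) (β : ℝ) (lam : Fin N → ℝ) (U : Mat N) (σ : Fin N → Bool) :
    energy β lam U σ = (N:ℝ) * β / 2 * qf lam (app U (sv σ)) := by
  have hN' : (0:ℝ) < N := by exact_mod_cast hN
  simp only [energy, field, qf, app, sv, Finset.mul_sum]
  refine Finset.sum_congr rfl fun k _ => ?_
  rw [show ∑ i, U k i * (spin (σ i) / √(N:ℝ)) = (∑ i, U k i * spin (σ i)) / √(N:ℝ) by
    rw [Finset.sum_div]; exact Finset.sum_congr rfl fun i _ => by ring, div_pow, Real.sq_sqrt hN'.le]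
  field_simp

/-- finite spherical rate at tilt `z` -/
def psi (lam : Fin N → ℝ) (θ z : ℝ) : ℝ := (θ * z - 1 - log θ - (∑ k, log (z - lam k)) / N) / 2

lemma weight_psi (hN : 0 < N) {lam : Fin N → ℝ} {θ z : ℝ} (hθ : 0 < θ) (hz : ∀ k, lam k < z) :
    exp ((N:ℝ) / 2 * (θ * z - 1)) * (√(∏ k, θ * (z - lam k)))⁻¹ = exp (N * psi lam θ z) := by
  have hp : ∀ k, 0 < θ * (z - lam k) := fun k => mul_pos hθ (sub_pos.2 (hz k))
  have hs : (√(∏ k, θ * (z - lam k)))⁻¹ = exp (-(∑ k, log (θ * (z - lam k))) / 2) := by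
    rw [neg_div, exp_neg, exp_half, exp_sum, Finset.prod_congr rfl fun k _ => exp_log (hp k)]
  rw [hs, ← exp_add]
  congr 1
  have : ∀ k, log (θ * (z - lam k)) = log θ + log (z - lam k) := fun k =>
    log_mul hθ.ne' (sub_pos.2 (hz k)).ne'
  simp only [this, Finset.sum_add_distrib, Finset.sum_const, Finset.card_univ, Fintype.card_fin, nsmul_eq_mul, psi]
  field_simp
  ring

lemma weight_split {lam e : Fin N → ℝ} (θ z : ℝ) (he : ip e e = 1) :
    exp ((N:ℝ) * θ / 2 * qf lam e) =
      exp ((N:ℝ) / 2 * (θ * z - 1)) * exp ((N:ℝ) / 2 * qf (fun k => 1 - θ * (z - lam k)) e) := by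
  have h : qf (fun k => 1 - θ * (z - lam k)) e = (1 - θ * z) * ip e e + θ * qf lam e := by
    simp only [qf, ip, Finset.mul_sum, ← Finset.sum_add_distrib]
    exact Finset.sum_congr rfl fun k _ => by ring
  rw [← exp_add, h, he]
  congr 1; ring

/-- spherical integral -/
def sint (lam : Fin N → ℝ) (θ : ℝ) : ℝ := ∫ e, exp ((N:ℝ) * θ / 2 * qf lam e) ∂sph N

theorem sint_upper (hν : IsHaarOrthogonal ν) (hN : 0 < N) {lam : Fin N → ℝ} {θ z : ℝ} (hθ : 0 < θ)
    (hz : ∀ k, lam k < z) : sint lam θ ≤ exp (N * psi lam θ z) := by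
  rw [← weight_psi hN hθ hz, sint, integral_congr_ae ((sph_unit hN).mono fun e he => weight_split θ z he),
    integral_const_mul]
  exact mul_le_mul_of_nonneg_left (sph_upper hν hN fun k => mul_pos hθ (sub_pos.2 (hz k))) (exp_pos _).le

theorem sint_lower (hN : 0 < N) {lam : Fin N → ℝ} {θ z γ C : ℝ} (hθ : 0 < θ) (hγ : 0 < γ)
    (hz : ∀ k, γ ≤ z - lam k) (hC : ∀ k, |1 - θ * (z - lam k)| ≤ C)
    (hcrit : (∑ k, 1 / (z - lam k)) / N = θ) :
    exp (N * psi lam θ z - cfour * (C ^ 2 + C + 1) / (θ * γ) ^ 2) ≤ sint lam θ := by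
  have hz' : ∀ k, lam k < z := fun k => by linarith [hz k]
  have hN' : (0:ℝ) < N := by exact_mod_cast hN
  rw [sub_eq_add_neg, exp_add, ← weight_psi hN hθ hz', sint,
    integral_congr_ae ((sph_unit hN).mono fun e he => weight_split θ z he), integral_const_mul, mul_assoc]
  refine mul_le_mul_of_nonneg_left (sph_lower hN (mul_pos hθ hγ) (fun k => mul_le_mul_of_nonneg_left (hz k) hθ.le)
    hC ?_) (exp_pos _).le
  rw [Finset.sum_congr rfl fun k _ => show 1 / (θ * (z - lam k)) = θ⁻¹ * (1 / (z - lam k)) by rw [one_div, one_div, mul_inv], ← Finset.mul_sum]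
  rw [div_eq_iff hN'.ne'] at hcrit
  rw [hcrit]; field_simp

lemma measurable_energy (β : ℝ) (lam : Fin N → ℝ) (σ : Fin N → Bool) : Measurable fun U : Mat N => energy β lam U σ := by
  unfold energy field; fun_prop

lemma integrable_exp_energy (hν : IsHaarOrthogonal ν) (β : ℝ) (lam : Fin N → ℝ) (σ : Fin N → Bool) :
    Integrable (fun U => exp (energy β lam U σ)) ν := by
  have := hν.1
  refine Integrable.of_bound (Real.measurable_exp.comp (measurable_energy β lam σ)).aestronglyMeasurable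
    (exp (|β / 2| * ((∑ k, |lam k|) * N))) (hν.2.1.mono fun U hU => ?_)
  rw [norm_eq_abs, abs_exp]
  refine exp_le_exp.2 ((le_abs_self _).trans ?_)
  unfold energy
  rw [abs_mul]
  refine mul_le_mul_of_nonneg_left ((Finset.abs_sum_le_sum_abs _ _).trans ?_) (abs_nonneg _)
  rw [← sum_field_sq hU σ, Finset.mul_sum]
  refine Finset.sum_le_sum fun k _ => ?_
  rw [abs_mul, abs_of_nonneg (sq_nonneg (field U σ k))]
  exact mul_le_mul_of_nonneg_right (Finset.single_le_sum (f := fun k => |lam k|) (fun _ _ => abs_nonneg _)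
    (Finset.mem_univ k)) (sq_nonneg _)

/-- law of the image of one configuration -/
lemma integral_app (hν : IsHaarOrthogonal ν) (hN : 0 < N) {u : Fin N → ℝ} (hu : ip u u = 1)
    {F : (Fin N → ℝ) → ℝ} (hF : Measurable F) : ∫ U, F (app U u) ∂ν = ∫ e, F e ∂sph N := by
  rw [sph, ← law_app hν hN hu, integral_map (Measurable.aemeasurable (by unfold app; fun_prop)) hF.aestronglyMeasurable]

theorem first_moment (hν : IsHaarOrthogonal ν) (hN : 0 < N) (β : ℝ) (lam : Fin N → ℝ) :
    Integrable (part β lam) ν ∧ ∫ U, part β lam U ∂ν = sint lam β := by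
  have := hν.1
  refine ⟨(integrable_finsetSum _ fun σ _ => integrable_exp_energy hν β lam σ).const_mul _, ?_⟩
  simp only [part]
  rw [integral_const_mul, integral_finsetSum _ fun σ _ => integrable_exp_energy hν β lam σ]
  have e : ∀ σ, ∫ U, exp (energy β lam U σ) ∂ν = sint lam β := fun σ => by
    simp only [energy_qf hN, sint]
    exact integral_app hν hN (ip_sv hN σ) (F := fun e => exp ((N:ℝ) * β / 2 * qf lam e)) (by fun_prop)
  simp [e]

lemma nz_nz (x : Fin N → ℝ) : nz (nz x) = nz x := by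
  by_cases h : ip x x = 0
  · have hx : x = fun _ => 0 := funext fun i => mul_self_eq_zero.1 (le_antisymm
      (h ▸ Finset.single_le_sum (f := fun i => x i * x i) (fun i _ => mul_self_nonneg _) (Finset.mem_univ i))
      (mul_self_nonneg _))
    funext i; simp [hx, nz]
  · exact nz_of_unit (ip_nz_self h)

/-- an orthonormal pair maps to a uniform direction and a uniform orthogonal direction -/
lemma integral_pair_le (hν : IsHaarOrthogonal ν) (hN : 2 ≤ N) {u v : Fin N → ℝ} (hu : ip u u = 1) (hv : ip v v = 1)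
    (huv : ip u v = 0) {F G : (Fin N → ℝ) → ℝ} (hF : Measurable F) (hG : Measurable G) {A K : ℝ}
    (hF0 : ∀ e, 0 ≤ F e) (hG0 : ∀ e, 0 ≤ G e) (hFb : ∀ e, ip e e = 1 → F e ≤ K) (hGb : ∀ e, ip e e = 1 → G e ≤ K)
    (hA : ∀ e, ip e e = 1 → ∫ f, G f ∂perpLaw e ≤ A) :
    ∫ U, F (app U u) * G (app U v) ∂ν ≤ A * ∫ e, F e ∂sph N := by
  have hm : Measurable fun U : Mat N => (app U u, app U v) := by unfold app; fun_prop
  have hFG : Measurable fun q : (Fin N → ℝ) × (Fin N → ℝ) => F q.1 * G q.2 :=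
    (hF.comp measurable_fst).mul (hG.comp measurable_snd)
  have e : ∫ U, F (app U u) * G (app U v) ∂ν =
      ∫ g, F (nz g.1) * G (nz (perp g.1 g.2)) ∂((gauss (Fin N)).prod (gauss (Fin N))) := by
    rw [← integral_map (φ := fun U : Mat N => (app U u, app U v)) (f := fun q => F q.1 * G q.2) hm.aemeasurable
      hFG.aestronglyMeasurable, law_pair hν hN hu hv huv, integral_map measurable_gs.aemeasurable hFG.aestronglyMeasurable]
    rfl
  rw [e]
  have hi : Integrable (fun g : (Fin N → ℝ) × (Fin N → ℝ) => F (nz g.1) * G (nz (perp g.1 g.2)))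
      ((gauss (Fin N)).prod (gauss (Fin N))) := by
    refine Integrable.of_bound (hFG.comp measurable_gs).aestronglyMeasurable (K * K) ((frame_ae hN).mono fun g hg => ?_)
    rw [norm_eq_abs, abs_of_nonneg (mul_nonneg (hF0 _) (hG0 _))]
    exact mul_le_mul (hFb _ (ip_nz_self hg.1)) (hGb _ (ip_nz_self hg.2)) (hG0 _) ((hF0 _).trans (hFb _ (ip_nz_self hg.1)))
  rw [integral_prod _ hi, sph, integral_map measurable_nz.aemeasurable hF.aestronglyMeasurable, ← integral_const_mul]
  have hiF : Integrable (fun g => F (nz g)) (gauss (Fin N)) :=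
    Integrable.of_bound (hF.comp measurable_nz).aestronglyMeasurable K
      ((nz_ne_zero_ae (by omega)).mono fun g hg => by
        rw [norm_eq_abs, abs_of_nonneg (hF0 _)]; exact hFb _ (ip_nz_self hg))
  refine integral_mono_ae hi.integral_prod_left (hiF.const_mul A) ((nz_ne_zero_ae (by omega)).mono fun g hg => ?_)
  show ∫ y, F (nz g) * G (nz (perp g y)) ∂gauss (Fin N) ≤ _
  show _ ≤ A * F (nz g)
  rw [integral_const_mul, mul_comm A]
  refine mul_le_mul_of_nonneg_left ?_ (hF0 _)
  have h := hA _ (ip_nz_self hg)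
  rw [perpLaw, integral_map (φ := fun y => nz (perp (nz g) y)) (measurable_nz.comp (measurable_perp _)).aemeasurable
    hG.aestronglyMeasurable] at h
  have hp : ∀ y, perp (nz g) y = perp g y := fun y => by funext i; simp only [perp]; rw [nz_nz]
  simpa only [hp] using h

/-- overlap -/
def ov (σ τ : Fin N → Bool) : ℝ := (∑ i, spin (σ i) * spin (τ i)) / N

lemma ip_comb (hN : 0 < N) (σ τ : Fin N → Bool) (a b a' b' : ℝ) :
    ip (fun i => a * sv σ i + b * sv τ i) (fun i => a' * sv σ i + b' * sv τ i) =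
      a * a' + b * b' + (a * b' + b * a') * ov σ τ := by
  have hN' : (0:ℝ) < N := by exact_mod_cast hN
  have e : ∀ i, (a * sv σ i + b * sv τ i) * (a' * sv σ i + b' * sv τ i) =
      (a * a' + b * b') / N + (a * b' + b * a') / N * (spin (σ i) * spin (τ i)) := fun i => by
    simp only [sv]
    rw [show (a * (spin (σ i) / √(N:ℝ)) + b * (spin (τ i) / √(N:ℝ))) *
        (a' * (spin (σ i) / √(N:ℝ)) + b' * (spin (τ i) / √(N:ℝ))) =
        (a * a' * (spin (σ i) * spin (σ i)) + b * b' * (spin (τ i) * spin (τ i)) +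
          (a * b' + b * a') * (spin (σ i) * spin (τ i))) / (√(N:ℝ) * √(N:ℝ)) by ring,
      Real.mul_self_sqrt hN'.le, spin_sq, spin_sq]
    ring
  simp only [ip, e, Finset.sum_add_distrib, Finset.sum_const, Finset.card_univ, Fintype.card_fin, nsmul_eq_mul,
    ← Finset.mul_sum, ov]
  field_simp

/-- sum and difference directions -/
lemma two_energies (hN : 0 < N) (β : ℝ) (lam : Fin N → ℝ) (U : Mat N) (σ τ : Fin N → Bool) :
    energy β lam U σ + energy β lam U τ = (N:ℝ) * β / 4 *
      (qf lam (app U fun i => sv σ i + sv τ i) + qf lam (app U fun i => sv σ i - sv τ i)) := by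
  have ha : ∀ k, app U (fun i => sv σ i + sv τ i) k = app U (sv σ) k + app U (sv τ) k := fun k => by
    simp only [app, mul_add, Finset.sum_add_distrib]
  have hs : ∀ k, app U (fun i => sv σ i - sv τ i) k = app U (sv σ) k - app U (sv τ) k := fun k => by
    simp only [app, mul_sub, Finset.sum_sub_distrib]
  simp only [energy_qf hN, qf, ha, hs, Finset.mul_sum, ← Finset.sum_add_distrib]
  exact Finset.sum_congr rfl fun k _ => by ring

lemma qf_app_smul (lam : Fin N → ℝ) (U : Mat N) (u : Fin N → ℝ) (a : ℝ) :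
    qf lam (app U fun i => a * u i) = a ^ 2 * qf lam (app U u) := by
  have : app U (fun i => a * u i) = fun k => a * app U u k := by
    funext k; simp only [app, Finset.mul_sum]; exact Finset.sum_congr rfl fun i _ => by ring
  simp only [this, qf, Finset.mul_sum]
  exact Finset.sum_congr rfl fun k _ => by ring

lemma abs_ov_le (hN : 0 < N) (σ τ : Fin N → Bool) : |ov σ τ| ≤ 1 := by
  have hN' : (0:ℝ) < N := by exact_mod_cast hN
  rw [ov, abs_div, abs_of_pos hN', div_le_one hN']
  refine (Finset.abs_sum_le_sum_abs _ _).trans ((Finset.sum_le_sum fun i _ => ?_).trans (by simp : (∑ _i : Fin N, (1:ℝ)) ≤ N))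
  rw [abs_mul]; cases σ i <;> cases τ i <;> simp [spin]

/-- two-replica bound -/
theorem pair_upper (hν : IsHaarOrthogonal ν) (hN : 2 ≤ N) {β : ℝ} (hβ : 0 < β) {lam : Fin N → ℝ}
    {σ τ : Fin N → Bool} {q : ℝ} (hq : ov σ τ = q) (hq1 : |q| < 1) {zp zm C : ℝ} (hzp : ∀ k, lam k < zp)
    (hzm : ∀ k, lam k < zm) (hC : ∀ k, |1 - β * (1 - q) * (zm - lam k)| ≤ C) :
    ∫ U, exp (energy β lam U σ + energy β lam U τ) ∂ν ≤
      exp (C + N * psi lam (β * (1 + q)) zp + N * psi lam (β * (1 - q)) zm) := by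
  have hN0 : 0 < N := by omega
  obtain ⟨hq0, hq2⟩ := abs_lt.1 hq1
  set sp := √(2 * (1 + q))
  set sm := √(2 * (1 - q))
  have hsp : 0 < sp := Real.sqrt_pos.2 (by linarith)
  have hsm : 0 < sm := Real.sqrt_pos.2 (by linarith)
  have hsp2 : sp ^ 2 = 2 * (1 + q) := Real.sq_sqrt (by linarith)
  have hsm2 : sm ^ 2 = 2 * (1 - q) := Real.sq_sqrt (by linarith)
  set u := fun i => sp⁻¹ * sv σ i + sp⁻¹ * sv τ i
  set v := fun i => sm⁻¹ * sv σ i + -sm⁻¹ * sv τ i
  have hu : ip u u = 1 := by
    rw [ip_comb hN0, hq]; field_simp; linarith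
  have hv : ip v v = 1 := by
    rw [ip_comb hN0, hq]; field_simp; linarith
  have huv : ip u v = 0 := by rw [ip_comb hN0]; ring
  have hen : ∀ U, exp (energy β lam U σ + energy β lam U τ) =
      exp ((N:ℝ) * (β * (1 + q)) / 2 * qf lam (app U u)) * exp ((N:ℝ) * (β * (1 - q)) / 2 * qf lam (app U v)) := by
    intro U
    have e1 : (fun i => sv σ i + sv τ i) = fun i => sp * u i := by funext i; simp only [u]; field_simp
    have e2 : (fun i => sv σ i - sv τ i) = fun i => sm * v i := by funext i; simp only [v]; field_simp; ring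
    rw [two_energies hN0, e1, e2, qf_app_smul, qf_app_smul, hsp2, hsm2, ← exp_add]
    congr 1; ring
  simp only [hen]
  set θp := β * (1 + q)
  set θm := β * (1 - q)
  have hθp : 0 < θp := mul_pos hβ (by linarith)
  have hθm : 0 < θm := mul_pos hβ (by linarith)
  have hb : ∀ θ e, ip e e = 1 → exp ((N:ℝ) * θ / 2 * qf lam e) ≤ exp (((N:ℝ) * |θp| / 2 + N * |θm| / 2 + N * |θ| / 2) * ∑ k, |lam k|) := by
    intro θ e he
    refine exp_le_exp.2 ((le_abs_self _).trans ?_)
    rw [abs_mul]
    have h := abs_qf_le (x := e) (C := ∑ k, |lam k|) fun k =>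
      Finset.single_le_sum (f := fun k => |lam k|) (fun _ _ => abs_nonneg _) (Finset.mem_univ k)
    rw [he, mul_one] at h
    refine mul_le_mul ?_ h (abs_nonneg _) (by positivity)
    rw [abs_div, abs_mul, abs_of_nonneg (Nat.cast_nonneg N : (0:ℝ) ≤ N), abs_two]
    have : (0:ℝ) ≤ N * |θp| / 2 + N * |θm| / 2 := by positivity
    linarith
  refine (integral_pair_le hν hN hu hv huv (F := fun e => exp ((N:ℝ) * θp / 2 * qf lam e))
    (G := fun e => exp ((N:ℝ) * θm / 2 * qf lam e)) (by fun_prop) (by fun_prop)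
    (K := exp (((N:ℝ) * |θp| + N * |θm|) * ∑ k, |lam k|)) (fun e => (exp_pos _).le) (fun e => (exp_pos _).le)
    (fun e he => (hb θp e he).trans (exp_le_exp.2 (mul_le_mul_of_nonneg_right ?_ (by positivity))))
    (fun e he => (hb θm e he).trans (exp_le_exp.2 (mul_le_mul_of_nonneg_right ?_ (by positivity))))
    (A := exp C * exp (N * psi lam θm zm)) fun e he => ?_).trans ?_
  · have : 0 ≤ (N:ℝ) * |θm| / 2 := by positivity
    linarith
  · have : 0 ≤ (N:ℝ) * |θp| / 2 := by positivity
    linarith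
  · rw [integral_congr_ae ((perpLaw_unit hN he).mono fun f hf => weight_split θm zm hf), integral_const_mul,
      ← weight_psi hN0 hθm hzm, mul_left_comm (exp C)]
    exact mul_le_mul_of_nonneg_left (perp_upper hν hN he (fun k => mul_pos hθm (sub_pos.2 (hzm k))) hC) (exp_pos _).le
  · refine (mul_le_mul_of_nonneg_left (sint_upper hν hN0 hθp hzp) (by positivity)).trans (le_of_eq ?_)
    rw [← exp_add, ← exp_add]; congr 1; ring

/-- two-replica bound near full overlap -/
theorem pair_upper_edge (hν : IsHaarOrthogonal ν) (hN : 0 < N) {β L : ℝ} (hβ : 0 < β) {lam : Fin N → ℝ}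
    (hL : ∀ k, |lam k| ≤ L) {σ τ : Fin N → Bool} {q : ℝ} (hq : ov σ τ = q) (hq1 : -1 < q) {zp : ℝ}
    (hzp : ∀ k, lam k < zp) :
    ∫ U, exp (energy β lam U σ + energy β lam U τ) ∂ν ≤
      exp (N * (β * (1 - q) * L / 2) + N * psi lam (β * (1 + q)) zp) := by
  have := hν.1
  have hq2 : q ≤ 1 := hq ▸ (abs_le.1 (abs_ov_le hN σ τ)).2
  set sp := √(2 * (1 + q))
  have hsp : 0 < sp := Real.sqrt_pos.2 (by linarith)
  have hsp2 : sp ^ 2 = 2 * (1 + q) := Real.sq_sqrt (by linarith)
  set u := fun i => sp⁻¹ * sv σ i + sp⁻¹ * sv τ i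
  have hu : ip u u = 1 := by rw [ip_comb hN, hq]; field_simp; linarith
  set θp := β * (1 + q)
  have hθp : 0 < θp := mul_pos hβ (by linarith)
  have hb : ∀ᵐ U ∂ν, exp (energy β lam U σ + energy β lam U τ) ≤
      exp ((N:ℝ) * (β * (1 - q) * L / 2)) * exp ((N:ℝ) * θp / 2 * qf lam (app U u)) := by
    refine hν.2.1.mono fun U hU => ?_
    have e1 : (fun i => sv σ i + sv τ i) = fun i => sp * u i := by funext i; simp only [u]; field_simp
    have h2 := abs_qf_le (x := app U fun i => sv σ i - sv τ i) hL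
    rw [ip_app hU] at h2
    have e2 : ip (fun i => sv σ i - sv τ i) (fun i => sv σ i - sv τ i) = 2 * (1 - q) := by
      have := ip_comb hN σ τ 1 (-1) 1 (-1)
      simp only [one_mul, neg_mul, ← sub_eq_add_neg] at this
      rw [this, hq]; ring
    rw [e2] at h2
    rw [two_energies hN, e1, qf_app_smul, hsp2, ← exp_add]
    refine exp_le_exp.2 ?_
    have hh := mul_le_mul_of_nonneg_left (le_of_abs_le h2) (show 0 ≤ (N:ℝ) * β / 4 by positivity)
    have e3 : (N:ℝ) * β / 4 * (2 * (1 + q) * qf lam (app U u)) = (N:ℝ) * θp / 2 * qf lam (app U u) := by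
      simp only [θp]; ring
    rw [mul_add, e3]
    linarith
  have hiF : Integrable (fun U => exp ((N:ℝ) * θp / 2 * qf lam (app U u))) ν := by
    have hm : Measurable fun U : Mat N => app U u := by unfold app; fun_prop
    refine (integrable_map_measure (g := fun e => exp ((N:ℝ) * θp / 2 * qf lam e)) (by fun_prop) hm.aemeasurable).1 ?_
    rw [law_app hν hN hu]
    exact integrable_exp_qf (sph N) (sph_unit hN) lam _
  have hiL : Integrable (fun U => exp (energy β lam U σ + energy β lam U τ)) ν :=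
    (hiF.const_mul _).mono' (Real.measurable_exp.comp ((measurable_energy β lam σ).add (measurable_energy β lam τ))).aestronglyMeasurable
      (hb.mono fun U hU => by rwa [norm_eq_abs, abs_exp])
  refine (integral_mono_ae hiL (hiF.const_mul _) hb).trans ?_
  rw [integral_const_mul, integral_app hν hN hu (F := fun e => exp ((N:ℝ) * θp / 2 * qf lam e)) (by fun_prop), exp_add]
  exact mul_le_mul_of_nonneg_left (sint_upper hν hN hθp hzp) (exp_pos _).le

/-- flipping one configuration -/
lemma flip_config (β : ℝ) (lam : Fin N → ℝ) (σ τ : Fin N → Bool) :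
    (∀ U, energy β lam U (fun i => !τ i) = energy β lam U τ) ∧ ov σ (fun i => !τ i) = -ov σ τ := by
  have hs : ∀ b, spin (!b) = -spin b := fun b => by cases b <;> simp [spin]
  refine ⟨fun U => ?_, ?_⟩
  · simp only [energy, field, hs, mul_neg, Finset.sum_neg_distrib, neg_sq]
  · simp only [ov, hs, mul_neg, Finset.sum_neg_distrib, neg_div]

/-- magnetisation -/
def mg (τ : Fin N → Bool) : ℝ := (∑ i, spin (τ i)) / N

/-- averaging a function of the overlap -/
lemma sum_ov (σ : Fin N → Bool) (B : ℝ → ℝ) : ∑ τ : Fin N → Bool, B (ov σ τ) = ∑ τ : Fin N → Bool, B (mg τ) := by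
  have hinv : Function.Involutive fun (τ : Fin N → Bool) i => τ i == σ i := fun τ => by
    funext i; dsimp only; cases τ i <;> cases σ i <;> rfl
  refine Fintype.sum_equiv hinv.toPerm _ _ fun τ => ?_
  simp only [ov, mg, Function.Involutive.coe_toPerm]
  congr 2
  exact Finset.sum_congr rfl fun i _ => by cases τ i <;> cases σ i <;> simp [spin]

theorem second_moment (hν : IsHaarOrthogonal ν) (β : ℝ) (lam : Fin N → ℝ) {B : ℝ → ℝ}
    (hB : ∀ σ τ, ∫ U, exp (energy β lam U σ + energy β lam U τ) ∂ν ≤ B (ov σ τ)) :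
    Integrable (fun U => part β lam U ^ 2) ν ∧
    ∫ U, part β lam U ^ 2 ∂ν ≤ ((2:ℝ) ^ N)⁻¹ * ∑ τ : Fin N → Bool, B (mg τ) := by
  have := hν.1
  have hi : ∀ σ τ, Integrable (fun U => exp (energy β lam U σ + energy β lam U τ)) ν := fun σ τ => by
    refine (((integrable_exp_energy hν (2 * β) lam σ).add (integrable_exp_energy hν (2 * β) lam τ))).mono'
      (Real.measurable_exp.comp ((measurable_energy β lam σ).add (measurable_energy β lam τ))).aestronglyMeasurable
      (Filter.Eventually.of_forall fun U => ?_)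
    rw [norm_eq_abs, abs_exp, exp_add]
    have e : ∀ s, exp (energy (2 * β) lam U s) = exp (energy β lam U s) * exp (energy β lam U s) := fun s => by
      rw [← exp_add]; congr 1; unfold energy; ring
    simp only [Pi.add_apply, e]
    nlinarith [sq_nonneg (exp (energy β lam U σ) - exp (energy β lam U τ)), exp_pos (energy β lam U σ), exp_pos (energy β lam U τ)]
  have e : ∀ U, part β lam U ^ 2 = ((2:ℝ) ^ N)⁻¹ * (((2:ℝ) ^ N)⁻¹ * ∑ σ : Fin N → Bool, ∑ τ : Fin N → Bool,
      exp (energy β lam U σ + energy β lam U τ)) := fun U => by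
    simp only [part, sq, exp_add, ← Finset.mul_sum, ← Finset.sum_mul]; ring
  simp only [e]
  have hsum := integrable_finsetSum (Finset.univ : Finset (Fin N → Bool)) fun σ _ =>
    integrable_finsetSum (Finset.univ : Finset (Fin N → Bool)) fun τ _ => hi σ τ
  refine ⟨(hsum.const_mul _).const_mul _, ?_⟩
  rw [integral_const_mul, integral_const_mul]
  refine mul_le_mul_of_nonneg_left ?_ (by positivity)
  rw [integral_finsetSum _ fun σ _ => integrable_finsetSum _ fun τ _ => hi σ τ]
  refine (mul_le_mul_of_nonneg_left (Finset.sum_le_sum (g := fun _ => ∑ τ : Fin N → Bool, B (mg τ)) fun σ _ => ?_)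
    (by positivity)).trans (le_of_eq ?_)
  · rw [integral_finsetSum _ fun τ _ => hi σ τ, ← sum_ov σ B]
    exact Finset.sum_le_sum fun τ _ => hB σ τ
  · simp

end Vale.Agent.P166.Phase
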