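import Vale.Agent.P166.Compare

/-!
The spherical rate of a compactly supported law and the second-moment criterion.
-/

open MeasureTheory Filter Real
open scoped Topology ENNReal

noncomputable section

namespace Vale.Agent.P166.Phase

/-- upper end of the support -/
def top (μ : Measure ℝ) : ℝ := sSup μ.support

/-- `∫ (top - x)⁻¹`, possibly infinite -/
def edgeG (μ : Measure ℝ) : ℝ≥0∞ := ∫⁻ x, (ENNReal.ofReal (top μ - x))⁻¹ ∂μ

/-- `∫ (z - x)⁻¹` -/
def stiel (μ : Measure ℝ) (z : ℝ) : ℝ := ∫ x, (z - x)⁻¹ ∂μ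

/-- `∫ (z - x)⁻²` -/
def stielSq (μ : Measure ℝ) (z : ℝ) : ℝ := ∫ x, ((z - x) ^ 2)⁻¹ ∂μ

/-- spherical rate at tilt `z` -/
def rate (μ : Measure ℝ) (θ z : ℝ) : ℝ := (θ * z - 1 - log θ - ∫ x, log (z - x) ∂μ) / 2

/-- the annealed pressure -/
def annealed (μ : Measure ℝ) (β : ℝ) : ℝ := ⨅ z : Set.Ioi (top μ), rate μ β z

/-- bound on the support -/
def bnd (μ : Measure ℝ) : ℝ := |sSup μ.support| + |sInf μ.support| + 1

variable {μ : Measure ℝ} [IsProbabilityMeasure μ]

omit [IsProbabilityMeasure μ] in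
lemma bnd_pos : 0 < bnd μ := by unfold bnd; positivity

omit [IsProbabilityMeasure μ] in
lemma ae_mem (hμ : IsCompact μ.support) : ∀ᵐ x ∂μ, x ≤ top μ ∧ |x| ≤ bnd μ := by
  filter_upwards [Measure.support_mem_ae (μ := μ)] with x hx
  have h1 : x ≤ sSup μ.support := le_csSup hμ.bddAbove hx
  have h2 : sInf μ.support ≤ x := csInf_le hμ.bddBelow hx
  refine ⟨h1, abs_le.2 ⟨?_, ?_⟩⟩ <;>
    simp only [bnd] <;>
    linarith [le_abs_self (sSup μ.support), neg_abs_le (sInf μ.support), abs_nonneg (sInf μ.support), abs_nonneg (sSup μ.support)]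

lemma integrable_kernels (hμ : IsCompact μ.support) {z : ℝ} (hz : top μ < z) :
    Integrable (fun x => (z - x)⁻¹) μ ∧ Integrable (fun x => ((z - x) ^ 2)⁻¹) μ ∧
    Integrable (fun x => log (z - x)) μ ∧ Integrable (fun x => x) μ := by
  have hd : 0 < z - top μ := sub_pos.2 hz
  refine ⟨?_, ?_, ?_, ?_⟩
  · refine Integrable.of_bound (by fun_prop : Measurable _).aestronglyMeasurable (z - top μ)⁻¹ ((ae_mem hμ).mono fun x hx => ?_)
    rw [norm_eq_abs, abs_inv, abs_of_pos (show 0 < z - x by linarith)]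
    exact inv_anti₀ hd (by linarith)
  · refine Integrable.of_bound (by fun_prop : Measurable _).aestronglyMeasurable ((z - top μ) ^ 2)⁻¹ ((ae_mem hμ).mono fun x hx => ?_)
    rw [norm_eq_abs, abs_inv, abs_of_nonneg (sq_nonneg _)]
    exact inv_anti₀ (by positivity) (pow_le_pow_left₀ hd.le (by linarith) 2)
  · refine Integrable.of_bound (Real.measurable_log.comp (by fun_prop)).aestronglyMeasurable
      (|log (z - top μ)| + (|z| + bnd μ)) ((ae_mem hμ).mono fun x hx => ?_)
    have h1 := log_le_log hd (show z - top μ ≤ z - x by linarith)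
    have h2 := log_le_sub_one_of_pos (show 0 < z - x by linarith)
    have h3 := abs_le.1 hx.2
    rw [norm_eq_abs, abs_le]
    constructor <;> linarith [neg_abs_le (log (z - top μ)), abs_nonneg (log (z - top μ)), le_abs_self z, abs_nonneg z, bnd_pos (μ := μ)]
  · exact Integrable.of_bound (by fun_prop : Measurable _).aestronglyMeasurable (bnd μ)
      ((ae_mem hμ).mono fun x hx => by rw [norm_eq_abs]; exact hx.2)

lemma stiel_le (hμ : IsCompact μ.support) {z : ℝ} (hz : top μ < z) : stiel μ z ≤ (z - top μ)⁻¹ := by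
  have h := integral_mono_ae (integrable_kernels hμ hz).1 (integrable_const (z - top μ)⁻¹)
    ((ae_mem hμ).mono fun x hx => inv_anti₀ (sub_pos.2 hz) (by linarith))
  simpa [stiel] using h

lemma stiel_pos (hμ : IsCompact μ.support) {z : ℝ} (hz : top μ < z) : 0 < stiel μ z ∧ 0 < stielSq μ z := by
  have hB : 0 < |z| + bnd μ + 1 := by linarith [abs_nonneg z, bnd_pos (μ := μ)]
  have hle : ∀ᵐ x ∂μ, 0 < z - x ∧ z - x ≤ |z| + bnd μ + 1 := (ae_mem hμ).mono fun x hx =>
    ⟨by linarith, by linarith [le_abs_self z, (abs_le.1 hx.2).1]⟩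
  constructor
  · have h := integral_mono_ae (integrable_const (|z| + bnd μ + 1)⁻¹) (integrable_kernels hμ hz).1
      (hle.mono fun x hx => inv_anti₀ hx.1 hx.2)
    simp only [integral_const, probReal_univ, one_smul] at h
    exact lt_of_lt_of_le (inv_pos.2 hB) h
  · have h := integral_mono_ae (integrable_const ((|z| + bnd μ + 1) ^ 2)⁻¹) (integrable_kernels hμ hz).2.1
      (hle.mono fun x hx => inv_anti₀ (pow_pos hx.1 2) (pow_le_pow_left₀ hx.1.le hx.2 2))
    simp only [integral_const, probReal_univ, one_smul] at h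
    exact lt_of_lt_of_le (by positivity) h

lemma sq_stiel_le (hμ : IsCompact μ.support) {z : ℝ} (hz : top μ < z) : stiel μ z ^ 2 ≤ stielSq μ z := by
  obtain ⟨i1, i2, -, -⟩ := integrable_kernels hμ hz
  set G := stiel μ z
  have i3 : Integrable (fun x => ((z - x) ^ 2)⁻¹ - 2 * G * (z - x)⁻¹ + G ^ 2) μ :=
    (i2.sub (i1.const_mul _)).add (integrable_const _)
  have h : 0 ≤ ∫ x, (((z - x) ^ 2)⁻¹ - 2 * G * (z - x)⁻¹ + G ^ 2) ∂μ := integral_nonneg fun x => by
    show 0 ≤ ((z - x) ^ 2)⁻¹ - 2 * G * (z - x)⁻¹ + G ^ 2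
    rw [← inv_pow]; nlinarith [sq_nonneg ((z - x)⁻¹ - G)]
  rw [integral_add (f := fun x => ((z - x) ^ 2)⁻¹ - 2 * G * (z - x)⁻¹) (i2.sub (i1.const_mul _)) (integrable_const _),
    integral_sub i2 (i1.const_mul _), integral_const_mul] at h
  simp only [integral_const, probReal_univ, one_smul] at h
  rw [show ∫ x, (z - x)⁻¹ ∂μ = G from rfl] at h
  unfold stielSq
  linarith

lemma hasDerivAt_kernels (hμ : IsCompact μ.support) {z : ℝ} (hz : top μ < z) :
    HasDerivAt (stiel μ) (-stielSq μ z) z ∧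
    HasDerivAt (fun t => ∫ x, log (t - x) ∂μ) (stiel μ z) z := by
  set d := (z - top μ) / 2
  have hd : 0 < d := by simp only [d]; linarith
  have hs : Metric.ball z d ∈ 𝓝 z := Metric.ball_mem_nhds z hd
  have hb : ∀ᵐ x ∂μ, ∀ t ∈ Metric.ball z d, d ≤ t - x := (ae_mem hμ).mono fun x hx t ht => by
    rw [Metric.mem_ball, Real.dist_eq] at ht
    have := (abs_lt.1 ht).1
    simp only [d] at this ⊢; linarith
  constructor
  · have h := hasDerivAt_integral_of_dominated_loc_of_deriv_le (μ := μ) (F := fun t x => (t - x)⁻¹)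
      (F' := fun t x => -((t - x) ^ 2)⁻¹) (x₀ := z) (bound := fun _ => (d ^ 2)⁻¹) hs
      (Eventually.of_forall fun t => (by fun_prop : Measurable _).aestronglyMeasurable) (integrable_kernels hμ hz).1
      (by fun_prop : Measurable _).aestronglyMeasurable
      (hb.mono fun x hx t ht => by
        rw [norm_eq_abs, abs_neg, abs_inv, abs_of_nonneg (sq_nonneg _)]
        exact inv_anti₀ (by positivity) (pow_le_pow_left₀ hd.le (hx t ht) 2))
      (integrable_const _)
      (hb.mono fun x hx t ht => by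
        have := (((hasDerivAt_id t).sub_const x).fun_inv (show t - x ≠ 0 by linarith [hx t ht]))
        simpa [neg_div] using this)
    have h2 := h.2
    rw [integral_neg] at h2
    exact h2
  · exact (hasDerivAt_integral_of_dominated_loc_of_deriv_le (μ := μ) (F := fun t x => log (t - x))
      (F' := fun t x => (t - x)⁻¹) (x₀ := z) (bound := fun _ => d⁻¹) hs
      (Eventually.of_forall fun t => (Real.measurable_log.comp (by fun_prop)).aestronglyMeasurable)
      (integrable_kernels hμ hz).2.2.1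
      (by fun_prop : Measurable _).aestronglyMeasurable
      (hb.mono fun x hx t ht => by
        rw [norm_eq_abs, abs_inv, abs_of_pos (lt_of_lt_of_le hd (hx t ht))]
        exact inv_anti₀ hd (hx t ht))
      (integrable_const _)
      (hb.mono fun x hx t ht => by
        simpa [one_div] using ((hasDerivAt_id t).sub_const x).log (show t - x ≠ 0 by linarith [hx t ht]))).2

lemma continuousOn_stiel (hμ : IsCompact μ.support) : ContinuousOn (stiel μ) (Set.Ioi (top μ)) := fun _z hz =>
  (hasDerivAt_kernels hμ hz).1.continuousAt.continuousWithinAt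

lemma stiel_strictAnti (hμ : IsCompact μ.support) : StrictAntiOn (stiel μ) (Set.Ioi (top μ)) :=
  strictAntiOn_of_deriv_neg (convex_Ioi _) (continuousOn_stiel hμ) fun z hz => by
    rw [interior_Ioi] at hz
    rw [(hasDerivAt_kernels hμ hz).1.deriv]; linarith [(stiel_pos hμ hz).2]

/-- below `edgeG` the equation `stiel μ z = β` has a solution -/
lemma exists_crit (hμ : IsCompact μ.support) {β : ℝ} (hβ : 0 < β) (hG : ENNReal.ofReal β < edgeG μ) :
    ∃ z, top μ < z ∧ stiel μ z = β := by
  obtain ⟨z1, hz1, h1⟩ : ∃ z1, top μ < z1 ∧ β < stiel μ z1 := by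
    by_contra hc
    push Not at hc
    set e := fun n : ℕ => 1 / ((n:ℝ) + 1)
    have hmono : ∀ x, Monotone fun n : ℕ => (ENNReal.ofReal (top μ + e n - x))⁻¹ := fun x n m hnm =>
      ENNReal.inv_le_inv.2 (ENNReal.ofReal_le_ofReal (by
        have : e m ≤ e n := one_div_le_one_div_of_le (by positivity) (by exact_mod_cast Nat.succ_le_succ hnm)
        linarith))
    have hlim : ∀ x, Tendsto (fun n : ℕ => (ENNReal.ofReal (top μ + e n - x))⁻¹) atTop
        (𝓝 (ENNReal.ofReal (top μ - x))⁻¹) := fun x => by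
      refine (ENNReal.continuous_ofReal.tendsto _ |>.comp ?_).inv
      simpa [e, one_div] using ((tendsto_const_nhds (x := top μ)).add tendsto_one_div_add_atTop_nhds_zero_nat).sub_const x
    have ht := lintegral_tendsto_of_tendsto_of_monotone (μ := μ)
      (f := fun n x => (ENNReal.ofReal (top μ + e n - x))⁻¹)
      (fun n => ((ENNReal.measurable_ofReal.comp (by fun_prop)).inv).aemeasurable)
      (Eventually.of_forall hmono) (Eventually.of_forall hlim)
    refine absurd (le_of_tendsto' ht fun n => ?_) (not_le.2 hG)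
    have hz : top μ < top μ + e n := lt_add_of_pos_right _ (by positivity)
    have e1 : ∫⁻ x, (ENNReal.ofReal (top μ + e n - x))⁻¹ ∂μ = ∫⁻ x, ENNReal.ofReal (top μ + e n - x)⁻¹ ∂μ :=
      lintegral_congr_ae ((ae_mem hμ).mono fun x hx => (ENNReal.ofReal_inv_of_pos (by linarith)).symm)
    rw [e1, ← ofReal_integral_eq_lintegral_ofReal (integrable_kernels hμ hz).1
      ((ae_mem hμ).mono fun x hx => inv_nonneg.2 (by linarith))]
    exact ENNReal.ofReal_le_ofReal (hc _ hz)
  set z2 := max (z1 + 1) (top μ + 1 / β + 1)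
  have h12 : z1 < z2 := lt_of_lt_of_le (lt_add_one z1) (le_max_left _ _)
  have h2 : stiel μ z2 < β := by
    refine lt_of_le_of_lt (stiel_le hμ (hz1.trans h12)) ?_
    have : 1 / β < z2 - top μ := by linarith [le_max_right (z1 + 1) (top μ + 1 / β + 1)]
    rw [inv_lt_comm₀ (by linarith) hβ, ← one_div]; exact this
  obtain ⟨z, hz, hzv⟩ := intermediate_value_Icc' h12.le
    ((continuousOn_stiel hμ).mono fun t ht => lt_of_lt_of_le hz1 ht.1) ⟨h2.le, h1.le⟩
  exact ⟨z, lt_of_lt_of_le hz1 hz.1, hzv⟩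

/-- the rate lies above its tangent in `z` -/
lemma rate_tangent (hμ : IsCompact μ.support) {θ z z0 : ℝ} (hz : top μ < z) (hz0 : top μ < z0) :
    rate μ θ z0 + (θ - stiel μ z0) * (z - z0) / 2 ≤ rate μ θ z := by
  obtain ⟨i1, -, i3, -⟩ := integrable_kernels hμ hz0
  obtain ⟨-, -, j3, -⟩ := integrable_kernels hμ hz
  have h := integral_mono_ae j3 (i3.add (i1.const_mul (z - z0))) ((ae_mem hμ).mono fun x hx => by
    have h0 : 0 < z0 - x := by linarith
    have h1 : 0 < z - x := by linarith
    have := log_le_sub_one_of_pos (div_pos h1 h0)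
    rw [log_div h1.ne' h0.ne'] at this
    show log (z - x) ≤ log (z0 - x) + (z - z0) * (z0 - x)⁻¹
    have e : (z - x) / (z0 - x) - 1 = (z - z0) * (z0 - x)⁻¹ := by field_simp; ring
    linarith)
  simp only [Pi.add_apply] at h
  rw [integral_add i3 (i1.const_mul _), integral_const_mul] at h
  unfold rate stiel at *
  linarith

lemma annealed_eq (hμ : IsCompact μ.support) {β z0 : ℝ} (hz0 : top μ < z0) (h : stiel μ z0 = β) :
    annealed μ β = rate μ β z0 := by
  have hl : ∀ z : Set.Ioi (top μ), rate μ β z0 ≤ rate μ β z := fun z => by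
    have := rate_tangent hμ (θ := β) z.2 hz0
    rw [h, sub_self, zero_mul, zero_div, add_zero] at this
    exact this
  have : Nonempty (Set.Ioi (top μ)) := ⟨⟨z0, hz0⟩⟩
  have hb : BddBelow (Set.range fun z : Set.Ioi (top μ) => rate μ β z) :=
    ⟨rate μ β z0, by rintro _ ⟨z, rfl⟩; exact hl z⟩
  exact le_antisymm (ciInf_le hb ⟨z0, hz0⟩) (le_ciInf hl)

/-- binary rate function -/
def ent (q : ℝ) : ℝ := ((1 + q) * log (1 + q) + (1 - q) * log (1 - q)) / 2

lemma continuous_ent : Continuous ent := by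
  unfold ent
  exact ((Real.continuous_mul_log.comp (continuous_const.add continuous_id)).add
    (Real.continuous_mul_log.comp (continuous_const.sub continuous_id))).div_const 2

lemma ent_dual {q : ℝ} (hq : |q| < 1) :
    let s := (log (1 + q) - log (1 - q)) / 2
    ent q = s * q - log (cosh s) := by
  intro s
  obtain ⟨h1, h2⟩ := abs_lt.1 hq
  have hp : 0 < 1 + q := by linarith
  have hm : 0 < 1 - q := by linarith
  set w := (log (1 + q) + log (1 - q)) / 2
  have e : cosh s = exp (-w) := by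
    have e1 : exp s = exp (log (1 + q)) * exp (-w) := by rw [← exp_add]; congr 1; simp only [s, w]; ring
    have e2 : exp (-s) = exp (log (1 - q)) * exp (-w) := by rw [← exp_add]; congr 1; simp only [s, w]; ring
    rw [cosh_eq, e1, e2, exp_log hp, exp_log hm]; ring
  rw [e, log_exp]; simp only [s, w, ent]; ring

/-- the second-moment criterion at `β` -/
def Crit (μ : Measure ℝ) (β : ℝ) : Prop :=
  ∀ z, top μ < z → stiel μ z < β →
    4 * (β - stiel μ z) ^ 2 * stielSq μ z < stiel μ z ^ 2 * (2 * β - stiel μ z) ^ 2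

/-- the weaker criterion at `g` gives the strict one below `g` -/
lemma crit_mono (hμ : IsCompact μ.support) {β g : ℝ} (hβ : β < g)
    (h : ∀ z, top μ < z → stiel μ z < g → 4 * (g - stiel μ z) ^ 2 * stielSq μ z ≤ stiel μ z ^ 2 * (2 * g - stiel μ z) ^ 2) :
    Crit μ β := by
  intro z hz hzβ
  obtain ⟨hG, hM⟩ := stiel_pos hμ hz
  set G := stiel μ z
  set M := stielSq μ z
  have hg := h z hz (hzβ.trans hβ)
  by_contra hc
  push Not at hc
  have key : (β - G) * (2 * g - G) < (g - G) * (2 * β - G) := by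
    linarith [mul_lt_mul_of_pos_left hβ hG]
  have h1 := mul_le_mul_of_nonneg_left hg (sq_nonneg (β - G))
  have h2 := mul_le_mul_of_nonneg_left hc (sq_nonneg (g - G))
  have h3 : ((β - G) * (2 * g - G)) ^ 2 < ((g - G) * (2 * β - G)) ^ 2 :=
    pow_lt_pow_left₀ key (mul_nonneg (by linarith) (by linarith)) two_ne_zero
  have h4 := mul_lt_mul_of_pos_left h3 (show 0 < G ^ 2 by positivity)
  linarith

/-- gap between the binary rate and the two-replica rate along the path `θ₋ = stiel z` -/
def gapPath (μ : Measure ℝ) (β z0 z : ℝ) : ℝ :=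
  ent (1 - stiel μ z / β) - (rate μ (2 * β - stiel μ z) z0 + rate μ (stiel μ z) z - 2 * rate μ β z0)

lemma algebra_D {β G M : ℝ} (hβ : 0 < β) (hG : 0 < G) (h : 0 < 2 * β - G) :
    ((-(-M / β) / (2 - G / β) - -M / β / (G / β)) / 2 - β / 2 * (-1 - - - -M / (2 * β - G) ^ 2 + - -M / G ^ 2)) =
      β / 2 * (1 - 4 * (β - G) ^ 2 * M / (G ^ 2 * (2 * β - G) ^ 2)) := by
  obtain ⟨u, rfl⟩ : ∃ u, β = (u + G) / 2 := ⟨2 * β - G, by ring⟩
  have e1 : 2 * ((u + G) / 2) - G = u := by ring
  rw [e1] at h
  have hs : (u + G) ≠ 0 := by linarith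
  rw [e1, show 2 - G / ((u + G) / 2) = 2 * u / (u + G) by field_simp; ring]
  field_simp
  ring

lemma algebra_A {β G M z z0 P Q : ℝ} (hβ : 0 < β) (hG : 0 < G) (h : 0 < 2 * β - G) :
    (-(-M / β) * P + (2 - G / β) * (-(-M / β) / (2 - G / β)) + (- -(-M / β) * Q + G / β * (- -(-M / β) / (G / β)))) / 2 -
      ((- -M * z0 - - -M / (2 * β - G)) / 2 + (-M * z + G * 1 - -M / G - G) / 2) =
    M / β * ((P - Q) / 2 - β / 2 * (z0 - z - (2 * β - G)⁻¹ + G⁻¹)) := by
  obtain ⟨u, rfl⟩ : ∃ u, β = (u + G) / 2 := ⟨2 * β - G, by ring⟩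
  have e1 : 2 * ((u + G) / 2) - G = u := by ring
  rw [e1] at h
  have hs : (u + G) ≠ 0 := by linarith
  rw [e1, show 2 - G / ((u + G) / 2) = 2 * u / (u + G) by field_simp; ring]
  field_simp
  ring

lemma gapPath_strictMono (hμ : IsCompact μ.support) {β z0 : ℝ} (hβ : 0 < β) (hz0 : top μ < z0)
    (hv : stiel μ z0 = β) (hc : Crit μ β) :
    StrictMonoOn (gapPath μ β z0) (Set.Ici z0) ∧ gapPath μ β z0 z0 = 0 := by
  refine ⟨?_, ?_⟩
  swap
  · simp only [gapPath, hv, div_self hβ.ne', sub_self, ent]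
    rw [show 2 * β - β = β by ring]; simp; ring
  have hlt : ∀ z, z0 < z → top μ < z ∧ 0 < stiel μ z ∧ stiel μ z < β := fun z hz =>
    ⟨hz0.trans hz, (stiel_pos hμ (hz0.trans hz)).1, hv ▸ stiel_strictAnti hμ hz0 (hz0.trans hz) hz⟩
  have hle : ∀ z, z0 ≤ z → top μ < z ∧ 0 < stiel μ z ∧ stiel μ z ≤ β := fun z hz => by
    rcases hz.eq_or_lt with h | h
    · subst h; exact ⟨hz0, hv.symm ▸ hβ, hv.le⟩
    · exact ⟨(hlt z h).1, (hlt z h).2.1, (hlt z h).2.2.le⟩
  set D := fun z => (log (2 - stiel μ z / β) - log (stiel μ z / β)) / 2 -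
    β / 2 * (z0 - z - (2 * β - stiel μ z)⁻¹ + (stiel μ z)⁻¹)
  have dq : ∀ z, z0 ≤ z → HasDerivAt (fun t => stiel μ t / β) (-stielSq μ z / β) z := fun z hz =>
    (hasDerivAt_kernels hμ (hle z hz).1).1.div_const β
  have dD : ∀ z, z0 ≤ z → HasDerivAt D (β / 2 * (1 - 4 * (β - stiel μ z) ^ 2 * stielSq μ z /
      (stiel μ z ^ 2 * (2 * β - stiel μ z) ^ 2))) z := by
    intro z hz
    obtain ⟨h1, h2, h3⟩ := hle z hz
    have dg := (hasDerivAt_kernels hμ h1).1
    have a : 0 < 2 * β - stiel μ z := by linarith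
    have b1 : 0 < 2 - stiel μ z / β := by
      rw [sub_pos, div_lt_iff₀ hβ]; linarith
    have b2 : 0 < stiel μ z / β := div_pos h2 hβ
    have := ((((dq z hz).const_sub 2).log b1.ne').sub ((dq z hz).log b2.ne')).div_const 2 |>.sub
      (((((hasDerivAt_id z).const_sub z0).sub ((dg.const_sub (2 * β)).fun_inv a.ne')).add (dg.fun_inv h2.ne')).const_mul (β / 2))
    exact this.congr_deriv (algebra_D hβ h2 a)
  have hD0 : D z0 = 0 := by
    simp only [D, hv, div_self hβ.ne']
    rw [show 2 * β - β = β by ring]; norm_num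
  have cD : ContinuousOn D (Set.Ici z0) := fun z hz => (dD z hz).continuousAt.continuousWithinAt
  have hDmono : StrictMonoOn D (Set.Ici z0) :=
    strictMonoOn_of_deriv_pos (convex_Ici _) cD fun z hz => by
      rw [interior_Ici] at hz
      obtain ⟨h1, h2, h3⟩ := hlt z hz
      rw [(dD z hz.le).deriv]
      have hpos : 0 < stiel μ z ^ 2 * (2 * β - stiel μ z) ^ 2 := by
        have : 0 < 2 * β - stiel μ z := by linarith
        positivity
      have : 4 * (β - stiel μ z) ^ 2 * stielSq μ z / (stiel μ z ^ 2 * (2 * β - stiel μ z) ^ 2) < 1 := by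
        rw [div_lt_one hpos]; exact hc z h1 h3
      exact mul_pos (by linarith) (by linarith)
  have dA : ∀ z, z0 < z → HasDerivAt (gapPath μ β z0) (stielSq μ z / β * D z) z := by
    intro z hz
    obtain ⟨h1, h2, h3⟩ := hlt z hz
    have dg := (hasDerivAt_kernels hμ h1).1
    have dl := (hasDerivAt_kernels hμ h1).2
    have a : 0 < 2 * β - stiel μ z := by linarith
    have q0 : 0 < 1 - stiel μ z / β := by rw [sub_pos, div_lt_one hβ]; exact h3
    have b2 : 0 < stiel μ z / β := div_pos h2 hβ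
    have dp := ((dq z hz.le).const_sub 1).const_add 1
    have dm := ((dq z hz.le).const_sub 1).const_sub 1
    have e1 := ((dp.mul (dp.log (by linarith))).add (dm.mul (dm.log (by linarith)))).div_const 2
    have e2 := ((((((dg.const_sub (2 * β)).mul_const z0).sub_const 1).sub ((dg.const_sub (2 * β)).log a.ne')).sub_const
      (∫ x, log (z0 - x) ∂μ)).div_const 2)
    have e3 := ((((dg.mul (hasDerivAt_id z)).sub_const 1).sub (dg.log h2.ne')).sub dl).div_const 2
    have := e1.sub ((e2.add e3).sub_const (2 * rate μ β z0))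
    refine this.congr_deriv ?_
    simp only [D, id_eq]
    have s1 : 1 + (1 - stiel μ z / β) = 2 - stiel μ z / β := by ring
    have s2 : 1 - (1 - stiel μ z / β) = stiel μ z / β := by ring
    rw [s1, s2]
    exact algebra_A hβ h2 a
  have cA : ContinuousOn (gapPath μ β z0) (Set.Ici z0) := by
    intro z hz
    obtain ⟨h1, h2, h3⟩ := hle z hz
    have cg := (hasDerivAt_kernels hμ h1).1.continuousAt
    have cl := (hasDerivAt_kernels hμ h1).2.continuousAt
    have a : 0 < 2 * β - stiel μ z := by linarith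
    refine ContinuousAt.continuousWithinAt ?_
    unfold gapPath rate
    refine (continuous_ent.continuousAt.comp (continuousAt_const.sub (cg.div_const β))).sub
      (((((((continuousAt_const.sub cg).mul continuousAt_const).sub continuousAt_const).sub
        ((continuousAt_const.sub cg).log a.ne')).sub continuousAt_const).div_const 2).add
        (((((cg.mul continuousAt_id).sub continuousAt_const).sub (cg.log h2.ne')).sub cl).div_const 2) |>.sub continuousAt_const)
  refine strictMonoOn_of_deriv_pos (convex_Ici _) cA fun z hz => ?_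
  rw [interior_Ici] at hz
  rw [(dA z hz).deriv]
  exact mul_pos (div_pos (stiel_pos hμ (hlt z hz).1).2 hβ) (hD0 ▸ hDmono Set.self_mem_Ici (Set.mem_Ici.2 (le_of_lt hz)) hz)

/-- interior overlaps: strict inequality -/
lemma gap_interior (hμ : IsCompact μ.support) {β z0 : ℝ} (hβ : 0 < β) (hz0 : top μ < z0) (hv : stiel μ z0 = β)
    (hc : Crit μ β) {q : ℝ} (hq0 : 0 < q) (hq1 : q < 1) :
    ∃ z, top μ < z ∧ rate μ (β * (1 + q)) z0 + rate μ (β * (1 - q)) z - 2 * rate μ β z0 < ent q := by
  have hp : 0 < β * (1 - q) := mul_pos hβ (by linarith)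
  have hlt : β * (1 - q) < β := by linarith [mul_pos hβ hq0]
  have hG : ENNReal.ofReal (β * (1 - q)) < edgeG μ := by
    refine lt_of_lt_of_le ((ENNReal.ofReal_lt_ofReal_iff hβ).2 hlt) ?_
    rw [← hv, stiel, ofReal_integral_eq_lintegral_ofReal (integrable_kernels hμ hz0).1
      ((ae_mem hμ).mono fun x hx => inv_nonneg.2 (by linarith))]
    refine lintegral_mono_ae ((ae_mem hμ).mono fun x hx => ?_)
    rw [ENNReal.ofReal_inv_of_pos (by linarith)]
    exact ENNReal.inv_le_inv.2 (ENNReal.ofReal_le_ofReal (by linarith))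
  obtain ⟨z, hz, hzv⟩ := exists_crit hμ hp hG
  obtain ⟨hm, h0⟩ := gapPath_strictMono hμ hβ hz0 hv hc
  have hzz : z0 < z := by
    by_contra hcon
    have := (stiel_strictAnti hμ).antitoneOn hz hz0 (not_lt.1 hcon)
    linarith
  have h := hm Set.self_mem_Ici (Set.mem_Ici.2 hzz.le) hzz
  rw [h0] at h
  refine ⟨z, hz, ?_⟩
  simp only [gapPath, hzv] at h
  rw [show β * (1 - q) / β = 1 - q by field_simp, sub_sub_cancel, show 2 * β - β * (1 - q) = β * (1 + q) by ring] at h
  linarith

/-- full overlap: strict inequality -/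
lemma gap_edge (hμ : IsCompact μ.support) {β z0 : ℝ} (hβ : 0 < β) (hz0 : top μ < z0) (hv : stiel μ z0 = β)
    (hc : Crit μ β) : rate μ (2 * β) z0 - 2 * rate μ β z0 < log 2 := by
  obtain ⟨hm, h0⟩ := gapPath_strictMono hμ hβ hz0 hv hc
  set γ := gapPath μ β z0 (z0 + 1)
  have hγ : 0 < γ := h0 ▸ hm Set.self_mem_Ici (Set.mem_Ici.2 (by linarith)) (by linarith)
  set C := |∫ x, x ∂μ|
  have hlow : ∀ᶠ z in atTop, rate μ (2 * β - stiel μ z) z0 - stiel μ z * C / 2 - 2 * rate μ β z0 ≤
      ent (1 - stiel μ z / β) - γ := by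
    filter_upwards [eventually_ge_atTop (z0 + 1)] with z hz
    have h1 : top μ < z := by linarith
    have h2 := hm.monotoneOn (Set.mem_Ici.2 (by linarith : z0 ≤ z0 + 1)) (Set.mem_Ici.2 (by linarith : z0 ≤ z)) hz
    obtain ⟨hG, -⟩ := stiel_pos hμ h1
    obtain ⟨-, -, i3, i4⟩ := integrable_kernels hμ h1
    have hlog : log (stiel μ z) + ∫ x, log (z - x) ∂μ ≤ stiel μ z * (z - ∫ x, x ∂μ) - 1 := by
      have h := integral_mono_ae ((integrable_const (log (stiel μ z))).add i3)
        ((((integrable_const z).sub i4).const_mul (stiel μ z)).sub (integrable_const 1)) ((ae_mem hμ).mono fun x hx => by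
          have := log_le_sub_one_of_pos (mul_pos hG (show 0 < z - x by linarith))
          rw [log_mul hG.ne' (by linarith)] at this
          exact this)
      simp only [Pi.add_apply, Pi.sub_apply] at h
      rw [integral_add (integrable_const _) i3, integral_sub (f := fun x => stiel μ z * (z - x))
        (((integrable_const z).sub i4).const_mul _) (integrable_const 1)] at h
      rw [integral_const_mul, integral_sub (integrable_const z) i4] at h
      simpa using h
    have hr : -(stiel μ z * C / 2) ≤ rate μ (stiel μ z) z := by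
      have := mul_le_mul_of_nonneg_left (neg_abs_le (∫ x, x ∂μ)) hG.le
      unfold rate
      linarith
    simp only [gapPath, γ] at h2 ⊢
    linarith
  have hG0 : Tendsto (stiel μ) atTop (𝓝 0) := by
    refine squeeze_zero' ((eventually_gt_atTop (top μ)).mono fun z hz => (stiel_pos hμ hz).1.le)
      ((eventually_gt_atTop (top μ)).mono fun z hz => stiel_le hμ hz) ?_
    exact tendsto_inv_atTop_zero.comp (tendsto_atTop_add_const_right atTop _ tendsto_id)
  have cr : ContinuousAt (fun g : ℝ => rate μ (2 * β - g) z0 - g * C / 2 - 2 * rate μ β z0) 0 := by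
    unfold rate
    have : (fun g : ℝ => 2 * β - g) 0 ≠ 0 := by simp [hβ.ne']
    exact (((((by fun_prop : ContinuousAt (fun g : ℝ => (2 * β - g) * z0 - 1) 0).sub
      ((by fun_prop : ContinuousAt (fun g : ℝ => 2 * β - g) 0).log this)).sub continuousAt_const).div_const 2).sub
      (by fun_prop : ContinuousAt (fun g : ℝ => g * C / 2) 0)).sub continuousAt_const
  have ce : ContinuousAt (fun g : ℝ => ent (1 - g / β) - γ) 0 :=
    ((continuous_ent.comp (by fun_prop)).sub continuous_const).continuousAt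
  have h := le_of_tendsto_of_tendsto (cr.tendsto.comp hG0) (ce.tendsto.comp hG0) hlow
  simp only [sub_zero, zero_mul, zero_div, ent] at h
  norm_num at h
  linarith

end Vale.Agent.P166.Phase
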