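import Vale.Agent.P166.Phase.Tilt

/-!
Spherical integrals of diagonal quadratic forms: bounds with bounded error, for one direction and
for a direction orthogonal to a given one.
-/

open MeasureTheory ProbabilityTheory Real
open scoped ENNReal NNReal

noncomputable section

namespace Vale.Agent.P166.Phase

open Pattern (gauss)

variable {N : ℕ}

/-- uniform law on the unit sphere -/
def sph (N : ℕ) : Measure (Fin N → ℝ) := (gauss (Fin N)).map nz

/-- uniform law on the unit vectors orthogonal to `e` -/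
def perpLaw (e : Fin N → ℝ) : Measure (Fin N → ℝ) := (gauss (Fin N)).map fun g => nz (perp e g)

/-- orthogonal array fixing `e`, built from `U` -/
def stab (e : Fin N → ℝ) (U : Mat N) : Mat N := mul (refl fun i => app U e i - e i) U

lemma measurable_stab (e : Fin N → ℝ) : Measurable (stab e) := by unfold stab mul refl app ip; fun_prop

@[fun_prop]
lemma measurable_perp (e : Fin N → ℝ) : Measurable (perp e) := by unfold perp ip; fun_prop

instance : IsProbabilityMeasure (sph N) := Measure.isProbabilityMeasure_map measurable_nz.aemeasurable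

instance (e : Fin N → ℝ) : IsProbabilityMeasure (perpLaw e) :=
  Measure.isProbabilityMeasure_map (measurable_nz.comp (measurable_perp e)).aemeasurable

lemma nz_of_unit {e : Fin N → ℝ} (he : ip e e = 1) : nz e = e := by funext i; simp [nz, he]

lemma nz_ne_zero_ae (hN : 0 < N) : ∀ᵐ g ∂gauss (Fin N), ip g g ≠ 0 := by
  refine (linear_ne_zero_ae (c := Pi.single (⟨0, hN⟩ : Fin N) 1) (by simp [ip, Pi.single_apply])).mono fun x hx h0 => ?_
  have hz : ∀ i, x i = 0 := fun i => mul_self_eq_zero.1
    (le_antisymm (h0 ▸ Finset.single_le_sum (f := fun i => x i * x i) (fun i _ => mul_self_nonneg _) (Finset.mem_univ i))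
      (mul_self_nonneg _))
  exact hx (by simp [ip, hz])

lemma sph_unit (hN : 0 < N) : ∀ᵐ e ∂sph N, ip e e = 1 := by
  rw [sph, ae_map_iff measurable_nz.aemeasurable (measurableSet_eq_fun (by unfold ip; fun_prop) measurable_const)]
  exact (nz_ne_zero_ae hN).mono fun g hg => ip_nz_self hg

lemma perp_ne_zero_ae (hN : 2 ≤ N) {e : Fin N → ℝ} (he : ip e e = 1) :
    ∀ᵐ g ∂gauss (Fin N), ip (perp e g) (perp e g) ≠ 0 := by
  obtain ⟨i0, h0⟩ : ∃ i, e i ≠ 0 := by
    by_contra h
    push Not at h
    simp [ip, h] at he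
  have : Nontrivial (Fin N) := Fin.nontrivial_iff_two_le.2 hN
  obtain ⟨i1, h1⟩ := exists_ne i0
  classical
  set d : Fin N → ℝ := fun i => (if i = i1 then 1 else 0) * e i0 - (if i = i0 then 1 else 0) * e i1
  have hd : ip d d ≠ 0 := ne_of_gt (lt_of_lt_of_le (mul_self_pos.2 (show d i1 ≠ 0 by simp [d, h1, h0]))
    (Finset.single_le_sum (f := fun i => d i * d i) (fun i _ => mul_self_nonneg _) (Finset.mem_univ i1)))
  filter_upwards [linear_ne_zero_ae (ip_nz_self hd)] with y hy hz
  have hz' : ∀ i, perp e y i = 0 := fun i => mul_self_eq_zero.1 (le_antisymm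
    (hz ▸ Finset.single_le_sum (f := fun i => perp e y i * perp e y i) (fun i _ => mul_self_nonneg _) (Finset.mem_univ i))
    (mul_self_nonneg _))
  have hyi : ∀ i, y i = ip e y * e i := fun i => by
    have := sub_eq_zero.1 (hz' i); rwa [nz_of_unit he] at this
  refine hy ?_
  have : ip d y = 0 := by
    simp only [ip, d, sub_mul, ite_mul, one_mul, zero_mul, Finset.sum_sub_distrib, Finset.sum_ite_eq',
      Finset.mem_univ, if_true]
    rw [hyi i1, hyi i0]; ring
  simp only [ip, nz, div_mul_eq_mul_div, ← Finset.sum_div]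
  simp only [ip] at this
  rw [this, zero_div]

lemma perpLaw_unit (hN : 2 ≤ N) {e : Fin N → ℝ} (he : ip e e = 1) : ∀ᵐ f ∂perpLaw e, ip f f = 1 := by
  have hm : Measurable fun g => nz (perp e g) := measurable_nz.comp (measurable_perp e)
  rw [perpLaw, ae_map_iff hm.aemeasurable (measurableSet_eq_fun (by unfold ip; fun_prop) measurable_const)]
  exact (perp_ne_zero_ae hN he).mono fun g hg => ip_nz_self hg

lemma stab_orth {e : Fin N → ℝ} {U : Mat N} (hU : Orth U) : Orth (stab e U) :=
  show Matrix.of (refl _) * Matrix.of U ∈ Matrix.orthogonalGroup (Fin N) ℝ from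
    Submonoid.mul_mem _ (orth_refl _) hU

lemma stab_fix {e : Fin N → ℝ} {U : Mat N} (hU : Orth U) : app (stab e U) e = e := by
  rw [stab, app_mul]; exact app_refl_map (ip_app hU e e)

lemma stab_mul {e : Fin N → ℝ} (U : Mat N) {O : Mat N} (hO : app O e = e) :
    stab e (mul U O) = mul (stab e U) O := by
  have assoc : ∀ A B C : Mat N, mul A (mul B C) = mul (mul A B) C := fun A B C => by
    have h := (Matrix.mul_assoc (Matrix.of A) (Matrix.of B) (Matrix.of C)).symm
    exact h
  rw [stab, stab, app_mul, hO, assoc]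

variable {ν : Measure (Mat N)}

/-- law of the image of a unit vector orthogonal to `e` under the stabiliser of `e` -/
theorem law_stab (hν : IsHaarOrthogonal ν) (hN : 2 ≤ N) {e : Fin N → ℝ} (he : ip e e = 1) :
    (∀ f, ip f f = 1 → ip e f = 0 → ν.map (fun U => app (stab e U) f) = perpLaw e) ∧
    (gauss (Fin N)).map (fun g => (ip (perp e g) (perp e g), nz (perp e g))) =
      ((gauss (Fin N)).map fun g => ip (perp e g) (perp e g)).prod (perpLaw e) := by
  have := hν.1
  have hm : ∀ f, Measurable fun U => app (stab e U) f := fun f =>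
    measurable_app.comp ((measurable_stab e).prodMk measurable_const)
  have move : ∀ f f', ip f f = 1 → ip e f = 0 → ip f' f' = 1 → ip e f' = 0 →
      ν.map (fun U => app (stab e U) f) = ν.map (fun U => app (stab e U) f') := by
    intro f f' h1 h2 h1' h2'
    obtain ⟨O, hO, hOe, hOf⟩ := exists_frame (u := e) (v := f) (u' := e) (v' := f') rfl (h1.trans h1'.symm)
      (h2.trans h2'.symm)
    have hmr : Measurable fun U : Mat N => mul U O := measurable_mul.comp (measurable_id.prodMk measurable_const)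
    conv_lhs => rw [← map_mul_right hν hO]
    rw [Measure.map_map (hm f) hmr]
    congr 1
    funext U
    simp [Function.comp, stab_mul U hOe, app_mul, hOf]
  have hperp : ∀ᵐ g ∂gauss (Fin N), ip (nz (perp e g)) (nz (perp e g)) = 1 ∧ ip e (nz (perp e g)) = 0 := by
    filter_upwards [perp_ne_zero_ae hN he] with g hg
    refine ⟨ip_nz_self hg, ?_⟩
    have := ip_nz_perp (x := e) (by rw [he]; norm_num) g
    rw [nz_of_unit he] at this
    simp only [ip, nz, mul_div_assoc', ← Finset.sum_div] at this ⊢
    rw [this, zero_div]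
  obtain ⟨g0, hg0⟩ := hperp.exists
  have h := polar_gen (ν := ν) (R := stab e) (Pm := perp e) (measurable_stab e) (measurable_perp e)
    (hν.2.1.mono fun U hU => stab_orth hU)
    (hν.2.1.mono fun U hU g => by
      have h := perp_app (stab_orth (e := e) hU) e g
      rwa [stab_fix hU] at h)
    (L := ν.map fun U => app (stab e U) (nz (perp e g0)))
    (hperp.mono fun g hg => move _ _ hg.1 hg.2 hg0.1 hg0.2)
  exact ⟨fun f h1 h2 => (move f _ h1 h2 hg0.1 hg0.2).trans h.1, h.2⟩

theorem polar_sph (hν : IsHaarOrthogonal ν) (hN : 0 < N) :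
    (gauss (Fin N)).map (fun g => (ip g g, nz g)) = ((gauss (Fin N)).map fun g => ip g g).prod (sph N) := by
  have := hν.1
  exact (polar_gen (ν := ν) (R := fun U => U) (Pm := fun g => g) measurable_id measurable_id hν.2.1
    (Filter.Eventually.of_forall fun U g => rfl) (L := sph N)
    ((nz_ne_zero_ae hN).mono fun g hg => law_app hν hN (ip_nz_self hg))).2

/-- a fresh coordinate along `e` completes the projection to a standard vector -/
lemma regauss {e : Fin N → ℝ} (he : ip e e = 1) :
    ((gauss (Fin N)).prod (gaussianReal 0 1)).map (fun q => fun i => perp e q.1 i + q.2 * e i) =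
      gauss (Fin N) := by
  have hm : Measurable fun q : (Fin N → ℝ) × ℝ => fun i => perp e q.1 i + q.2 * e i :=
    measurable_pi_lambda _ fun i =>
      (((measurable_pi_apply i).comp ((measurable_perp e).comp measurable_fst))).add (measurable_snd.mul_const _)
  refine Measure.ext_of_charFunDual (funext fun L => ?_)
  set c := fun p : Fin N => L (Pi.single p 1)
  have hL : ∀ x : Fin N → ℝ, L x = ∑ p, c p * x p := fun x => by
    conv_lhs => rw [pi_eq_sum_univ' x, map_sum]
    exact Finset.sum_congr rfl fun p _ => by rw [map_smul, smul_eq_mul, mul_comm]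
  set d := fun p => c p - ip c e * e p
  have hd : ∀ q : (Fin N → ℝ) × ℝ, L (fun i => perp e q.1 i + q.2 * e i) = (∑ p, d p * q.1 p) + ip c e * q.2 := by
    intro q
    rw [hL]
    simp only [perp, nz_of_unit he, d, ip, mul_add, mul_sub, sub_mul, Finset.sum_add_distrib, Finset.sum_sub_distrib,
      Finset.mul_sum, Finset.sum_mul]
    have h1 : ∑ p, ∑ i, c p * (e i * q.1 i * e p) = ∑ i, ∑ p, c p * e p * e i * q.1 i := by
      rw [Finset.sum_comm]; exact Finset.sum_congr rfl fun i _ => Finset.sum_congr rfl fun p _ => by ring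
    have h2 : ∑ p, c p * (q.2 * e p) = ∑ p, c p * e p * q.2 := Finset.sum_congr rfl fun p _ => by ring
    rw [h1, h2]
  have hsq : ∑ p, d p ^ 2 + ip c e ^ 2 = ∑ p, c p ^ 2 := by
    have e1 : ∀ p, d p ^ 2 = c p ^ 2 - 2 * ip c e * (c p * e p) + ip c e ^ 2 * (e p * e p) := fun p => by
      simp only [d]; ring
    simp only [e1, Finset.sum_add_distrib, Finset.sum_sub_distrib, ← Finset.mul_sum]
    rw [show ∑ p, c p * e p = ip c e from rfl, show ∑ p, e p * e p = ip e e from rfl, he]; ring
  have h : ∀ v : Fin N → ℝ, ∫ x, Complex.exp (((∑ p, v p * x p : ℝ) : ℂ) * Complex.I) ∂gauss (Fin N) =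
      Complex.exp (-((∑ p, v p ^ 2 : ℝ) : ℂ) / 2) := fun v => by
    have h := Pattern.charFun_linear v 1
    rw [charFun_apply_real, integral_map (Pattern.measurable_linear v).aemeasurable (by fun_prop)] at h
    simpa using h
  have h1 : ∀ s : ℝ, ∫ t, Complex.exp (((s * t : ℝ) : ℂ) * Complex.I) ∂gaussianReal 0 1 = Complex.exp (-((s ^ 2 : ℝ) : ℂ) / 2) := by
    intro s
    have h := charFun_gaussianReal (μ := 0) (v := 1) s
    rw [charFun_apply_real] at h
    push_cast
    convert h using 2 <;> push_cast <;> ring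
  rw [charFunDual_apply, charFunDual_apply, integral_map hm.aemeasurable (by fun_prop)]
  simp only [hd, hL, Complex.ofReal_add, add_mul, Complex.exp_add]
  rw [integral_prod_mul (fun x : Fin N → ℝ => Complex.exp (((∑ p, d p * x p : ℝ) : ℂ) * Complex.I))
    (fun t : ℝ => Complex.exp (((ip c e * t : ℝ) : ℂ) * Complex.I)), h, h1, h, ← Complex.exp_add, ← hsq]
  congr 1; push_cast; ring

/-! ### integrals -/

lemma abs_qf_le {c x : Fin N → ℝ} {C : ℝ} (hc : ∀ k, |c k| ≤ C) : |qf c x| ≤ C * ip x x := by
  rw [qf, ip, Finset.mul_sum]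
  refine (Finset.abs_sum_le_sum_abs _ _).trans (Finset.sum_le_sum fun k _ => ?_)
  rw [abs_mul, abs_of_nonneg (sq_nonneg (x k)), sq]
  exact mul_le_mul_of_nonneg_right (hc k) (mul_self_nonneg _)

lemma qf_smul_nz (c : Fin N → ℝ) {x : Fin N → ℝ} (hx : ip x x ≠ 0) : ip x x * qf c (nz x) = qf c x := by
  have h0 : 0 ≤ ip x x := Finset.sum_nonneg fun i _ => mul_self_nonneg _
  simp only [qf, nz, div_pow, Real.sq_sqrt h0, Finset.mul_sum]
  exact Finset.sum_congr rfl fun k _ => by field_simp

lemma integrable_exp_qf (μ : Measure (Fin N → ℝ)) [IsProbabilityMeasure μ] (hμ : ∀ᵐ e ∂μ, ip e e = 1)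
    (c : Fin N → ℝ) (s : ℝ) : Integrable (fun e => exp (s * qf c e)) μ := by
  refine Integrable.of_bound (by fun_prop) (exp (|s| * ∑ k, |c k|)) (hμ.mono fun e he => ?_)
  rw [norm_eq_abs, abs_exp]
  refine exp_le_exp.2 ((le_abs_self _).trans ?_)
  rw [abs_mul]
  refine mul_le_mul_of_nonneg_left ?_ (abs_nonneg s)
  have := abs_qf_le (x := e) (C := ∑ k, |c k|) fun k =>
    Finset.single_le_sum (f := fun k => |c k|) (fun _ _ => abs_nonneg _) (Finset.mem_univ k)
  rwa [he, mul_one] at this

/-- fixing the radius at its mean only decreases the integral -/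
lemma jensen_radius {μr : Measure ℝ} [IsProbabilityMeasure μr] {κ : Measure (Fin N → ℝ)} [IsProbabilityMeasure κ]
    (hκ : ∀ᵐ e ∂κ, ip e e = 1) {c : Fin N → ℝ} {m : ℝ} (hr : Integrable (fun r => r) μr) (hm : ∫ r, r ∂μr = m)
    (hi : Integrable (fun q : ℝ × (Fin N → ℝ) => exp (q.1 * qf c q.2 / 2)) (μr.prod κ)) :
    ∫ e, exp (m / 2 * qf c e) ∂κ ≤ ∫ q, exp (q.1 * qf c q.2 / 2) ∂μr.prod κ := by
  have h1 := integrable_exp_qf κ hκ c (m / 2)
  have h2 : Integrable (fun e => exp (m / 2 * qf c e) * qf c e / 2) κ := by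
    refine ((h1.mul_bdd (c := ∑ k, |c k|) (by fun_prop) (hκ.mono fun e he => ?_))).div_const 2
    have := abs_qf_le (x := e) (C := ∑ k, |c k|) fun k =>
      Finset.single_le_sum (f := fun k => |c k|) (fun _ _ => abs_nonneg _) (Finset.mem_univ k)
    rwa [he, mul_one] at this
  have h3 : Integrable (fun r => r - m) μr := hr.sub (integrable_const m)
  have hg : Integrable (fun q : ℝ × (Fin N → ℝ) => exp (m / 2 * qf c q.2) + (q.1 - m) * (exp (m / 2 * qf c q.2) * qf c q.2 / 2))
      (μr.prod κ) := (h1.comp_snd μr).add (h3.mul_prod h2)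
  refine le_trans (le_of_eq ?_) (integral_mono hg hi fun q => ?_)
  · rw [integral_add (h1.comp_snd μr) (h3.mul_prod h2), integral_fun_snd (fun e => exp (m / 2 * qf c e)),
      integral_prod_mul (fun r : ℝ => r - m) (fun e => exp (m / 2 * qf c e) * qf c e / 2),
      integral_sub hr (integrable_const _), hm]
    simp
  · have e1 : exp (q.1 * qf c q.2 / 2) = exp (m / 2 * qf c q.2) * exp ((q.1 - m) * qf c q.2 / 2) := by
      rw [← exp_add]; congr 1; ring
    rw [e1]
    have := mul_le_mul_of_nonneg_left (add_one_le_exp ((q.1 - m) * qf c q.2 / 2)) (exp_pos (m / 2 * qf c q.2)).le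
    linarith

lemma integral_ip : Integrable (fun g : Fin N → ℝ => ip g g) (gauss (Fin N)) ∧
    ∫ g, ip g g ∂gauss (Fin N) = N := by
  have i1 : Integrable (fun t : ℝ => t ^ 2) (gaussianReal 0 1) :=
    ((memLp_sq_sub_one.integrable one_le_two).add (integrable_const 1)).congr (.of_forall fun t => by simp)
  have h2 : ∫ t, t ^ 2 ∂gaussianReal 0 1 = 1 := by
    have h := Pattern.ibp1 (F := fun t => t) (F' := fun _ => (1:ℝ)) (fun t => hasDerivAt_id t) continuous_const
      ⟨1, 1, fun x => by simp [Real.norm_eq_abs]⟩ (Pattern.Poly.const 1)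
    simpa [sq] using h
  have hk : ∀ k : Fin N, Integrable (fun g : Fin N → ℝ => g k ^ 2) (gauss (Fin N)) := fun k =>
    integrable_comp_eval (μ := fun _ : Fin N => gaussianReal 0 1) (i := k) (f := fun t : ℝ => t ^ 2) i1
  simp only [← qf_one, qf, one_mul]
  refine ⟨integrable_finsetSum _ fun k _ => hk k, ?_⟩
  rw [integral_finsetSum _ fun k _ => hk k]
  have e : ∀ k : Fin N, ∫ g : Fin N → ℝ, g k ^ 2 ∂gauss (Fin N) = 1 := fun k => by
    rw [← h2]; exact integral_comp_eval (μ := fun _ : Fin N => gaussianReal 0 1) (i := k) i1.1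
  simp [e]

/-- upper bound for the spherical integral -/
theorem sph_upper (hν : IsHaarOrthogonal ν) (hN : 0 < N) {p : Fin N → ℝ} (hp : ∀ k, 0 < p k) :
    ∫ e, exp ((N:ℝ) / 2 * qf (fun k => 1 - p k) e) ∂sph N ≤ (√(∏ k, p k))⁻¹ := by
  set c := fun k => 1 - p k
  set μr := (gauss (Fin N)).map fun g => ip g g
  have hrm : Measurable fun g : Fin N → ℝ => ip g g := by unfold ip; fun_prop
  have : IsProbabilityMeasure μr := Measure.isProbabilityMeasure_map hrm.aemeasurable
  have hpair : Measurable fun g : Fin N → ℝ => (ip g g, nz g) := hrm.prodMk measurable_nz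
  have hF : Measurable fun q : ℝ × (Fin N → ℝ) => exp (q.1 * qf c q.2 / 2) := by fun_prop
  have hae : (fun g => exp (ip g g * qf c (nz g) / 2)) =ᵐ[gauss (Fin N)] fun g => exp (qf c g / 2) :=
    (nz_ne_zero_ae hN).mono fun g hg => by simp only [qf_smul_nz c hg]
  have hi : Integrable (fun q : ℝ × (Fin N → ℝ) => exp (q.1 * qf c q.2 / 2)) (μr.prod (sph N)) := by
    rw [← polar_sph hν hN, integrable_map_measure hF.aestronglyMeasurable hpair.aemeasurable]
    exact (gauss_exp hp).1.congr hae.symm
  refine (jensen_radius (sph_unit hN) ((integrable_map_measure (g := fun r : ℝ => r) (by fun_prop) hrm.aemeasurable).2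
    integral_ip.1) (by rw [integral_map hrm.aemeasurable (by fun_prop)]; exact integral_ip.2) hi).trans (le_of_eq ?_)
  rw [← polar_sph hν hN, integral_map hpair.aemeasurable hF.aestronglyMeasurable, integral_congr_ae hae,
    (gauss_exp hp).2]

/-- lower bound for the spherical integral at the critical tilt -/
theorem sph_lower (hN : 0 < N) {p : Fin N → ℝ} {p0 C : ℝ} (hp0 : 0 < p0) (hp : ∀ k, p0 ≤ p k)
    (hC : ∀ k, |1 - p k| ≤ C) (hcrit : ∑ k, 1 / p k = N) :
    (√(∏ k, p k))⁻¹ * exp (-(cfour * (C ^ 2 + C + 1) / p0 ^ 2)) ≤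
      ∫ e, exp ((N:ℝ) / 2 * qf (fun k => 1 - p k) e) ∂sph N := by
  have hpp : ∀ k, 0 < p k := fun k => hp0.trans_le (hp k)
  have hC0 : 0 ≤ C := (abs_nonneg _).trans (hC ⟨0, hN⟩)
  have hN' : (0:ℝ) < N := by exact_mod_cast hN
  set c := fun k => 1 - p k
  set D := (√(∏ k, p k))⁻¹
  have hD : 0 < D := inv_pos.2 (Real.sqrt_pos.2 (Finset.prod_pos fun k _ => hpp k))
  set X := fun g : Fin N → ℝ => -((ip g g - N) * qf c (nz g)) / 2
  set B := fun g : Fin N → ℝ => (qf c g ^ 2 / 2 + (C + 1 / 2) * (ip g g - N) ^ 2) / (2 * N)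
  have hXB : ∀ᵐ g ∂gauss (Fin N), |X g| ≤ B g := by
    filter_upwards [nz_ne_zero_ae hN] with g hg
    have hy : |qf c (nz g)| ≤ C := by
      have := abs_qf_le (x := nz g) hC
      rwa [ip_nz_self hg, mul_one] at this
    set y := qf c (nz g)
    set r := ip g g
    have hS : qf c g = r * y := (qf_smul_nz c hg).symm
    have key : (N:ℝ) * ((r - N) * y) = r * y * (r - N) - y * (r - N) ^ 2 := by ring
    have hb : |(N:ℝ) * ((r - N) * y)| ≤ (r * y) ^ 2 / 2 + (C + 1 / 2) * (r - N) ^ 2 := by
      rw [key]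
      have u1 : |r * y * (r - N)| ≤ ((r * y) ^ 2 + (r - N) ^ 2) / 2 := by
        rw [abs_le]; constructor <;> nlinarith [sq_nonneg (r * y + (r - N)), sq_nonneg (r * y - (r - N))]
      have u2 : |y * (r - N) ^ 2| ≤ C * (r - N) ^ 2 := by
        rw [abs_mul, abs_of_nonneg (sq_nonneg (r - N))]; exact mul_le_mul_of_nonneg_right hy (sq_nonneg _)
      linarith [abs_sub (r * y * (r - N)) (y * (r - N) ^ 2)]
    rw [abs_mul, abs_of_pos hN'] at hb
    simp only [X, B, hS]
    rw [abs_div, abs_neg, abs_two, div_le_div_iff₀ two_pos (by positivity)]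
    linarith
  have hBsc : (fun g => B (sc p g)) = fun g =>
      ((qf (fun k => c k / p k) g - ∑ k, c k / p k) ^ 2 / 2 +
        (C + 1 / 2) * (qf (fun k => 1 / p k) g - ∑ k, 1 / p k) ^ 2) / (2 * N) := by
    funext g
    have e1 : ∑ k, c k / p k = 0 := by
      have : ∀ k, c k / p k = 1 / p k - 1 := fun k => by simp only [c]; field_simp [(hpp k).ne']
      rw [Finset.sum_congr rfl fun k _ => this k, Finset.sum_sub_distrib, hcrit]
      simp
    simp only [B]
    rw [← qf_one (sc p g), qf_sc hpp, qf_sc hpp, e1, sub_zero, hcrit]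
  have hBm : Measurable B := by simp only [B, ip]; fun_prop
  have hiB : Integrable (fun g => B (sc p g)) (gauss (Fin N)) := by
    rw [hBsc]; exact (((qf_sq _).1.div_const 2).add ((qf_sq _).1.const_mul _)).div_const _
  have hiEB := integrable_tilt hpp hBm hiB
  have hXm : Measurable X := by simp only [X, ip]; fun_prop
  have hiEX : Integrable (fun g => exp (qf c g / 2) * X g) (gauss (Fin N)) :=
    hiEB.mono' ((by fun_prop : Measurable fun g => exp (qf c g / 2)).mul hXm).aestronglyMeasurable
      (hXB.mono fun g hg => by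
        rw [norm_eq_abs, abs_mul, abs_exp]; exact mul_le_mul_of_nonneg_left hg (exp_pos _).le)
  set K := cfour * (C ^ 2 + C + 1) / p0 ^ 2
  have hBval : ∫ g, exp (qf c g / 2) * B g ∂gauss (Fin N) ≤ D * K := by
    rw [integral_tilt hpp hBm]
    refine mul_le_mul_of_nonneg_left ?_ hD.le
    rw [hBsc, integral_div, integral_add ((qf_sq _).1.div_const 2) ((qf_sq _).1.const_mul _), integral_div,
      integral_const_mul, (qf_sq _).2, (qf_sq _).2, div_le_iff₀ (by positivity)]
    have s1 : ∑ k, (c k / p k) ^ 2 ≤ N * (C ^ 2 / p0 ^ 2) := by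
      refine (Finset.sum_le_sum (g := fun _ => C ^ 2 / p0 ^ 2) fun k _ => ?_).trans (by simp)
      rw [div_pow, ← sq_abs (c k)]
      exact div_le_div₀ (sq_nonneg _) (pow_le_pow_left₀ (abs_nonneg _) (hC k) 2) (by positivity)
        (pow_le_pow_left₀ hp0.le (hp k) 2)
    have s2 : ∑ k, (1 / p k) ^ 2 ≤ N * (1 / p0 ^ 2) := by
      refine (Finset.sum_le_sum (g := fun _ => 1 / p0 ^ 2) fun k _ => ?_).trans (by simp)
      rw [div_pow, one_pow]
      exact one_div_le_one_div_of_le (by positivity) (pow_le_pow_left₀ hp0.le (hp k) 2)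
    have t1 := mul_le_mul_of_nonneg_left s1 cfour_nonneg
    have t2 := mul_le_mul_of_nonneg_left s2 (mul_nonneg (show 0 ≤ C + 1 / 2 by linarith) cfour_nonneg)
    have eK : K * (2 * N) = cfour * (N * (C ^ 2 / p0 ^ 2)) * 2 + (C + 1) * cfour * (N * (1 / p0 ^ 2)) * 2 := by
      simp only [K]; field_simp; ring
    have p1 : 0 ≤ cfour * (N * (C ^ 2 / p0 ^ 2)) := mul_nonneg cfour_nonneg (by positivity)
    have p2 : 0 ≤ (C + 1) * cfour * (N * (1 / p0 ^ 2)) := mul_nonneg (mul_nonneg (by linarith) cfour_nonneg) (by positivity)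
    have p3 : 0 ≤ cfour * (N * (1 / p0 ^ 2)) := mul_nonneg cfour_nonneg (by positivity)
    rw [eK]; linarith
  have hXlow : -(D * K) ≤ ∫ g, exp (qf c g / 2) * X g ∂gauss (Fin N) := by
    refine le_trans (neg_le_neg hBval) ?_
    rw [← integral_neg]
    refine integral_mono_ae hiEB.neg hiEX (hXB.mono fun g hg => ?_)
    show -(exp (qf c g / 2) * B g) ≤ _
    rw [← mul_neg]; exact mul_le_mul_of_nonneg_left (neg_le_of_abs_le hg) (exp_pos _).le
  rw [sph, integral_map measurable_nz.aemeasurable (by fun_prop)]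
  have hae : (fun g => exp ((N:ℝ) / 2 * qf c (nz g))) =ᵐ[gauss (Fin N)]
      fun g => exp (qf c g / 2) * exp (X g) := (nz_ne_zero_ae hN).mono fun g hg => by
    simp only [X]; rw [← exp_add, ← qf_smul_nz c hg]; congr 1; ring
  have hiR : Integrable (fun g => exp ((N:ℝ) / 2 * qf c (nz g))) (gauss (Fin N)) :=
    (integrable_map_measure (g := fun e => exp ((N:ℝ) / 2 * qf c e)) (by fun_prop) measurable_nz.aemeasurable).1
      (integrable_exp_qf (sph N) (sph_unit hN) c _)
  rw [integral_congr_ae hae]
  have hiE := (gauss_exp hpp).1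
  have hlow : Integrable (fun g => exp (-K) * ((1 + K) * exp (qf c g / 2) + exp (qf c g / 2) * X g)) (gauss (Fin N)) :=
    ((hiE.const_mul (1 + K)).add hiEX).const_mul _
  refine le_trans ?_ (integral_mono hlow (hiR.congr hae) fun g => ?_)
  · rw [integral_const_mul, integral_add (hiE.const_mul _) hiEX, integral_const_mul, (gauss_exp hpp).2, mul_comm D]
    refine mul_le_mul_of_nonneg_left ?_ (exp_pos _).le
    linarith
  · have h := mul_le_mul_of_nonneg_left (add_one_le_exp (X g + K)) (exp_pos (-K)).le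
    rw [← exp_add (-K), show -K + (X g + K) = X g by ring] at h
    have h2 := mul_le_mul_of_nonneg_left h (exp_pos (qf c g / 2)).le
    linarith

/-- upper bound for the spherical integral orthogonally to a given direction -/
theorem perp_upper (hν : IsHaarOrthogonal ν) (hN : 2 ≤ N) {e : Fin N → ℝ} (he : ip e e = 1)
    {p : Fin N → ℝ} (hp : ∀ k, 0 < p k) {C : ℝ} (hC : ∀ k, |1 - p k| ≤ C) :
    ∫ f, exp ((N:ℝ) / 2 * qf (fun k => 1 - p k) f) ∂perpLaw e ≤ exp C * (√(∏ k, p k))⁻¹ := by
  set c := fun k => 1 - p k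
  set h := perp e
  have hperp : Measurable h := measurable_perp e
  have hqe : |qf c e| ≤ C := by have := abs_qf_le (x := e) hC; rwa [he, mul_one] at this
  set μr := (gauss (Fin N)).map fun g => ip (h g) (h g)
  have hrm : Measurable fun g : Fin N → ℝ => ip (h g) (h g) := by unfold ip; fun_prop
  have : IsProbabilityMeasure μr := Measure.isProbabilityMeasure_map hrm.aemeasurable
  have hpair : Measurable fun g : Fin N → ℝ => (ip (h g) (h g), nz (h g)) := hrm.prodMk (measurable_nz.comp hperp)
  have hF : Measurable fun q : ℝ × (Fin N → ℝ) => exp (q.1 * qf c q.2 / 2) := by fun_prop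
  set comb := fun q : (Fin N → ℝ) × ℝ => fun i => h q.1 i + q.2 * e i
  have hcomb : Measurable comb := measurable_pi_lambda _ fun i =>
    ((measurable_pi_apply i).comp (hperp.comp measurable_fst)).add (measurable_snd.mul_const _)
  have hfull : Integrable (fun q => exp (qf c (comb q) / 2)) ((gauss (Fin N)).prod (gaussianReal 0 1)) ∧
      ∫ q, exp (qf c (comb q) / 2) ∂((gauss (Fin N)).prod (gaussianReal 0 1)) = (√(∏ k, p k))⁻¹ := by
    have hi := (gauss_exp hp).1
    have hv := (gauss_exp hp).2
    rw [← regauss he] at hi hv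
    refine ⟨(integrable_map_measure (g := fun x => exp (qf c x / 2)) (by fun_prop) hcomb.aemeasurable).1 hi, ?_⟩
    rw [integral_map hcomb.aemeasurable (by fun_prop)] at hv
    exact hv
  set b := fun g => ∑ k, c k * h g k * e k
  have hexp : ∀ g t, qf c (comb (g, t)) = qf c (h g) + 2 * t * b g + t ^ 2 * qf c e := fun g t => by
    simp only [qf, comb, b, Finset.mul_sum, ← Finset.sum_add_distrib]
    exact Finset.sum_congr rfl fun k _ => by ring
  have hinner : ∀ᵐ g ∂gauss (Fin N), exp (qf c (h g) / 2 - C / 2) ≤ ∫ t, exp (qf c (comb (g, t)) / 2) ∂gaussianReal 0 1 := by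
    filter_upwards [hfull.1.prod_right_ae] with g hg
    have i1 : Integrable (fun t : ℝ => t) (gaussianReal 0 1) := (memLp_id_gaussianReal 1).integrable le_rfl
    have i2 : Integrable (fun t : ℝ => t ^ 2) (gaussianReal 0 1) :=
      ((memLp_sq_sub_one.integrable one_le_two).add (integrable_const 1)).congr (.of_forall fun t => by simp)
    have v2 : ∫ t, t ^ 2 ∂gaussianReal 0 1 = 1 := by
      have h := Pattern.ibp1 (F := fun t => t) (F' := fun _ => (1:ℝ)) (fun t => hasDerivAt_id t) continuous_const
        ⟨1, 1, fun x => by simp [Real.norm_eq_abs]⟩ (Pattern.Poly.const 1)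
      simpa [sq] using h
    set E0 := exp (qf c (h g) / 2 + qf c e / 2)
    have hlow : Integrable (fun t => E0 * (1 + (t * b g + (t ^ 2 - 1) * (qf c e / 2)))) (gaussianReal 0 1) :=
      ((integrable_const _).add ((i1.mul_const _).add ((i2.sub (integrable_const 1)).mul_const _))).const_mul _
    refine le_trans ?_ (integral_mono hlow hg fun t => ?_)
    · rw [integral_const_mul, integral_add (g := fun t : ℝ => t * b g + (t ^ 2 - 1) * (qf c e / 2))
          (integrable_const _) ((i1.mul_const _).add ((i2.sub (integrable_const 1)).mul_const _)),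
        integral_add (f := fun t : ℝ => t * b g) (g := fun t : ℝ => (t ^ 2 - 1) * (qf c e / 2))
          (i1.mul_const _) ((i2.sub (integrable_const 1)).mul_const _), integral_mul_const, integral_mul_const,
        integral_sub i2 (integrable_const _), v2, integral_id_gaussianReal]
      simp [E0]
      linarith [(abs_le.1 hqe).1]
    · have := mul_le_mul_of_nonneg_left (add_one_le_exp (t * b g + (t ^ 2 - 1) * (qf c e / 2))) (exp_pos (qf c (h g) / 2 + qf c e / 2)).le
      rw [← exp_add, add_comm (t * b g + _) 1] at this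
      refine this.trans (le_of_eq ?_)
      rw [hexp]; congr 1; ring
  have hih : Integrable (fun g => exp (qf c (h g) / 2)) (gauss (Fin N)) := by
    refine (hfull.1.integral_prod_left.const_mul (exp (C / 2))).mono'
      (Real.measurable_exp.comp (((measurable_qf c).comp hperp).div_const 2)).aestronglyMeasurable (hinner.mono fun g hg => ?_)
    rw [norm_eq_abs, abs_exp]
    have := mul_le_mul_of_nonneg_left hg (exp_pos (C / 2)).le
    rw [← exp_add, add_sub_cancel] at this
    exact this
  have hval : ∫ g, exp (qf c (h g) / 2) ∂gauss (Fin N) ≤ exp (C / 2) * (√(∏ k, p k))⁻¹ := by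
    rw [← hfull.2, integral_prod _ hfull.1, ← integral_const_mul]
    refine integral_mono_ae hih (hfull.1.integral_prod_left.const_mul _) (hinner.mono fun g hg => ?_)
    have := mul_le_mul_of_nonneg_left hg (exp_pos (C / 2)).le
    rw [← exp_add, add_sub_cancel] at this
    exact this
  have hae : (fun g => exp (ip (h g) (h g) * qf c (nz (h g)) / 2)) =ᵐ[gauss (Fin N)] fun g => exp (qf c (h g) / 2) :=
    (perp_ne_zero_ae hN he).mono fun g hg => by simp only [qf_smul_nz c hg, h]
  have hi : Integrable (fun q : ℝ × (Fin N → ℝ) => exp (q.1 * qf c q.2 / 2)) (μr.prod (perpLaw e)) := by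
    rw [← (law_stab hν hN he).2, integrable_map_measure hF.aestronglyMeasurable hpair.aemeasurable]
    exact hih.congr hae.symm
  have hrr : ∀ g, ip (h g) (h g) = ip g g - ip e g ^ 2 := fun g => by
    have e0 : ∀ i, h g i = g i - ip e g * e i := fun i => by simp only [h, perp, nz_of_unit he]
    have e1 : ∀ i, (g i - ip e g * e i) * (g i - ip e g * e i) =
        g i * g i - 2 * ip e g * (e i * g i) + ip e g ^ 2 * (e i * e i) := fun i => by ring
    show ∑ i, h g i * h g i = _
    simp only [e0, e1, Finset.sum_add_distrib, Finset.sum_sub_distrib, ← Finset.mul_sum]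
    rw [show ∑ i, e i * g i = ip e g from rfl, show ∑ i, e i * e i = ip e e from rfl, he]
    show ip g g - _ + _ = _
    ring
  have i2 : Integrable (fun g => ip e g ^ 2) (gauss (Fin N)) :=
    Pattern.integrable_linear e (by simpa [ip, sq] using he) (F := fun t => t ^ 2)
      (((memLp_sq_sub_one.integrable one_le_two).add (integrable_const 1)).congr (.of_forall fun t => by simp))
  have v2 : ∫ g, ip e g ^ 2 ∂gauss (Fin N) = 1 := by
    simp only [ip]
    rw [Pattern.integral_linear e (by simpa [ip, sq] using he) (F := fun t => t ^ 2) (by fun_prop)]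
    have h := Pattern.ibp1 (F := fun t => t) (F' := fun _ => (1:ℝ)) (fun t => hasDerivAt_id t) continuous_const
      ⟨1, 1, fun x => by simp [Real.norm_eq_abs]⟩ (Pattern.Poly.const 1)
    simpa [sq] using h
  have hmean : ∫ r, r ∂μr = (N:ℝ) - 1 := by
    rw [integral_map hrm.aemeasurable (by fun_prop)]
    simp only [hrr]
    rw [integral_sub integral_ip.1 i2, integral_ip.2, v2]
  have hJ := jensen_radius (perpLaw_unit hN he) (c := c) ((integrable_map_measure (g := fun r : ℝ => r) (by fun_prop) hrm.aemeasurable).2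
    ((integral_ip.1.sub i2).congr (.of_forall fun g => (hrr g).symm))) hmean hi
  rw [← (law_stab hν hN he).2, integral_map hpair.aemeasurable hF.aestronglyMeasurable, integral_congr_ae hae] at hJ
  calc ∫ f, exp ((N:ℝ) / 2 * qf c f) ∂perpLaw e
      ≤ ∫ f, exp (C / 2) * exp (((N:ℝ) - 1) / 2 * qf c f) ∂perpLaw e := by
        refine integral_mono_ae (integrable_exp_qf _ (perpLaw_unit hN he) c _)
          ((integrable_exp_qf _ (perpLaw_unit hN he) c _).const_mul _) ((perpLaw_unit hN he).mono fun f hf => ?_)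
        have := abs_qf_le (x := f) hC
        rw [hf, mul_one] at this
        show exp _ ≤ exp _ * exp _
        rw [← exp_add]
        exact exp_le_exp.2 (by linarith [(abs_le.1 this).2])
    _ ≤ exp (C / 2) * (exp (C / 2) * (√(∏ k, p k))⁻¹) := by
        rw [integral_const_mul]; exact mul_le_mul_of_nonneg_left (hJ.trans hval) (exp_pos _).le
    _ = _ := by rw [← mul_assoc, ← exp_add, add_halves]

end Vale.Agent.P166.Phase
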