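import Vale.Agent.P166.Phase.Invariance

/-!
Exponentially tilted Gaussian vectors, and the split of a Gaussian vector into a radius and a direction.
-/

open MeasureTheory ProbabilityTheory Real
open scoped ENNReal NNReal

noncomputable section

namespace Vale.Agent.P166.Phase

open Pattern (gauss)

variable {N : ℕ}

/-- diagonal quadratic form -/
def qf (c x : Fin N → ℝ) : ℝ := ∑ k, c k * x k ^ 2

/-- coordinatewise scaling -/
def sc (p x : Fin N → ℝ) : Fin N → ℝ := fun k => x k / √(p k)

/-- fluctuation constant -/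
def cfour : ℝ := ∫ t, (t ^ 2 - 1) ^ 2 ∂gaussianReal 0 1

lemma cfour_nonneg : 0 ≤ cfour := integral_nonneg fun _ => sq_nonneg _

@[fun_prop]
lemma measurable_qf (c : Fin N → ℝ) : Measurable (qf c) := by unfold qf; fun_prop

@[fun_prop]
lemma measurable_sc (p : Fin N → ℝ) : Measurable (sc p) := by unfold sc; fun_prop

lemma qf_sc {p : Fin N → ℝ} (hp : ∀ k, 0 < p k) (c x : Fin N → ℝ) :
    qf c (sc p x) = qf (fun k => c k / p k) x := by
  refine Finset.sum_congr rfl fun k _ => ?_
  simp only [sc, div_pow, Real.sq_sqrt (hp k).le]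
  ring

lemma qf_one (x : Fin N → ℝ) : qf (fun _ => 1) x = ip x x :=
  Finset.sum_congr rfl fun k _ => by ring

lemma pdf_tilt {p : ℝ} (hp : 0 < p) (t : ℝ) :
    gaussianPDFReal 0 1 t * exp ((1 - p) * t ^ 2 / 2) =
      (√p)⁻¹ * gaussianPDFReal 0 (1 / p).toNNReal t := by
  simp only [gaussianPDFReal, Real.coe_toNNReal _ (one_div_pos.2 hp).le, NNReal.coe_one, mul_one, sub_zero]
  rw [mul_assoc, ← exp_add, ← mul_assoc]
  congr 1
  · rw [← mul_inv, ← Real.sqrt_mul hp.le]
    congr 2; field_simp
  · congr 1; field_simp; ring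

lemma v_ne_zero {p : ℝ} (hp : 0 < p) : (1 / p).toNNReal ≠ 0 :=
  (Real.toNNReal_pos.2 (one_div_pos.2 hp)).ne'

lemma integrable_tilt1 {p : ℝ} (hp : 0 < p) :
    Integrable (fun t => exp ((1 - p) * t ^ 2 / 2)) (gaussianReal 0 1) := by
  rw [gaussianReal_of_var_ne_zero 0 one_ne_zero,
    integrable_withDensity_iff (measurable_gaussianPDF _ _) (Filter.Eventually.of_forall fun t => ENNReal.ofReal_lt_top)]
  refine ((integrable_gaussianPDFReal 0 (1 / p).toNNReal).const_mul (√p)⁻¹).congr
    (Filter.Eventually.of_forall fun t => ?_)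
  simp only [gaussianPDF, ENNReal.toReal_ofReal (gaussianPDFReal_nonneg _ _ _)]
  rw [← pdf_tilt hp]; ring

lemma tilt1 {p : ℝ} (hp : 0 < p) {s : Set ℝ} (hs : MeasurableSet s) :
    √p * ∫ t, s.indicator (fun t => exp ((1 - p) * t ^ 2 / 2)) t ∂gaussianReal 0 1 =
      (gaussianReal 0 (1 / p).toNNReal).real s := by
  rw [← mul_one ((gaussianReal 0 (1 / p).toNNReal).real s), ← smul_eq_mul ((gaussianReal 0 _).real s),
    ← integral_indicator_const (1:ℝ) hs, integral_gaussianReal_eq_integral_smul one_ne_zero,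
    integral_gaussianReal_eq_integral_smul (v_ne_zero hp), ← integral_const_mul]
  congr 1; funext t
  simp only [smul_eq_mul]
  by_cases ht : t ∈ s
  · rw [Set.indicator_of_mem ht, Set.indicator_of_mem ht, pdf_tilt hp, mul_one]
    field_simp
  · rw [Set.indicator_of_notMem ht, Set.indicator_of_notMem ht]; ring

lemma map_sc {p : Fin N → ℝ} (hp : ∀ k, 0 < p k) :
    (gauss (Fin N)).map (sc p) = Measure.pi fun k => gaussianReal 0 (1 / p k).toNNReal := by
  have h1 : ∀ k, (gaussianReal 0 1).map (fun t => t / √(p k)) = gaussianReal 0 (1 / p k).toNNReal := fun k => by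
    rw [show (fun t => t / √(p k)) = fun t => (√(p k))⁻¹ * t from funext fun t => by ring, gaussianReal_map_const_mul]
    simp only [mul_zero, mul_one]
    congr 1
    ext
    rw [NNReal.coe_mk, Real.coe_toNNReal _ (one_div_pos.2 (hp k)).le, inv_pow, Real.sq_sqrt (hp k).le, one_div]
  have : ∀ k, SigmaFinite ((gaussianReal 0 1).map (fun t => t / √(p k))) := fun k => by rw [h1]; infer_instance
  unfold Pattern.gauss sc
  rw [Measure.pi_map_pi (f := fun k t => t / √(p k)) fun k => (by fun_prop)]
  simp only [h1]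

/-- the tilting weight -/
def wt (p x : Fin N → ℝ) : ℝ := √(∏ k, p k) * exp (qf (fun k => 1 - p k) x / 2)

lemma wt_eq {p : Fin N → ℝ} (hp : ∀ k, 0 < p k) (x : Fin N → ℝ) :
    wt p x = ∏ k, (√(p k) * exp ((1 - p k) * x k ^ 2 / 2)) := by
  rw [Finset.prod_mul_distrib, ← exp_sum, wt, qf, Finset.sum_div, Real.sqrt_prod _ fun k _ => (hp k).le]

lemma wt_pos {p : Fin N → ℝ} (hp : ∀ k, 0 < p k) (x : Fin N → ℝ) : 0 < wt p x :=
  mul_pos (Real.sqrt_pos.2 (Finset.prod_pos fun k _ => hp k)) (exp_pos _)

@[fun_prop]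
lemma measurable_wt (p : Fin N → ℝ) : Measurable (wt p) := by unfold wt; fun_prop

/-- tilting is scaling -/
theorem tilt_measure {p : Fin N → ℝ} (hp : ∀ k, 0 < p k) :
    (gauss (Fin N)).withDensity (fun x => ENNReal.ofReal (wt p x)) = (gauss (Fin N)).map (sc p) := by
  rw [map_sc hp]
  refine (Measure.pi_eq fun s hs => ?_).symm
  rw [withDensity_apply _ (MeasurableSet.univ_pi hs), ← lintegral_indicator (MeasurableSet.univ_pi hs)]
  set f : Fin N → ℝ → ℝ := fun k t => √(p k) * (s k).indicator (fun t => exp ((1 - p k) * t ^ 2 / 2)) t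
  have hf : ∀ x : Fin N → ℝ, (Set.univ.pi s).indicator (fun x => ENNReal.ofReal (wt p x)) x =
      ENNReal.ofReal (∏ k, f k (x k)) := by
    intro x
    by_cases hx : x ∈ Set.univ.pi s
    · rw [Set.indicator_of_mem hx, wt_eq hp]
      congr 1
      refine Finset.prod_congr rfl fun k _ => ?_
      simp only [f, Set.indicator_of_mem (hx k (Set.mem_univ k))]
    · rw [Set.indicator_of_notMem hx]
      obtain ⟨k, hk⟩ : ∃ k, x k ∉ s k := by simpa [Set.mem_univ_pi] using hx
      rw [Finset.prod_eq_zero (Finset.mem_univ k) (by simp [f, Set.indicator_of_notMem hk]), ENNReal.ofReal_zero]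
  have hi : ∀ k, Integrable (f k) (gaussianReal 0 1) := fun k =>
    ((integrable_tilt1 (hp k)).indicator (hs k)).const_mul _
  have hnn : ∀ k t, 0 ≤ f k t := fun k t =>
    mul_nonneg (Real.sqrt_nonneg _) (Set.indicator_nonneg (fun _ _ => (exp_pos _).le) _)
  simp only [hf]
  unfold Pattern.gauss
  rw [← ofReal_integral_eq_lintegral_ofReal (Integrable.fintype_prod hi)
    (Filter.Eventually.of_forall fun x => Finset.prod_nonneg fun k _ => hnn k _)]
  rw [integral_fintype_prod_eq_prod f,
    ENNReal.ofReal_prod_of_nonneg fun k _ => integral_nonneg (hnn k)]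
  refine Finset.prod_congr rfl fun k _ => ?_
  simp only [f]
  rw [integral_const_mul, tilt1 (hp k) (hs k), ofReal_measureReal]

lemma integrable_tilt {p : Fin N → ℝ} (hp : ∀ k, 0 < p k) {F : (Fin N → ℝ) → ℝ} (hFm : Measurable F)
    (hF : Integrable (fun x => F (sc p x)) (gauss (Fin N))) :
    Integrable (fun x => exp (qf (fun k => 1 - p k) x / 2) * F x) (gauss (Fin N)) := by
  have h := (integrable_map_measure (μ := gauss (Fin N)) hFm.aestronglyMeasurable (measurable_sc p).aemeasurable).2 hF
  rw [← tilt_measure hp, integrable_withDensity_iff (by fun_prop)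
    (Filter.Eventually.of_forall fun t => ENNReal.ofReal_lt_top)] at h
  refine (h.const_mul (√(∏ k, p k))⁻¹).congr (Filter.Eventually.of_forall fun x => ?_)
  have : √(∏ k, p k) ≠ 0 := (Real.sqrt_pos.2 (Finset.prod_pos fun k _ => hp k)).ne'
  simp only
  rw [ENNReal.toReal_ofReal (wt_pos hp x).le, wt]
  field_simp

lemma integral_tilt {p : Fin N → ℝ} (hp : ∀ k, 0 < p k) {F : (Fin N → ℝ) → ℝ} (hFm : Measurable F) :
    ∫ x, exp (qf (fun k => 1 - p k) x / 2) * F x ∂gauss (Fin N) =
      (√(∏ k, p k))⁻¹ * ∫ x, F (sc p x) ∂gauss (Fin N) := by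
  rw [← integral_map (measurable_sc p).aemeasurable hFm.aestronglyMeasurable, ← tilt_measure hp,
    integral_withDensity_eq_integral_toReal_smul (by fun_prop) (Filter.Eventually.of_forall fun t => ENNReal.ofReal_lt_top),
    ← integral_const_mul]
  have : √(∏ k, p k) ≠ 0 := (Real.sqrt_pos.2 (Finset.prod_pos fun k _ => hp k)).ne'
  refine integral_congr_ae (Filter.Eventually.of_forall fun x => ?_)
  simp only
  rw [ENNReal.toReal_ofReal (wt_pos hp x).le, wt, smul_eq_mul]
  field_simp

lemma gauss_exp {p : Fin N → ℝ} (hp : ∀ k, 0 < p k) :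
    Integrable (fun x => exp (qf (fun k => 1 - p k) x / 2)) (gauss (Fin N)) ∧
    ∫ x, exp (qf (fun k => 1 - p k) x / 2) ∂gauss (Fin N) = (√(∏ k, p k))⁻¹ := by
  refine ⟨by simpa using integrable_tilt hp (F := fun _ => 1) measurable_const (integrable_const _), ?_⟩
  simpa using integral_tilt hp (F := fun _ => 1) measurable_const

lemma memLp_sq_sub_one : MemLp (fun t : ℝ => t ^ 2 - 1) 2 (gaussianReal 0 1) := by
  have hid : Pattern.Poly fun t : ℝ => t := ⟨1, 1, fun x => by simp [Real.norm_eq_abs]⟩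
  have h : Integrable (fun t : ℝ => (t ^ 2 - 1) ^ 2) (gaussianReal 0 1) :=
    Pattern.integrable_poly1 (by fun_prop) (((hid.pow 2).sub (Pattern.Poly.const 1)).pow 2)
  exact (memLp_two_iff_integrable_sq (by fun_prop)).2 h

lemma qf_sq (c : Fin N → ℝ) :
    Integrable (fun x => (qf c x - ∑ k, c k) ^ 2) (gauss (Fin N)) ∧
    ∫ x, (qf c x - ∑ k, c k) ^ 2 ∂gauss (Fin N) = cfour * ∑ k, c k ^ 2 := by
  set X : Fin N → ℝ → ℝ := fun k t => c k * (t ^ 2 - 1)
  have hX : ∀ k, MemLp (X k) 2 (gaussianReal 0 1) := fun k => memLp_sq_sub_one.const_mul (c k)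
  have h2 : ∫ t, t ^ 2 ∂gaussianReal 0 1 = 1 := by
    have h := Pattern.ibp1 (F := fun t => t) (F' := fun _ => (1:ℝ)) (fun t => hasDerivAt_id t) continuous_const
      ⟨1, 1, fun x => by simp [Real.norm_eq_abs]⟩ (Pattern.Poly.const 1)
    simpa [sq] using h
  have i2 : Integrable (fun t : ℝ => t ^ 2) (gaussianReal 0 1) :=
    ((memLp_sq_sub_one.integrable one_le_two).add (integrable_const 1)).congr (.of_forall fun t => by simp)
  have hm : ∀ k, ∫ t, X k t ∂gaussianReal 0 1 = 0 := fun k => by
    simp only [X]; rw [integral_const_mul, integral_sub i2 (integrable_const _), h2]; simp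
  have e : ∀ x : Fin N → ℝ, qf c x - ∑ k, c k = (∑ k, fun ω : Fin N → ℝ => X k (ω k)) x := fun x => by
    simp only [Finset.sum_apply, X, qf, ← Finset.sum_sub_distrib]
    exact Finset.sum_congr rfl fun k _ => by ring
  have hmem : MemLp (∑ k, fun ω : Fin N → ℝ => X k (ω k)) 2 (gauss (Fin N)) :=
    memLp_finsetSum' _ fun k _ => (hX k).comp_measurePreserving (measurePreserving_eval _ k)
  refine ⟨(hmem.integrable_sq).congr (.of_forall fun x => by simp [e]), ?_⟩
  have hmean : ∫ x, (∑ k, fun ω : Fin N → ℝ => X k (ω k)) x ∂gauss (Fin N) = 0 := by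
    simp only [Finset.sum_apply]
    have hk : ∀ k, Integrable (fun ω : Fin N → ℝ => X k (ω k)) (gauss (Fin N)) := fun k =>
      ((hX k).comp_measurePreserving (measurePreserving_eval (fun _ : Fin N => gaussianReal 0 1) k)).integrable one_le_two
    rw [integral_finsetSum _ fun k _ => hk k]
    refine Finset.sum_eq_zero fun k _ => ?_
    rw [Pattern.gauss, integral_comp_eval (hX k).1, hm]
  have h := variance_sum_pi (μ := fun _ : Fin N => gaussianReal 0 1) (X := X) hX
  rw [show (Measure.pi fun _ : Fin N => gaussianReal 0 1) = gauss (Fin N) from rfl,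
    variance_of_integral_eq_zero hmem.aemeasurable hmean] at h
  simp only [e]
  rw [h, Finset.mul_sum]
  refine Finset.sum_congr rfl fun k _ => ?_
  rw [variance_of_integral_eq_zero (hX k).aemeasurable (hm k), cfour]
  simp only [X, mul_pow, integral_const_mul]
  ring

/-! ### radius and direction -/

variable {ν : Measure (Mat N)}

/-- radius and direction of the projected vector are independent -/
theorem polar_gen [IsProbabilityMeasure ν] {R : Mat N → Mat N} {Pm : (Fin N → ℝ) → Fin N → ℝ}
    (hR : Measurable R) (hP : Measurable Pm) (hO : ∀ᵐ U ∂ν, Orth (R U))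
    (hcomm : ∀ᵐ U ∂ν, ∀ g, Pm (app (R U) g) = app (R U) (Pm g)) {L : Measure (Fin N → ℝ)}
    (hL : ∀ᵐ g ∂gauss (Fin N), ν.map (fun U => app (R U) (nz (Pm g))) = L) :
    L = (gauss (Fin N)).map (fun g => nz (Pm g)) ∧
    (gauss (Fin N)).map (fun g => (ip (Pm g) (Pm g), nz (Pm g))) =
      ((gauss (Fin N)).map fun g => ip (Pm g) (Pm g)).prod ((gauss (Fin N)).map fun g => nz (Pm g)) := by
  set γ := gauss (Fin N)
  set r := fun g => ip (Pm g) (Pm g)
  have hr : Measurable r := by simp only [r, ip]; fun_prop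
  have hd : Measurable fun g => nz (Pm g) := measurable_nz.comp hP
  have hj : Measurable fun g => (r g, nz (Pm g)) := hr.prodMk hd
  have hT : Measurable fun q : Mat N × (Fin N → ℝ) => (r q.2, app (R q.1) (nz (Pm q.2))) :=
    (hr.comp measurable_snd).prodMk (measurable_app.comp ((hR.comp measurable_fst).prodMk (hd.comp measurable_snd)))
  have hslice : ∀ g, Measurable fun U : Mat N => app (R U) (nz (Pm g)) := fun g =>
    measurable_app.comp (hR.prodMk measurable_const)
  have hLp : IsProbabilityMeasure L := by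
    obtain ⟨g, hg⟩ := hL.exists
    rw [← hg]; exact Measure.isProbabilityMeasure_map (hslice g).aemeasurable
  have : IsProbabilityMeasure (γ.map r) := Measure.isProbabilityMeasure_map hr.aemeasurable
  have main : γ.map (fun g => (r g, nz (Pm g))) = (γ.map r).prod L := by
    refine Measure.ext fun S hS => ?_
    have h1 : (ν.prod γ) ((fun q : Mat N × (Fin N → ℝ) => (r q.2, app (R q.1) (nz (Pm q.2)))) ⁻¹' S) =
        γ.map (fun g => (r g, nz (Pm g))) S := by
      rw [Measure.prod_apply (hT hS)]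
      calc _ = ∫⁻ _U, γ.map (fun g => (r g, nz (Pm g))) S ∂ν := by
            refine lintegral_congr_ae ((hO.and hcomm).mono fun U hU => ?_)
            have hmU : Measurable (app (R U)) := by unfold app; fun_prop
            have e : Prod.mk U ⁻¹' ((fun q : Mat N × (Fin N → ℝ) => (r q.2, app (R q.1) (nz (Pm q.2)))) ⁻¹' S) =
                app (R U) ⁻¹' ((fun g => (r g, nz (Pm g))) ⁻¹' S) := by
              ext g
              simp only [Set.mem_preimage, r, hU.2, nz_app hU.1, ip_app hU.1]
            show γ (Prod.mk U ⁻¹' _) = _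
            rw [e, ← Measure.map_apply hmU (hj hS), map_app_gauss hU.1, Measure.map_apply hj hS]
        _ = _ := by simp
    rw [← h1, Measure.prod_apply_symm (hT hS), Measure.prod_apply hS,
      lintegral_map (measurable_measure_prodMk_left hS) hr]
    refine lintegral_congr_ae (hL.mono fun g hg => ?_)
    show ν ((fun U => app (R U) (nz (Pm g))) ⁻¹' (Prod.mk (r g) ⁻¹' S)) = _
    rw [← Measure.map_apply (hslice g) (measurable_prodMk_left hS), hg]
  have hLe : L = γ.map (fun g => nz (Pm g)) := by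
    have h := congrArg (Measure.map Prod.snd) main
    rw [Measure.map_map measurable_snd hj, Measure.map_snd_prod] at h
    simpa [Function.comp_def] using h.symm
  exact ⟨hLe, hLe ▸ main⟩

end Vale.Agent.P166.Phase
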